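import Vale.Agent.P141.H186.Shift2
import Vale.Agent.P141.PL.H588.Asm

/-!
# P141: the functional `BF` with the weights `(2/3)^r`, and its step
-/

namespace Vale.Agent.P141.H186

open Finset Matrix Vale.Agent.P075 Vale.Agent.P141.PL Vale.Agent.P141.PL.H588
open Vale.Agent.P141.PL.H103 (Xg_psd)

noncomputable section

/-- weighted energies with coarser outer scales -/
def Wt2 (N : ℕ) (R S : ℤ) (k : ℕ) (F : ℤ → ℤ → ℝ) : ℝ :=
  ∑ r ∈ range (N - k + 1), (2 / 3 : ℝ) ^ r * en N R S (k + r) k F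

theorem Wt2_nonneg (N : ℕ) (R S : ℤ) (k : ℕ) (F : ℤ → ℤ → ℝ) : 0 ≤ Wt2 N R S k F :=
  sum_nonneg fun r _ => mul_nonneg (by positivity) (en_nonneg ..)

theorem Wt2_step {N k : ℕ} (h : k < N) (R S : ℤ) (F : ℤ → ℤ → ℝ) :
    Wt2 N R S (k + 1) F + SE2 N R S k F ≤ Wt2 N R S k F := by
  unfold Wt2 SE2
  have e : N - (k + 1) + 1 = N - k := by omega
  have e2 : k + (N - k) = N := by omega
  rw [e, sum_range_succ, e2]
  have h1 : ∑ r ∈ range (N - k), (2 / 3 : ℝ) ^ r * en N R S (k + 1 + r) (k + 1) F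
      ≤ ∑ r ∈ range (N - k), (2 / 3 : ℝ) ^ r * en N R S (k + r + 1) k F := by
    refine sum_le_sum fun r _ => mul_le_mul_of_nonneg_left ?_ (by positivity)
    rw [show k + 1 + r = k + r + 1 by ring]
    exact en_col_le h R S _ F
  have h2 : ∑ r ∈ range (N - k), (2 / 3 : ℝ) ^ r * (en N R S (k + r) k F - en N R S (k + r + 1) k F)
      = ∑ r ∈ range (N - k), (2 / 3 : ℝ) ^ r * en N R S (k + r) k F
        - ∑ r ∈ range (N - k), (2 / 3 : ℝ) ^ r * en N R S (k + r + 1) k F := by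
    rw [← sum_sub_distrib]
    exact sum_congr rfl fun r _ => by ring
  rw [h2]
  linarith

/-- **The functional.** -/
def BF2 (N : ℕ) (R S T : ℤ) (c : ℕ → ℤ) (k : ℕ) (f : (ℤ → ℤ → ℝ) × (ℤ → ℤ → ℝ)) : ℝ :=
  2 * (Mk N R S T k (c k) f.1 f.2 + 14 * (en N R S k k f.1 + en N T S k k f.2)
    + 64 * (Wt2 N R S k f.1 + Wt2 N T S k f.2))

theorem BF2_nonneg (N : ℕ) (R S T : ℤ) (c : ℕ → ℤ) (k : ℕ) (f : (ℤ → ℤ → ℝ) × (ℤ → ℤ → ℝ)) :
    0 ≤ BF2 N R S T c k f := by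
  unfold BF2
  have h1 := Mk_nonneg N R S T k (c k) f.1 f.2
  have h2 := en_nonneg N R S k k f.1
  have h3 := en_nonneg N T S k k f.2
  have h4 := Wt2_nonneg N R S k f.1
  have h5 := Wt2_nonneg N T S k f.2
  positivity

/-- **Step.** -/
theorem BF2_step {N k : ℕ} (h : k < N) (R S T : ℤ) {c : ℕ → ℤ} (hc : Pl c)
    (f : (ℤ → ℤ → ℝ) × (ℤ → ℤ → ℝ)) :
    BF2 N R S T c (k + 1) f + mnk N R S T (k + 1) (c (k + 1)) f.1 f.2 ≤ BF2 N R S T c k f := by
  obtain ⟨F, H⟩ := f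
  have h1 := split h R S T (c (k + 1)) F H
  have h2 := shift2_abs N R S T k h.le F H (fun m => c k - m)
    (fun m => 2 * (c (k + 1) - m / 2) + 1) 2 (fun m => by
      have := hc k
      rw [abs_le]
      push_cast
      constructor <;> omega)
  have h3 : (4 : ℝ) ^ k * ∑ m ∈ iv (N - k) S, al N R T k F H m (2 * (c (k + 1) - m / 2) + 1)
      ≤ Mk N R S T k (c k) F H + 4 ^ k * ∑ m ∈ iv (N - k) S,
        |H103.al N R T k F H m (2 * (c (k + 1) - m / 2) + 1) - H103.al N R T k F H m (c k - m)| := by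
    rw [Mk_eq, ← mul_add, ← sum_add_distrib]
    refine mul_le_mul_of_nonneg_left (sum_le_sum fun m _ => ?_) (by positivity)
    have := le_abs_self (al N R T k F H m (2 * (c (k + 1) - m / 2) + 1) - al N R T k F H m (c k - m))
    have e : ∀ s, H103.al N R T k F H m s = al N R T k F H m s := fun s => rfl
    rw [e, e]
    linarith
  have h4 := Wt2_step h R S F
  have h5 := Wt2_step h T S H
  push_cast at h2
  unfold BF2
  simp only
  linarith

theorem Wt2_zero_le (N : ℕ) (R S : ℤ) (F : ℤ → ℤ → ℝ) : Wt2 N R S 0 F ≤ 4 * en N R S 0 0 F := by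
  unfold Wt2
  have h1 : ∑ r ∈ range (N - 0 + 1), (2 / 3 : ℝ) ^ r * en N R S (0 + r) 0 F
      ≤ ∑ r ∈ range (N - 0 + 1), (2 / 3 : ℝ) ^ r * en N R S 0 0 F := by
    refine sum_le_sum fun r hr => ?_
    have := mem_range.mp hr
    exact mul_le_mul_of_nonneg_left (en_row_mono (by omega) (by omega) R S 0 F) (by positivity)
  refine h1.trans ?_
  rw [← sum_mul]
  refine mul_le_mul_of_nonneg_right ?_ (en_nonneg ..)
  have := geo23_le (N - 0 + 1)
  linarith

theorem BF2_zero_le (N : ℕ) (R S T : ℤ) (c : ℕ → ℤ) (f : (ℤ → ℤ → ℝ) × (ℤ → ℤ → ℝ)) :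
    BF2 N R S T c 0 f ≤ 544 * (sq N R S f.1 + sq N T S f.2) := by
  unfold BF2
  have h1 := Mk_le N R S T 0 (c 0) f.1 f.2
  have h2 := Wt2_zero_le N R S f.1
  have h3 := Wt2_zero_le N T S f.2
  have h4 := en_zero_le N R S f.1
  have h5 := en_zero_le N T S f.2
  linarith

end

end Vale.Agent.P141.H186
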