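import Vale.Agent.P141.H401.PartF

/-!
# P141, line A: the exponents of `H401.PartX` / `H401.PartY` chosen once

`PartXg Φ` : the quantifiers of `H401.PartX`, bound
`C * (t * (t / r) ^ g * t ^ (-(b * (c + d))) * s ^ (5/4) * √ez * 8 ^ K)` with any `g > 0`, `b ≥ 0`.
`partX_of_gain : PartXg Φ → PartX Φ` for `Φ` monotone in the bound.
-/

namespace Vale.Agent.P141.H186.ClosX

open Vale.Agent.P141.PL (Pt iv hs cx)
open Vale.Agent.P141.PL.H315 (Tri)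
open Vale.Agent.P141.H48 (US ES)
open Vale.Agent.P141.H305 (ClsM kapM)
open Vale.Agent.P141.H401 (StX PartX PartY Bun FunF PartF)

noncomputable section

open scoped Classical

/-- monotone in the bound -/
def MonoX (Φ : StX) : Prop :=
  ∀ (ι : Type) [Fintype ι] [DecidableEq ι] (p : H401.Num) (n : ℕ) (ez : ℝ)
    (F1 F2 F3 : ℕ → Pt → ℝ) (o : ℤ) (K : ℕ) (x : Pt) (s r : ℝ) (U : Tri) (g : ℤ → ℤ → ℝ)
    (u v : ℤ → ℤ → ι → ℝ) (B B' : ℝ), B ≤ B' →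
    Φ ι p n ez F1 F2 F3 o K x s r U g u v B → Φ ι p n ez F1 F2 F3 o K x s r U g u v B'

/-- **The quantifiers with a gain `g` in `t / r` and a loss `b` in `c + d`.** -/
def PartXg (Φ : StX) : Prop :=
  ∀ a : ℝ, 0 < a → a ≤ 1 →
  ∃ es : ℝ, 0 < es ∧ ∀ e0 : ℝ, 0 < e0 → e0 ≤ es →
  ∃ k8s : ℝ, 0 < k8s ∧ ∀ k8 : ℝ, 0 < k8 → k8 ≤ k8s →
  ∃ k3s : ℝ, 0 < k3s ∧ ∀ k3 : ℝ, 0 < k3 → k3 ≤ k3s →
  ∃ g b c1 d1 : ℝ, 0 < g ∧ 0 ≤ b ∧ 0 < c1 ∧ 0 < d1 ∧ ∀ c : ℝ, 0 ≤ c → c ≤ c1 →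
  ∀ d : ℝ, 0 < d → d ≤ d1 →
  ∀ Kt e cP L : ℝ, 0 < Kt → 1 ≤ e → 0 ≤ cP → 1 ≤ L → ∀ CD : ℝ, 1 ≤ CD → ∃ C : ℝ, 0 ≤ C ∧
  ∀ t : ℝ, 0 < t → t ≤ 1 → ∀ (n : ℕ) (ez : ℝ) (F1 F2 F3 : ℕ → Pt → ℝ),
    US n (Kt * t ^ (1 - c)) e cP F1 → US n (Kt * t ^ (1 - c)) e cP F3 → ES n ez cP F2 →
  ∀ o : ℤ, o = 1 ∨ o = -1 → ∀ K ≤ n, ∀ (x : Pt) (ι : Type) [Fintype ι] [DecidableEq ι]
    (s r : ℝ) (U : Tri) (g' : ℤ → ℤ → ℝ) (u v : ℤ → ℤ → ι → ℝ), 0 < s → 1 ≤ r →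
    ClsM K x s r (L * t ^ (2 - c) * √s) (kapM L t a s r) U g' u v →
    Φ ι ⟨a, e0, k8, k3, c, d, Kt, e, cP, L, CD, t⟩ n ez F1 F2 F3 o K x s r U g' u v
      (C * (t * (t / r) ^ g * t ^ (-(b * (c + d))) * s ^ (5 / 4 : ℝ) * √ez * 8 ^ K))

/-- the same for makers: the constant `CD` is chosen -/
def PartYg (Φ : StX) : Prop :=
  ∀ a : ℝ, 0 < a → a ≤ 1 →
  ∃ es : ℝ, 0 < es ∧ ∀ e0 : ℝ, 0 < e0 → e0 ≤ es →
  ∃ k8s : ℝ, 0 < k8s ∧ ∀ k8 : ℝ, 0 < k8 → k8 ≤ k8s →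
  ∃ k3s : ℝ, 0 < k3s ∧ ∀ k3 : ℝ, 0 < k3 → k3 ≤ k3s →
  ∃ g b c1 d1 : ℝ, 0 < g ∧ 0 ≤ b ∧ 0 < c1 ∧ 0 < d1 ∧ ∀ c : ℝ, 0 ≤ c → c ≤ c1 →
  ∀ d : ℝ, 0 < d → d ≤ d1 →
  ∀ Kt e cP L : ℝ, 0 < Kt → 1 ≤ e → 0 ≤ cP → 1 ≤ L → ∃ CD : ℝ, 1 ≤ CD ∧ ∃ C : ℝ, 0 ≤ C ∧
  ∀ t : ℝ, 0 < t → t ≤ 1 → ∀ (n : ℕ) (ez : ℝ) (F1 F2 F3 : ℕ → Pt → ℝ),
    US n (Kt * t ^ (1 - c)) e cP F1 → US n (Kt * t ^ (1 - c)) e cP F3 → ES n ez cP F2 →
  ∀ o : ℤ, o = 1 ∨ o = -1 → ∀ K ≤ n, ∀ (x : Pt) (ι : Type) [Fintype ι] [DecidableEq ι]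
    (s r : ℝ) (U : Tri) (g' : ℤ → ℤ → ℝ) (u v : ℤ → ℤ → ι → ℝ), 0 < s → 1 ≤ r →
    ClsM K x s r (L * t ^ (2 - c) * √s) (kapM L t a s r) U g' u v →
    Φ ι ⟨a, e0, k8, k3, c, d, Kt, e, cP, L, CD, t⟩ n ez F1 F2 F3 o K x s r U g' u v
      (C * (t * (t / r) ^ g * t ^ (-(b * (c + d))) * s ^ (5 / 4 : ℝ) * √ez * 8 ^ K))

/-- the arithmetic -/
theorem gain_le {t r s ez C g b c d : ℝ} {K : ℕ} (ht : 0 < t) (ht1 : t ≤ 1) (hr : 1 ≤ r)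
    (hs : 0 ≤ s) (hC : 0 ≤ C) (hb : 0 ≤ b) (hg : 0 < g)
    (hc : c ≤ g / (4 * (b + 1))) (hd : d ≤ g / (4 * (b + 1))) :
    C * (t * (t / r) ^ g * t ^ (-(b * (c + d))) * s ^ (5 / 4 : ℝ) * √ez * 8 ^ K) ≤
      C * (t ^ (1 + g / 2) * s ^ (5 / 4 : ℝ) * √ez * 8 ^ K) * r ^ (-g) := by
  have hr0 : 0 < r := by linarith
  have h1 : t * (t / r) ^ g * t ^ (-(b * (c + d))) = t ^ (1 + g - b * (c + d)) * r ^ (-g) := by
    rw [Real.div_rpow ht.le hr0.le, Real.rpow_neg hr0.le, div_eq_mul_inv,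
      show 1 + g - b * (c + d) = 1 + g + -(b * (c + d)) by ring, Real.rpow_add ht,
      Real.rpow_add ht, Real.rpow_one]
    ring
  have h2 : b * (c + d) ≤ g / 2 := by
    have h3 : c + d ≤ g / (2 * (b + 1)) := by
      have : g / (4 * (b + 1)) + g / (4 * (b + 1)) = g / (2 * (b + 1)) := by
        field_simp
        ring
      linarith
    have h4 : b * (c + d) ≤ b * (g / (2 * (b + 1))) := mul_le_mul_of_nonneg_left h3 hb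
    have h5 : b * (g / (2 * (b + 1))) ≤ g / 2 := by
      rw [← mul_div_assoc, div_le_div_iff₀ (by positivity) (by norm_num)]
      nlinarith
    linarith
  have h6 : t ^ (1 + g - b * (c + d)) ≤ t ^ (1 + g / 2) :=
    Real.rpow_le_rpow_of_exponent_ge ht ht1 (by linarith)
  rw [h1]
  calc C * (t ^ (1 + g - b * (c + d)) * r ^ (-g) * s ^ (5 / 4 : ℝ) * √ez * 8 ^ K) =
      C * (t ^ (1 + g - b * (c + d)) * s ^ (5 / 4 : ℝ) * √ez * 8 ^ K) * r ^ (-g) := by ring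
    _ ≤ _ := by gcongr

/-- **Every exponent of `PartX` chosen.** -/
theorem partX_of_gain {Φ : StX} (hm : MonoX Φ) (H : PartXg Φ) : PartX Φ := by
  intro a ha ha1
  obtain ⟨es, hes, H⟩ := H a ha ha1
  refine ⟨es, hes, fun e0 he0 he0' => ?_⟩
  obtain ⟨k8s, hk8s, H⟩ := H e0 he0 he0'
  refine ⟨k8s, hk8s, fun k8 hk8 hk8' => ?_⟩
  obtain ⟨k3s, hk3s, H⟩ := H k8 hk8 hk8'
  refine ⟨k3s, hk3s, fun k3 hk3 hk3' => ?_⟩
  obtain ⟨g, b, c1, d1, hg, hb, hc1, hd1, H⟩ := H k3 hk3 hk3'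
  have hq : 0 < g / (4 * (b + 1)) := by positivity
  refine ⟨g / 2, min c1 (g / (4 * (b + 1))), min d1 (g / (4 * (b + 1))), g, by positivity,
    lt_min hc1 hq, lt_min hd1 hq, hg, fun c hc hcc d hd hdd Kt e cP L hK he hcP hL CD hCD => ?_⟩
  obtain ⟨C, hC, H⟩ := H c hc (hcc.trans (min_le_left _ _)) d hd (hdd.trans (min_le_left _ _))
    Kt e cP L hK he hcP hL CD hCD
  refine ⟨C, hC, ?_⟩
  intro t ht ht1 n ez F1 F2 F3 h1 h3 h2 o ho K hKn x ι _ _ s r U g' u v hs hr hcls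
  exact hm ι _ n ez F1 F2 F3 o K x s r U g' u v _ _
    (gain_le ht ht1 hr hs.le hC hb hg (hcc.trans (min_le_right _ _)) (hdd.trans (min_le_right _ _)))
    (H t ht ht1 n ez F1 F2 F3 h1 h3 h2 o ho K hKn x ι s r U g' u v hs hr hcls)

/-- **Every exponent of `PartY` chosen.** -/
theorem partY_of_gain {Φ : StX} (hm : MonoX Φ) (H : PartYg Φ) : PartY Φ := by
  intro a ha ha1
  obtain ⟨es, hes, H⟩ := H a ha ha1
  refine ⟨es, hes, fun e0 he0 he0' => ?_⟩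
  obtain ⟨k8s, hk8s, H⟩ := H e0 he0 he0'
  refine ⟨k8s, hk8s, fun k8 hk8 hk8' => ?_⟩
  obtain ⟨k3s, hk3s, H⟩ := H k8 hk8 hk8'
  refine ⟨k3s, hk3s, fun k3 hk3 hk3' => ?_⟩
  obtain ⟨g, b, c1, d1, hg, hb, hc1, hd1, H⟩ := H k3 hk3 hk3'
  have hq : 0 < g / (4 * (b + 1)) := by positivity
  refine ⟨g / 2, min c1 (g / (4 * (b + 1))), min d1 (g / (4 * (b + 1))), g, by positivity,
    lt_min hc1 hq, lt_min hd1 hq, hg, fun c hc hcc d hd hdd Kt e cP L hK he hcP hL => ?_⟩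
  obtain ⟨CD, hCD, C, hC, H⟩ := H c hc (hcc.trans (min_le_left _ _)) d hd
    (hdd.trans (min_le_left _ _)) Kt e cP L hK he hcP hL
  refine ⟨CD, hCD, C, hC, ?_⟩
  intro t ht ht1 n ez F1 F2 F3 h1 h3 h2 o ho K hKn x ι _ _ s r U g' u v hs hr hcls
  exact hm ι _ n ez F1 F2 F3 o K x s r U g' u v _ _
    (gain_le ht ht1 hr hs.le hC hb hg (hcc.trans (min_le_right _ _)) (hdd.trans (min_le_right _ _)))
    (H t ht ht1 n ez F1 F2 F3 h1 h3 h2 o ho K hKn x ι s r U g' u v hs hr hcls)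

/-- the statement inside `H401.PartF` -/
def StF (D : Bun) (T : FunF) : StX :=
  fun ι _ _ p n ez F1 F2 F3 o K x s r U g u v B =>
    ∀ (A : ℤ → ℕ → ℤ → ℤ → ℝ) (b C : ℤ → ℕ → ℤ → ℤ → ι → ℝ),
      D ι p n ez F1 F2 F3 o K x s r U g u v A b C →
      ∀ sg : ℕ → Pt → ℝ, (∀ k m, |sg k m| ≤ 1) →
        T ι (p.lam s r) o (p.al U K) K x u A b C sg ≤ B

theorem monoX_StF (D : Bun) (T : FunF) : MonoX (StF D T) := by
  intro ι _ _ p n ez F1 F2 F3 o K x s r U g u v B B' hB h A b C hD sg hsg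
  exact (h A b C hD sg hsg).trans hB

/-- **`PartF` from a gain.** -/
theorem partF_of_gain {D : Bun} {T : FunF} (H : PartXg (StF D T)) : PartF D T :=
  partX_of_gain (monoX_StF D T) H

/-- **Logarithms**: powers of `1 + log (1 / y)` against a small power of `y`. -/
theorem log_pow_le (k : ℕ) {δ : ℝ} (hδ : 0 < δ) :
    ∃ C : ℝ, 1 ≤ C ∧ ∀ y : ℝ, 0 < y → y ≤ 1 → (1 + Real.log (1 / y)) ^ k ≤ C * y ^ (-δ) := by
  have hk : (0 : ℝ) < (k : ℝ) + 1 := by positivity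
  set ε : ℝ := δ / ((k : ℝ) + 1) with hε
  have hε0 : 0 < ε := div_pos hδ hk
  refine ⟨(1 + 1 / ε) ^ k, one_le_pow₀ (by have : 0 < 1 / ε := by positivity
                                           linarith), ?_⟩
  intro y hy hy1
  have hiy : 1 ≤ 1 / y := by
    rw [le_div_iff₀ hy]
    linarith
  have h1 : Real.log (1 / y) ≤ (1 / y) ^ ε / ε := Real.log_le_rpow_div (by positivity) hε0
  have h2 : 1 ≤ (1 / y) ^ ε := Real.one_le_rpow hiy hε0.le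
  have h3 : 1 + Real.log (1 / y) ≤ (1 + 1 / ε) * (1 / y) ^ ε := by
    calc 1 + Real.log (1 / y) ≤ (1 / y) ^ ε + (1 / y) ^ ε / ε := add_le_add h2 h1
      _ = _ := by ring
  have h0 : 0 ≤ 1 + Real.log (1 / y) := by
    have := Real.log_nonneg hiy
    linarith
  have h4 : ((1 / y) ^ ε) ^ k ≤ y ^ (-δ) := by
    rw [← Real.rpow_natCast ((1 / y) ^ ε) k, ← Real.rpow_mul (by positivity), one_div,
      Real.inv_rpow hy.le, ← Real.rpow_neg hy.le]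
    refine Real.rpow_le_rpow_of_exponent_ge hy hy1 ?_
    have : ε * (k : ℝ) ≤ δ := by
      have e1 : ε * ((k : ℝ) + 1) = δ := by rw [hε]; field_simp
      nlinarith
    linarith
  calc (1 + Real.log (1 / y)) ^ k ≤ ((1 + 1 / ε) * (1 / y) ^ ε) ^ k := pow_le_pow_left₀ h0 h3 k
    _ = (1 + 1 / ε) ^ k * ((1 / y) ^ ε) ^ k := by rw [mul_pow]
    _ ≤ (1 + 1 / ε) ^ k * y ^ (-δ) := by
        refine mul_le_mul_of_nonneg_left h4 ?_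
        positivity

end

end Vale.Agent.P141.H186.ClosX
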