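import Vale.Agent.P141.H186.CloseY

/-!
# P141, line A: the stage sum closed for one slot of energy `m = v ^ 8`

`close_v` : pair numbers `P₀, P₁, EA ≤ N`, `E ≤ N v ^ 4`, `EV ≤ N / v ^ 4`, crude numbers `N H`,
caps of the third function `H τ`: the form is at most
`162 (1 + Λ) (1 + log (K H / v ^ 8)) N τ v`.
-/

namespace Vale.Agent.P141.H186.CloseM

open Vale.Agent.P141.H186.PriceC Vale.Agent.P141.H186.CloseY

noncomputable section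

/-- the number of levels -/
theorem exists_lv (x : ℝ) (hx : 1 ≤ x) :
    ∃ L : ℕ, x ≤ 2 ^ (L - 1) ∧ (L : ℝ) ≤ 2 * Real.log x + 2 := by
  have hx0 : 0 < x := by linarith
  have hl : 0 ≤ Real.log x := Real.log_nonneg hx
  have h2l : 1 / 2 ≤ Real.log 2 := by
    have := Real.log_two_gt_d9
    linarith
  refine ⟨⌈2 * Real.log x⌉₊ + 1, ?_, ?_⟩
  · rw [Nat.add_sub_cancel]
    have h1 : 2 * Real.log x ≤ (⌈2 * Real.log x⌉₊ : ℝ) := Nat.le_ceil _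
    rw [← Real.log_le_log_iff hx0 (by positivity), Real.log_pow]
    have h2 : (0 : ℝ) ≤ (⌈2 * Real.log x⌉₊ : ℝ) := Nat.cast_nonneg _
    nlinarith
  · push_cast
    linarith [(Nat.ceil_lt_add_one (by positivity : 0 ≤ 2 * Real.log x)).le]

/-- levels from `c` down to `g` -/
theorem exists_lv' {c g x : ℝ} (hx : 1 ≤ x) (hg : 0 < g) (h : c ≤ x * g) :
    ∃ L : ℕ, c / 2 ^ (L - 1) ≤ g ∧ (L : ℝ) ≤ 2 * Real.log x + 2 := by
  obtain ⟨L, h1, h2⟩ := exists_lv x hx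
  refine ⟨L, ?_, h2⟩
  rw [div_le_iff₀ (by positivity)]
  calc c ≤ x * g := h
    _ ≤ 2 ^ (L - 1) * g := mul_le_mul_of_nonneg_right h1 hg.le
    _ = _ := by ring

/-- square roots of products -/
theorem sq_prod {N v τ Λ P Q j : ℝ} (hN : 0 ≤ N) (hτ : 0 ≤ τ) (hΛ : 0 ≤ Λ)
    (hj : 0 ≤ j) (hQ : 0 ≤ Q) (h1 : P ≤ N) (h2 : Q ≤ 2 * Λ * N * τ ^ 2 * j ^ 2) (hjv : j ≤ v) :
    √(P * Q) ≤ (1 + Λ) * (N * τ * v) := by
  refine (sqrt_le_of (Z := (1 + Λ) * (N * τ * j)) (by positivity) ?_).trans ?_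
  · have h3 : P * Q ≤ N * (2 * Λ * N * τ ^ 2 * j ^ 2) := mul_le_mul h1 h2 hQ hN
    refine h3.trans ?_
    have h4 : 2 * Λ ≤ (1 + Λ) ^ 2 := by nlinarith [sq_nonneg Λ]
    calc N * (2 * Λ * N * τ ^ 2 * j ^ 2) = 2 * Λ * (N * τ * j) ^ 2 := by ring
      _ ≤ (1 + Λ) ^ 2 * (N * τ * j) ^ 2 := mul_le_mul_of_nonneg_right h4 (sq_nonneg _)
      _ = _ := by ring
  · gcongr

/-- the levels -/
theorem levels_v {v H K τ cC e₂ : ℝ} (hv : 0 < v) (hv1 : v ≤ 1) (hH : 1 ≤ H) (hK : 1 ≤ K)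
    (hτ : 0 < τ) (he0 : 0 < e₂) (hHe : (1 + H) * e₂ = v ^ 2 * τ) (nC : cC ≤ H * τ) :
    ∃ D L₀ L₁ : ℕ, τ / 2 ^ (D - 1) ≤ e₂ / K ∧ cC / 2 ^ (L₀ - 1) ≤ v ^ 2 * τ ∧
      cC / 2 ^ (L₁ - 1) ≤ e₂ ∧ (D : ℝ) ≤ 4 * (1 + Real.log (K * H / v ^ 8)) ∧
      (L₀ : ℝ) ≤ 2 * (1 + Real.log (K * H / v ^ 8)) ∧
      (L₁ : ℝ) ≤ 6 * (1 + Real.log (K * H / v ^ 8)) := by
  have hv2 : 0 < v ^ 2 := by positivity
  have hv21 : v ^ 2 ≤ 1 := pow_le_one₀ hv.le hv1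
  have hg0 : 0 < v ^ 2 * τ := mul_pos hv2 hτ
  have hK0 : 0 < K := by linarith
  have hH0 : 0 < H := by linarith
  have hσ0 : 0 < e₂ / K := by positivity
  have lH : 0 ≤ Real.log H := Real.log_nonneg hH
  have lK : 0 ≤ Real.log K := Real.log_nonneg hK
  have lv : Real.log v ≤ 0 := Real.log_nonpos hv.le hv1
  have l2 : Real.log 2 ≤ 1 := by
    have := Real.log_two_lt_d9
    linarith
  have hℓ : Real.log (K * H / v ^ 8) = Real.log K + Real.log H - 8 * Real.log v := by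
    rw [Real.log_div (by positivity) (by positivity), Real.log_mul (by positivity) (by positivity),
      Real.log_pow]
    push_cast
    ring
  have hH2 : 1 + H ≤ 2 * H := by linarith
  have x1 : 1 ≤ K * (2 * H) / v ^ 2 := by
    rw [le_div_iff₀ hv2]
    nlinarith
  have x2 : 1 ≤ H / v ^ 2 := by
    rw [le_div_iff₀ hv2]
    linarith
  have x3 : 1 ≤ H * (2 * H) / v ^ 2 := by
    rw [le_div_iff₀ hv2]
    nlinarith
  obtain ⟨D, hD1, hD2⟩ := exists_lv' (c := τ) (g := e₂ / K) x1 hσ0 (by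
      have h1 : K * (2 * H) / v ^ 2 * (e₂ / K) = 2 * H * e₂ / v ^ 2 := by field_simp
      rw [h1, le_div_iff₀ hv2]
      calc τ * v ^ 2 = (1 + H) * e₂ := by rw [hHe]; ring
        _ ≤ 2 * H * e₂ := mul_le_mul_of_nonneg_right hH2 he0.le)
  obtain ⟨L₀, hL1, hL2⟩ := exists_lv' (c := cC) (g := v ^ 2 * τ) x2 hg0 (by
      have h1 : H / v ^ 2 * (v ^ 2 * τ) = H * τ := by field_simp
      rw [h1]
      exact nC)
  obtain ⟨L₁, hM1, hM2⟩ := exists_lv' (c := cC) (g := e₂) x3 he0 (by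
      refine nC.trans ?_
      rw [div_mul_eq_mul_div, le_div_iff₀ hv2]
      calc H * τ * v ^ 2 = H * ((1 + H) * e₂) := by rw [hHe]; ring
        _ ≤ H * (2 * H * e₂) :=
            mul_le_mul_of_nonneg_left (mul_le_mul_of_nonneg_right hH2 he0.le) hH0.le
        _ = _ := by ring)
  refine ⟨D, L₀, L₁, hD1, hL1, hM1, ?_, ?_, ?_⟩
  · refine hD2.trans ?_
    rw [Real.log_div (by positivity) (by positivity), Real.log_mul (by positivity) (by positivity),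
      Real.log_mul (by positivity) (by positivity), Real.log_pow, hℓ]
    push_cast
    linarith
  · refine hL2.trans ?_
    rw [Real.log_div (by positivity) (by positivity), Real.log_pow, hℓ]
    push_cast
    linarith
  · refine hM2.trans ?_
    rw [Real.log_div (by positivity) (by positivity), Real.log_mul (by positivity) (by positivity),
      Real.log_mul (by positivity) (by positivity), Real.log_pow, hℓ]
    push_cast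
    linarith

/-- the arithmetic -/
theorem fin_v {v H Λ N τ P₀ P₁ Z e₂ ℓ : ℝ} {D L₀ L₁ : ℕ} (hv : 0 < v) (hv1 : v ≤ 1) (hH : 1 ≤ H)
    (hΛ : 0 ≤ Λ) (hN : 0 ≤ N) (hτ : 0 < τ) (he0 : 0 < e₂)
    (hHe : (1 + H) * e₂ = v ^ 2 * τ) (nP₀ : P₀ ≤ N) (nP₁ : P₁ ≤ N) (nZ : Z ≤ N * H) (hℓ : 1 ≤ ℓ)
    (bD : (D : ℝ) ≤ 4 * ℓ) (bL : (L₀ : ℝ) ≤ 2 * ℓ) (bM : (L₁ : ℝ) ≤ 6 * ℓ) :
    6 * (2 * Λ * (N * τ * v)) * L₀ +
      6 * D * (√(P₀ * ((v ^ 2 * τ) * τ * (N * (Λ * (v ^ 2 + v ^ 2))))) +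
        √(P₀ * ((v ^ 2 * τ) * τ * (N * (Λ * (1 + 1)))))) +
      6 * L₁ * √(P₁ * ((v ^ 2 * τ) * τ * (N * (Λ * (1 + 1))))) + 54 * (P₀ + Z) * e₂ ≤
      162 * (1 + Λ) * ℓ * (N * τ * v) := by
  have hv2 : 0 < v ^ 2 := by positivity
  have hvv : v ^ 2 ≤ v := by nlinarith
  have r1 : √(P₀ * ((v ^ 2 * τ) * τ * (N * (Λ * (v ^ 2 + v ^ 2))))) ≤ (1 + Λ) * (N * τ * v) :=
    sq_prod (j := v ^ 2) hN hτ.le hΛ hv2.le (by positivity) nP₀ (le_of_eq (by ring)) hvv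
  have r2 : √(P₀ * ((v ^ 2 * τ) * τ * (N * (Λ * (1 + 1))))) ≤ (1 + Λ) * (N * τ * v) :=
    sq_prod (j := v) hN hτ.le hΛ hv.le (by positivity) nP₀ (le_of_eq (by ring)) le_rfl
  have r3 : √(P₁ * ((v ^ 2 * τ) * τ * (N * (Λ * (1 + 1))))) ≤ (1 + Λ) * (N * τ * v) :=
    sq_prod (j := v) hN hτ.le hΛ hv.le (by positivity) nP₁ (le_of_eq (by ring)) le_rfl
  have r4 : (P₀ + Z) * e₂ ≤ N * τ * v := by
    calc (P₀ + Z) * e₂ ≤ (N + N * H) * e₂ :=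
          mul_le_mul_of_nonneg_right (add_le_add nP₀ nZ) he0.le
      _ = N * ((1 + H) * e₂) := by ring
      _ = N * τ * v ^ 2 := by rw [hHe]; ring
      _ ≤ N * τ * v := mul_le_mul_of_nonneg_left hvv (by positivity)
  have hW0 : 0 ≤ N * τ * v := by positivity
  generalize N * τ * v = W at r1 r2 r3 r4 hW0
  generalize √(P₀ * ((v ^ 2 * τ) * τ * (N * (Λ * (v ^ 2 + v ^ 2))))) = s1 at r1
  generalize √(P₀ * ((v ^ 2 * τ) * τ * (N * (Λ * (1 + 1))))) = s2 at r2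
  generalize √(P₁ * ((v ^ 2 * τ) * τ * (N * (Λ * (1 + 1))))) = s3 at r3
  have hΛ1 : 0 ≤ 1 + Λ := by linarith
  have nD : (0 : ℝ) ≤ (D : ℝ) := Nat.cast_nonneg _
  have nL : (0 : ℝ) ≤ (L₀ : ℝ) := Nat.cast_nonneg _
  have nM : (0 : ℝ) ≤ (L₁ : ℝ) := Nat.cast_nonneg _
  have hX : 0 ≤ (1 + Λ) * W := by positivity
  have hℓ0 : 0 ≤ ℓ := by linarith
  have t1 : 6 * (2 * Λ * W) * L₀ ≤ 24 * ((1 + Λ) * ℓ * W) := by
    have h0 : 6 * (2 * Λ * W) ≤ 12 * ((1 + Λ) * W) := by nlinarith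
    calc 6 * (2 * Λ * W) * L₀ ≤ 12 * ((1 + Λ) * W) * (2 * ℓ) :=
          mul_le_mul h0 bL nL (by positivity)
      _ = _ := by ring
  have t2 : 6 * D * (s1 + s2) ≤ 48 * ((1 + Λ) * ℓ * W) := by
    have h0 : s1 + s2 ≤ 2 * ((1 + Λ) * W) := by linarith
    calc 6 * D * (s1 + s2) ≤ 6 * D * (2 * ((1 + Λ) * W)) :=
          mul_le_mul_of_nonneg_left h0 (by positivity)
      _ = 12 * ((1 + Λ) * W) * D := by ring
      _ ≤ 12 * ((1 + Λ) * W) * (4 * ℓ) := mul_le_mul_of_nonneg_left bD (by positivity)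
      _ = _ := by ring
  have t3 : 6 * L₁ * s3 ≤ 36 * ((1 + Λ) * ℓ * W) := by
    calc 6 * L₁ * s3 ≤ 6 * L₁ * ((1 + Λ) * W) := mul_le_mul_of_nonneg_left r3 (by positivity)
      _ = 6 * ((1 + Λ) * W) * L₁ := by ring
      _ ≤ 6 * ((1 + Λ) * W) * (6 * ℓ) := mul_le_mul_of_nonneg_left bM (by positivity)
      _ = _ := by ring
  have t4 : 54 * (P₀ + Z) * e₂ ≤ 54 * ((1 + Λ) * ℓ * W) := by
    have h1 : (1 : ℝ) ≤ (1 + Λ) * ℓ := by nlinarith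
    have h2 : W ≤ (1 + Λ) * ℓ * W := le_mul_of_one_le_left hW0 h1
    calc 54 * (P₀ + Z) * e₂ = 54 * ((P₀ + Z) * e₂) := by ring
      _ ≤ 54 * ((1 + Λ) * ℓ * W) := by linarith
  refine (add_le_add (add_le_add (add_le_add t1 t2) t3) t4).trans (le_of_eq ?_)
  ring

/-- **The stage closed for one slot.** -/
theorem close_v {v H Λ N K τ cC E EA EV P₀ P₁ Z T : ℝ} {RAB RBC RCA : ℝ → ℝ → ℝ}
    (hv : 0 < v) (hv1 : v ≤ 1) (hH : 1 ≤ H) (hK : 1 ≤ K) (hΛ : 0 ≤ Λ) (hN : 0 ≤ N) (hτ : 0 < τ)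
    (hE : 0 ≤ E) (hEA : 0 ≤ EA) (hEV : 0 ≤ EV) (hP₀ : 0 ≤ P₀) (hP₁ : 0 ≤ P₁) (hZ : 0 ≤ Z)
    (hst : StageConc RAB RBC RCA τ cC T) (nCA : ∀ x x', 0 ≤ RCA x x')
    (hAB : ∀ h, 0 < h → h ≤ τ → RAB h h ≤ P₀ * h ^ 2)
    (hBC : ∀ x, v ^ 2 * τ ≤ x → RBC τ x ≤ Λ * (√(x ^ 2 * E * (τ ^ 2 * EV)) + τ ^ 2 * E))
    (hCA : ∀ x, v ^ 2 * τ ≤ x → RCA x τ ≤ Λ * (√(x ^ 2 * E * (τ ^ 2 * EA)) + τ ^ 2 * E))
    (hLow : ∀ x x', 0 < x' → K * x' ≤ x → x ≤ τ → RCA x x' ≤ P₁ * x ^ 2)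
    (hZB : ∀ h, 0 < h → h ≤ τ → RBC h h ≤ Z * h ^ 2)
    (hZA : ∀ h, 0 < h → h ≤ τ → RCA h h ≤ Z * h ^ 2)
    (nP₀ : P₀ ≤ N) (nP₁ : P₁ ≤ N) (nEA : EA ≤ N) (nE : E ≤ N * v ^ 4) (nEV : EV * v ^ 4 ≤ N)
    (nZ : Z ≤ N * H) (nC : cC ≤ H * τ) :
    T ≤ 162 * (1 + Λ) * (1 + Real.log (K * H / v ^ 8)) * (N * τ * v) := by
  have hv2 : 0 < v ^ 2 := by positivity
  have hv21 : v ^ 2 ≤ 1 := pow_le_one₀ hv.le hv1
  have hg0 : 0 < v ^ 2 * τ := mul_pos hv2 hτ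
  have hgτ : v ^ 2 * τ ≤ τ := mul_le_of_le_one_left hτ.le hv21
  have he0 : 0 < v ^ 2 * τ / (1 + H) := by positivity
  have heg : v ^ 2 * τ / (1 + H) ≤ v ^ 2 * τ := div_le_self hg0.le (by linarith)
  generalize hge : v ^ 2 * τ / (1 + H) = e₂ at he0 heg
  have hHe : (1 + H) * e₂ = v ^ 2 * τ := by rw [← hge]; field_simp
  have heτ : e₂ ≤ τ := heg.trans hgτ
  have hK0 : 0 < K := by linarith
  have hσ0 : 0 < e₂ / K := by positivity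
  have hσe : e₂ / K ≤ e₂ := div_le_self he0.le hK
  have hKσ : K * (e₂ / K) = e₂ := by field_simp
  obtain ⟨D, L₀, L₁, hD1, hL1, hM1, bD, bL, bM⟩ := levels_v hv hv1 hH hK hτ he0 hHe nC
  have hℓ1 : 1 ≤ 1 + Real.log (K * H / v ^ 8) := by
    have : 0 ≤ Real.log (K * H / v ^ 8) := by
      refine Real.log_nonneg ?_
      rw [le_div_iff₀ (by positivity)]
      have hv81 : v ^ 8 ≤ 1 := pow_le_one₀ hv.le hv1
      nlinarith
    linarith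
  -- the pair sums above `v ^ 2 τ`
  have kA : ∀ x, v ^ 2 * τ ≤ x → RCA x τ ≤ x * τ * (N * (Λ * (v ^ 2 + v ^ 2))) := by
    intro x hx
    refine (hCA x hx).trans (raw_above hΛ hE hEA hτ (hg0.le.trans hx) hv2 hx hN
      (e := v ^ 2) (v1 := v ^ 2) hv2.le hv2.le ?_ ?_ le_rfl)
    · calc E * EA ≤ (N * v ^ 4) * N := mul_le_mul nE nEA hEA (by positivity)
        _ = _ := by ring
    · exact nE.trans (le_of_eq (by ring))
  have kB : ∀ x, v ^ 2 * τ ≤ x → RBC τ x ≤ x * τ * (N * (Λ * (1 + 1))) := by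
    intro x hx
    refine (hBC x hx).trans (raw_above hΛ hE hEV hτ (hg0.le.trans hx) hv2 hx hN
      (e := 1) (v1 := 1) zero_le_one zero_le_one ?_ ?_ le_rfl)
    · calc E * EV ≤ (N * v ^ 4) * EV := mul_le_mul_of_nonneg_right nE hEV
        _ = N * (EV * v ^ 4) := by ring
        _ ≤ N * N := mul_le_mul_of_nonneg_left nEV hN
        _ = _ := by ring
    · refine nE.trans ?_
      have : v ^ 4 ≤ v ^ 2 * 1 := by nlinarith
      exact mul_le_mul_of_nonneg_left this hN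
  have hT : ∀ x, v ^ 2 * τ ≤ x → x ≤ cC → √(RBC τ x * RCA x τ) ≤ 2 * Λ * (N * τ * v) * x := by
    intro x hx _
    have hx0 : 0 ≤ x := hg0.le.trans hx
    refine sqrt_le_of (by positivity) ?_
    have h1 : RBC τ x * RCA x τ ≤ (x * τ * (N * (Λ * (1 + 1)))) *
        (x * τ * (N * (Λ * (v ^ 2 + v ^ 2)))) := mul_le_mul (kB x hx) (kA x hx) (nCA _ _)
          (by positivity)
    exact h1.trans (le_of_eq (by ring))
  have fin := hst P₀ P₁ ((v ^ 2 * τ) * τ * (N * (Λ * (v ^ 2 + v ^ 2))))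
    ((v ^ 2 * τ) * τ * (N * (Λ * (1 + 1)))) Z (2 * Λ * (N * τ * v)) (v ^ 2 * τ) (e₂ / K) e₂ D L₀ L₁
    hP₀ hP₁ (by positivity) (by positivity) hZ (by positivity) hg0 hσ0 he0 hD1 hσe hL1 hM1 hAB hT
    (kA _ le_rfl) (kB _ le_rfl)
    (fun x hx hx' => hLow x (e₂ / K) hσ0 (hKσ.le.trans hx) (hx'.trans hgτ))
    (fun h h0 h1 => hZB h h0 (h1.trans heτ)) (fun h h0 h1 => hZA h h0 (h1.trans heτ))
  exact fin.trans (fin_v hv hv1 hH hΛ hN hτ he0 hHe nP₀ nP₁ nZ hℓ1 bD bL bM)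

/-- **The stage closed for one slot, letters `m = v ^ 8`.** -/
theorem close_m {m H Λ N K τ cC E EA EV P₀ P₁ Z T : ℝ} {RAB RBC RCA : ℝ → ℝ → ℝ}
    (hm : 0 < m) (hm1 : m ≤ 1) (hH : 1 ≤ H) (hK : 1 ≤ K) (hΛ : 0 ≤ Λ) (hN : 0 ≤ N) (hτ : 0 < τ)
    (hE : 0 ≤ E) (hEA : 0 ≤ EA) (hEV : 0 ≤ EV) (hP₀ : 0 ≤ P₀) (hP₁ : 0 ≤ P₁) (hZ : 0 ≤ Z)
    (hst : StageConc RAB RBC RCA τ cC T) (nCA : ∀ x x', 0 ≤ RCA x x')
    (hAB : ∀ h, 0 < h → h ≤ τ → RAB h h ≤ P₀ * h ^ 2)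
    (hBC : ∀ x, m ^ (1 / 4 : ℝ) * τ ≤ x →
      RBC τ x ≤ Λ * (√(x ^ 2 * E * (τ ^ 2 * EV)) + τ ^ 2 * E))
    (hCA : ∀ x, m ^ (1 / 4 : ℝ) * τ ≤ x →
      RCA x τ ≤ Λ * (√(x ^ 2 * E * (τ ^ 2 * EA)) + τ ^ 2 * E))
    (hLow : ∀ x x', 0 < x' → K * x' ≤ x → x ≤ τ → RCA x x' ≤ P₁ * x ^ 2)
    (hZB : ∀ h, 0 < h → h ≤ τ → RBC h h ≤ Z * h ^ 2)
    (hZA : ∀ h, 0 < h → h ≤ τ → RCA h h ≤ Z * h ^ 2)
    (nP₀ : P₀ ≤ N) (nP₁ : P₁ ≤ N) (nEA : EA ≤ N) (nE : E ≤ N * √m) (nEV : EV * √m ≤ N)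
    (nZ : Z ≤ N * H) (nC : cC ≤ H * τ) :
    T ≤ 162 * (1 + Λ) * (1 + Real.log (K * H / m)) * (N * τ * m ^ (1 / 8 : ℝ)) := by
  set v : ℝ := m ^ (1 / 8 : ℝ) with hv
  have hv0 : 0 < v := Real.rpow_pos_of_pos hm _
  have hv1 : v ≤ 1 := Real.rpow_le_one hm.le hm1 (by norm_num)
  have e2 : m ^ (1 / 4 : ℝ) = v ^ 2 := by
    rw [hv, ← Real.rpow_natCast (m ^ (1 / 8 : ℝ)) 2, ← Real.rpow_mul hm.le]
    norm_num
  have e4 : √m = v ^ 4 := by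
    rw [hv, ← Real.rpow_natCast (m ^ (1 / 8 : ℝ)) 4, ← Real.rpow_mul hm.le, Real.sqrt_eq_rpow]
    norm_num
  have e8 : m = v ^ 8 := by
    rw [hv, ← Real.rpow_natCast (m ^ (1 / 8 : ℝ)) 8, ← Real.rpow_mul hm.le]
    norm_num
  rw [e2] at hBC hCA
  rw [e4] at nE nEV
  have h := close_v hv0 hv1 hH hK hΛ hN hτ hE hEA hEV hP₀ hP₁ hZ hst nCA hAB hBC hCA hLow hZB hZA
    nP₀ nP₁ nEA nE nEV nZ nC
  rw [← e8] at h
  exact h

/-- **The logarithm of the energy absorbed.** -/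
theorem log_m (p : ℕ) {θ ε : ℝ} (hε : 0 < ε) :
    ∃ C : ℝ, 1 ≤ C ∧ ∀ m X : ℝ, 0 < m → m ≤ 1 → 1 ≤ X →
      (1 + Real.log (X / m)) ^ p * m ^ θ ≤ C * ((1 + Real.log X) ^ p * m ^ (θ - ε)) := by
  obtain ⟨C, hC, h⟩ := Vale.Agent.P141.H186.ClosX.log_pow_le p hε
  refine ⟨C, hC, ?_⟩
  intro m X hm hm1 hX
  have hX0 : 0 < X := by linarith
  have h1 : 0 ≤ Real.log X := Real.log_nonneg hX
  have hi : 1 ≤ 1 / m := by
    rw [le_div_iff₀ hm]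
    linarith
  have h2 : 0 ≤ Real.log (1 / m) := Real.log_nonneg hi
  have h3 : 1 + Real.log (X / m) ≤ (1 + Real.log X) * (1 + Real.log (1 / m)) := by
    have : Real.log (X / m) = Real.log X + Real.log (1 / m) := by
      rw [← Real.log_mul (by positivity) (by positivity)]
      congr 1
      ring
    rw [this]
    nlinarith
  have h4 : 0 ≤ 1 + Real.log (X / m) := by
    have : Real.log (X / m) = Real.log X + Real.log (1 / m) := by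
      rw [← Real.log_mul (by positivity) (by positivity)]
      congr 1
      ring
    linarith
  have h5 : (1 + Real.log (X / m)) ^ p ≤
      (1 + Real.log X) ^ p * (1 + Real.log (1 / m)) ^ p := by
    rw [← mul_pow]
    exact pow_le_pow_left₀ h4 h3 p
  calc (1 + Real.log (X / m)) ^ p * m ^ θ ≤
      ((1 + Real.log X) ^ p * (1 + Real.log (1 / m)) ^ p) * m ^ θ :=
        mul_le_mul_of_nonneg_right h5 (by positivity)
    _ ≤ ((1 + Real.log X) ^ p * (C * m ^ (-ε))) * m ^ θ := by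
        refine mul_le_mul_of_nonneg_right ?_ (by positivity)
        exact mul_le_mul_of_nonneg_left (h m hm hm1) (by positivity)
    _ = C * ((1 + Real.log X) ^ p * (m ^ (-ε) * m ^ θ)) := by ring
    _ = _ := by
        rw [← Real.rpow_add hm]
        congr 3
        ring

end

end Vale.Agent.P141.H186.CloseM
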