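import Vale.Agent.P141.H186.PriceC

/-!
# P141, line A: the stage sum `H581.stageY` closed, all levels and numbers chosen inside

`y = t / r`, `u = t y^(-k3)`, `τ ≤ τ0 u s^(1/4)`, third function divided by `√ez`.
`close_raw` : raw pair sums `Λ (√(x² E (τ² V)) + τ² E)` above `g = y^(η/4) τ`, natural pair sum with
the low first function, crude pair sums at the bottom.
-/

namespace Vale.Agent.P141.H186.CloseY

open Vale.Agent.P141.H186.PriceS Vale.Agent.P141.H186.PriceC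

noncomputable section

/-- a raw pair sum above `g = w τ` -/
theorem raw_above {Λ E V x τ w S e v1 a : ℝ} (hΛ : 0 ≤ Λ) (hE : 0 ≤ E) (hV : 0 ≤ V) (hτ : 0 < τ)
    (hx : 0 ≤ x) (hw : 0 < w) (hg : w * τ ≤ x) (hS : 0 ≤ S) (he : 0 ≤ e) (hv1 : 0 ≤ v1)
    (h1 : E * V ≤ (S * v1) ^ 2) (h2 : E ≤ S * (w * e))
    (ha : Λ * (v1 + e) ≤ a) :
    Λ * (√(x ^ 2 * E * (τ ^ 2 * V)) + τ ^ 2 * E) ≤ x * τ * (S * a) := by
  have e1 : √(x ^ 2 * E * (τ ^ 2 * V)) = x * τ * √(E * V) := by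
    rw [show x ^ 2 * E * (τ ^ 2 * V) = (x * τ) ^ 2 * (E * V) by ring,
      Real.sqrt_mul (sq_nonneg _), Real.sqrt_sq (by positivity)]
  have e2 : √(E * V) ≤ S * v1 := sqrt_le_of (by positivity) h1
  have e3 : τ ^ 2 * E ≤ x * τ * (S * e) := by
    calc τ ^ 2 * E ≤ τ ^ 2 * (S * (w * e)) := mul_le_mul_of_nonneg_left h2 (by positivity)
      _ = (w * τ) * (τ * (S * e)) := by ring
      _ ≤ x * (τ * (S * e)) := mul_le_mul_of_nonneg_right hg (by positivity)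
      _ = _ := by ring
  have e4 : x * τ * √(E * V) ≤ x * τ * (S * v1) := mul_le_mul_of_nonneg_left e2 (by positivity)
  rw [e1]
  calc Λ * (x * τ * √(E * V) + τ ^ 2 * E) ≤ Λ * (x * τ * (S * v1) + x * τ * (S * e)) :=
        mul_le_mul_of_nonneg_left (add_le_add e4 e3) hΛ
    _ = x * τ * (S * (Λ * (v1 + e))) := by ring
    _ ≤ _ := by gcongr

/-- the conclusion of `H581.stageY` (and of its versions) -/
def StageConc (RAB RBC RCA : ℝ → ℝ → ℝ) (τ cC T : ℝ) : Prop :=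
  ∀ (P₀ P₁ QA QB Z κ' g σ e₂ : ℝ) (D L₀ L₁ : ℕ), 0 ≤ P₀ → 0 ≤ P₁ → 0 ≤ QA → 0 ≤ QB → 0 ≤ Z →
    0 ≤ κ' → 0 < g → 0 < σ → 0 < e₂ →
    τ / 2 ^ (D - 1) ≤ σ → σ ≤ e₂ → cC / 2 ^ (L₀ - 1) ≤ g → cC / 2 ^ (L₁ - 1) ≤ e₂ →
    (∀ h, 0 < h → h ≤ τ → RAB h h ≤ P₀ * h ^ 2) →
    (∀ x, g ≤ x → x ≤ cC → √(RBC τ x * RCA x τ) ≤ κ' * x) →
    RCA g τ ≤ QA → RBC τ g ≤ QB →
    (∀ x, e₂ ≤ x → x ≤ g → RCA x σ ≤ P₁ * x ^ 2) →
    (∀ h, 0 < h → h ≤ e₂ → RBC h h ≤ Z * h ^ 2) →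
    (∀ h, 0 < h → h ≤ e₂ → RCA h h ≤ Z * h ^ 2) →
    T ≤ 6 * κ' * L₀ + 6 * D * (√(P₀ * QA) + √(P₀ * QB)) + 6 * L₁ * √(P₁ * QB) +
      54 * (P₀ + Z) * e₂

/-- the pair `(C, A)` above `w τ` -/
theorem pair_A {η δ Λ0 A0 E0 y s M Λ E EA τ w x X : ℝ} (hA0 : 0 ≤ A0) (hE0 : 0 ≤ E0)
    (hy : 0 < y) (hs : 0 < s) (hM : 0 ≤ M) (hΛ : 0 ≤ Λ)
    (hE : 0 ≤ E) (hEA : 0 ≤ EA) (hτ : 0 < τ) (hw : w = y ^ (η / 4)) (hx : w * τ ≤ x)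
    (h : X ≤ Λ * (√(x ^ 2 * E * (τ ^ 2 * EA)) + τ ^ 2 * E)) (nEA : EA ≤ M * (A0 * s * y ^ (-δ)))
    (nE : E ≤ M * (E0 * s * y ^ (η / 2 - δ))) (nΛ : Λ ≤ Λ0 * y ^ (-δ)) :
    X ≤ x * τ * (M * s * (Λ0 * (√(E0 * A0) + E0) * y ^ (η / 4 - 2 * δ))) := by
  have add : ∀ a b : ℝ, y ^ a * y ^ b = y ^ (a + b) := fun a b => (Real.rpow_add hy a b).symm
  have hw0 : 0 < w := by rw [hw]; exact Real.rpow_pos_of_pos hy _
  have hMs : 0 ≤ M * s := by positivity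
  have hx0 : 0 ≤ x := (mul_pos hw0 hτ).le.trans hx
  refine h.trans (raw_above hΛ hE hEA hτ hx0 hw0 hx hMs
    (e := E0 * y ^ (η / 4 - δ)) (v1 := √(E0 * A0) * y ^ (η / 4 - δ)) (by positivity)
    (by positivity) ?_ ?_ ?_)
  · have h1 : E * EA ≤ M * (E0 * s * y ^ (η / 2 - δ)) * (M * (A0 * s * y ^ (-δ))) :=
      mul_le_mul nE nEA hEA (by positivity)
    refine h1.trans (le_of_eq ?_)
    have h2 : √(E0 * A0) ^ 2 = E0 * A0 := Real.sq_sqrt (by positivity)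
    have h3 : y ^ (η / 2 - δ) * y ^ (-δ) = (y ^ (η / 4 - δ)) ^ 2 := by
      rw [y_sq hy (b := η / 2 - 2 * δ) (by ring), add]
      congr 1
      ring
    calc M * (E0 * s * y ^ (η / 2 - δ)) * (M * (A0 * s * y ^ (-δ))) =
        (M * s) ^ 2 * (E0 * A0) * (y ^ (η / 2 - δ) * y ^ (-δ)) := by ring
      _ = (M * s) ^ 2 * (√(E0 * A0) ^ 2) * (y ^ (η / 4 - δ)) ^ 2 := by rw [h2, h3]
      _ = _ := by ring
  · refine nE.trans (le_of_eq ?_)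
    have h3 : y ^ (η / 2 - δ) = w * y ^ (η / 4 - δ) := by
      rw [hw, add]
      congr 1
      ring
    rw [h3]
    ring
  · have h3 : y ^ (η / 4 - 2 * δ) = y ^ (-δ) * y ^ (η / 4 - δ) := by
      rw [add]
      congr 1
      ring
    rw [h3]
    calc Λ * (√(E0 * A0) * y ^ (η / 4 - δ) + E0 * y ^ (η / 4 - δ)) ≤
        (Λ0 * y ^ (-δ)) * (√(E0 * A0) * y ^ (η / 4 - δ) + E0 * y ^ (η / 4 - δ)) :=
          mul_le_mul_of_nonneg_right nΛ (by positivity)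
      _ = _ := by ring

/-- the pair `(B, C)` above `w τ` -/
theorem pair_B {η δ Λ0 V0 E0 y s M Λ E EV τ w x X : ℝ} (hη : 0 ≤ η) (hV0 : 0 ≤ V0)
    (hE0 : 0 ≤ E0) (hy : 0 < y) (hy1 : y ≤ 1) (hs : 0 < s) (hM : 0 ≤ M)
    (hΛ : 0 ≤ Λ) (hE : 0 ≤ E) (hEV : 0 ≤ EV) (hτ : 0 < τ) (hw : w = y ^ (η / 4)) (hx : w * τ ≤ x)
    (h : X ≤ Λ * (√(x ^ 2 * E * (τ ^ 2 * EV)) + τ ^ 2 * E))
    (nEV : EV ≤ M * (V0 * s * y ^ (-(η / 2) - δ)))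
    (nE : E ≤ M * (E0 * s * y ^ (η / 2 - δ))) (nΛ : Λ ≤ Λ0 * y ^ (-δ)) :
    X ≤ x * τ * (M * s * (Λ0 * (√(E0 * V0) + E0) * y ^ (-(2 * δ)))) := by
  have add : ∀ a b : ℝ, y ^ a * y ^ b = y ^ (a + b) := fun a b => (Real.rpow_add hy a b).symm
  have hw0 : 0 < w := by rw [hw]; exact Real.rpow_pos_of_pos hy _
  have hMs : 0 ≤ M * s := by positivity
  have hx0 : 0 ≤ x := (mul_pos hw0 hτ).le.trans hx
  refine h.trans (raw_above hΛ hE hEV hτ hx0 hw0 hx hMs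
    (e := E0 * y ^ (-δ)) (v1 := √(E0 * V0) * y ^ (-δ)) (by positivity)
    (by positivity) ?_ ?_ ?_)
  · have h1 : E * EV ≤ M * (E0 * s * y ^ (η / 2 - δ)) * (M * (V0 * s * y ^ (-(η / 2) - δ))) :=
      mul_le_mul nE nEV hEV (by positivity)
    refine h1.trans (le_of_eq ?_)
    have h2 : √(E0 * V0) ^ 2 = E0 * V0 := Real.sq_sqrt (by positivity)
    have h3 : y ^ (η / 2 - δ) * y ^ (-(η / 2) - δ) = (y ^ (-δ)) ^ 2 := by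
      rw [y_sq hy (b := -(2 * δ)) (by ring), add]
      congr 1
      ring
    calc M * (E0 * s * y ^ (η / 2 - δ)) * (M * (V0 * s * y ^ (-(η / 2) - δ))) =
        (M * s) ^ 2 * (E0 * V0) * (y ^ (η / 2 - δ) * y ^ (-(η / 2) - δ)) := by ring
      _ = (M * s) ^ 2 * (√(E0 * V0) ^ 2) * (y ^ (-δ)) ^ 2 := by rw [h2, h3]
      _ = _ := by ring
  · have h3 : y ^ (η / 2 - δ) ≤ w * y ^ (-δ) := by
      rw [hw, add]
      exact Real.rpow_le_rpow_of_exponent_ge hy hy1 (by linarith)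
    calc E ≤ M * (E0 * s * y ^ (η / 2 - δ)) := nE
      _ ≤ M * (E0 * s * (w * y ^ (-δ))) := by gcongr
      _ = _ := by ring
  · have h3 : y ^ (-(2 * δ)) = y ^ (-δ) * y ^ (-δ) := by
      rw [add]
      congr 1
      ring
    rw [h3]
    calc Λ * (√(E0 * V0) * y ^ (-δ) + E0 * y ^ (-δ)) ≤
        (Λ0 * y ^ (-δ)) * (√(E0 * V0) * y ^ (-δ) + E0 * y ^ (-δ)) :=
          mul_le_mul_of_nonneg_right nΛ (by positivity)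
      _ = _ := by ring

theorem s54 {s : ℝ} (hs : 0 < s) : s * s ^ (1 / 4 : ℝ) = s ^ (5 / 4 : ℝ) := by
  nth_rewrite 1 [← Real.rpow_one s]
  rw [← Real.rpow_add hs]
  norm_num

theorem s32 {s : ℝ} (hs : 0 < s) : s * (s ^ (1 / 4 : ℝ)) ^ 2 = s ^ (3 / 2 : ℝ) := by
  rw [← Real.rpow_natCast (s ^ (1 / 4 : ℝ)) 2, ← Real.rpow_mul hs.le]
  nth_rewrite 1 [← Real.rpow_one s]
  rw [← Real.rpow_add hs]
  norm_num

/-- **The numbers of the stage.** -/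
theorem num_part {η δ CZ A0 A1 a1 b1 Z0 τ0 L' : ℝ} (hη : 0 ≤ η) (hδ : 0 < δ)
    (hA0 : 0 ≤ A0) (hA1 : 0 ≤ A1) (ha1 : 0 ≤ a1) (hb1 : 0 ≤ b1)
    (hZ0 : 0 ≤ Z0) (hτ0 : 0 ≤ τ0) (hL' : 0 ≤ L') {y s M u τ w P₀ P₁ Z e₂ : ℝ} {D L₀ L₁ : ℕ}
    (hy : 0 < y) (hy1 : y ≤ 1) (hs : 0 < s) (hM : 0 ≤ M) (hu : 0 ≤ u) (hτ : 0 < τ)
    (hτu : τ ≤ τ0 * (u * s ^ (1 / 4 : ℝ))) (hCZ : 0 ≤ CZ) (hw : w = y ^ (η / 4))
    (he₂ : e₂ = y ^ (CZ + δ + η / 4) * τ)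
    (nP₀ : P₀ ≤ M * (A0 * s * y ^ (-δ))) (nP₁ : P₁ ≤ M * (A1 * s * y ^ (-δ)))
    (nZ : Z ≤ M * (Z0 * s * y ^ (-CZ))) (l0 : (L₀ : ℝ) ≤ L' * y ^ (-(2 * δ)))
    (lD : (D : ℝ) ≤ L' * y ^ (-(2 * δ))) (l1 : (L₁ : ℝ) ≤ L' * y ^ (-(2 * δ))) :
    6 * (τ * (M * s * (√(a1 * b1) * y ^ (η / 8 - 2 * δ)))) * L₀ +
      6 * D * (√(P₀ * ((w * τ) * τ * (M * s * (a1 * y ^ (η / 4 - 2 * δ))))) +
        √(P₀ * ((w * τ) * τ * (M * s * (b1 * y ^ (-(2 * δ))))))) +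
      6 * L₁ * √(P₁ * ((w * τ) * τ * (M * s * (b1 * y ^ (-(2 * δ)))))) + 54 * (P₀ + Z) * e₂ ≤
      M * ((6 * (√(a1 * b1) * τ0) * L' + 6 * L' * (√(A0 * (a1 * τ0 ^ 2)) +
        √(A0 * (b1 * τ0 ^ 2))) + 6 * L' * √(A1 * (b1 * τ0 ^ 2)) + 54 * ((A0 + Z0) * τ0)) *
        (u * s ^ (5 / 4 : ℝ)) * y ^ (η / 8 - 4 * δ)) := by
  have add : ∀ a b : ℝ, y ^ a * y ^ b = y ^ (a + b) := fun a b => (Real.rpow_add hy a b).symm
  have mono : ∀ {a b : ℝ}, b ≤ a → y ^ a ≤ y ^ b := fun h =>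
    Real.rpow_le_rpow_of_exponent_ge hy hy1 h
  have hw0 : 0 < w := by rw [hw]; exact Real.rpow_pos_of_pos hy _
  have he0 : 0 < e₂ := by rw [he₂]; exact mul_pos (Real.rpow_pos_of_pos hy _) hτ
  set us : ℝ := u * s ^ (1 / 4 : ℝ) with hus
  have hus0 : 0 ≤ us := by positivity
  have hτ2 : τ ^ 2 ≤ τ0 ^ 2 * us ^ 2 := by
    rw [← mul_pow]
    exact pow_le_pow_left₀ hτ.le hτu 2
  have m2 : y ^ (-δ) ≤ y ^ (-(2 * δ)) := mono (by linarith)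
  have bκ : τ * (M * s * (√(a1 * b1) * y ^ (η / 8 - 2 * δ))) ≤
      M * (√(a1 * b1) * τ0 * (u * s ^ (5 / 4 : ℝ)) * y ^ (η / 8 - 2 * δ)) := by
    rw [← s54 hs]
    calc τ * (M * s * (√(a1 * b1) * y ^ (η / 8 - 2 * δ))) ≤
        (τ0 * us) * (M * s * (√(a1 * b1) * y ^ (η / 8 - 2 * δ))) :=
          mul_le_mul_of_nonneg_right hτu (by positivity)
      _ = _ := by rw [hus]; ring
  have b0 : P₀ ≤ M * (A0 * s * y ^ (-(2 * δ))) := nP₀.trans (by gcongr)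
  have b1' : P₁ ≤ M * (A1 * s * y ^ (-(2 * δ))) := nP₁.trans (by gcongr)
  have bA : (w * τ) * τ * (M * s * (a1 * y ^ (η / 4 - 2 * δ))) ≤
      M * (a1 * τ0 ^ 2 * (u ^ 2 * s ^ (3 / 2 : ℝ)) * y ^ (η / 2 - 2 * δ)) := by
    rw [← s32 hs]
    have h3 : w * y ^ (η / 4 - 2 * δ) = y ^ (η / 2 - 2 * δ) := by
      rw [hw, add]
      congr 1
      ring
    calc (w * τ) * τ * (M * s * (a1 * y ^ (η / 4 - 2 * δ))) =
        τ ^ 2 * (M * s * (a1 * (w * y ^ (η / 4 - 2 * δ)))) := by ring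
      _ ≤ (τ0 ^ 2 * us ^ 2) * (M * s * (a1 * (w * y ^ (η / 4 - 2 * δ)))) :=
          mul_le_mul_of_nonneg_right hτ2 (by positivity)
      _ = _ := by rw [h3, hus]; ring
  have bB : (w * τ) * τ * (M * s * (b1 * y ^ (-(2 * δ)))) ≤
      M * (b1 * τ0 ^ 2 * (u ^ 2 * s ^ (3 / 2 : ℝ)) * y ^ (η / 4 - 2 * δ)) := by
    rw [← s32 hs]
    have h3 : w * y ^ (-(2 * δ)) = y ^ (η / 4 - 2 * δ) := by
      rw [hw, add]
      congr 1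
    calc (w * τ) * τ * (M * s * (b1 * y ^ (-(2 * δ)))) =
        τ ^ 2 * (M * s * (b1 * (w * y ^ (-(2 * δ))))) := by ring
      _ ≤ (τ0 ^ 2 * us ^ 2) * (M * s * (b1 * (w * y ^ (-(2 * δ))))) :=
          mul_le_mul_of_nonneg_right hτ2 (by positivity)
      _ = _ := by rw [h3, hus]; ring
  have bZ : (P₀ + Z) * e₂ ≤ M * ((A0 + Z0) * τ0 * (u * s ^ (5 / 4 : ℝ)) * y ^ (η / 8)) := by
    have h1 : P₀ + Z ≤ M * ((A0 + Z0) * s * y ^ (-(CZ + δ))) := by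
      have g1 : y ^ (-δ) ≤ y ^ (-(CZ + δ)) := mono (by linarith)
      have g2 : y ^ (-CZ) ≤ y ^ (-(CZ + δ)) := mono (by linarith)
      calc P₀ + Z ≤ M * (A0 * s * y ^ (-δ)) + M * (Z0 * s * y ^ (-CZ)) := add_le_add nP₀ nZ
        _ ≤ M * (A0 * s * y ^ (-(CZ + δ))) + M * (Z0 * s * y ^ (-(CZ + δ))) := by gcongr
        _ = _ := by ring
    have h2 : y ^ (-(CZ + δ)) * y ^ (CZ + δ + η / 4) ≤ y ^ (η / 8) := by
      rw [add]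
      exact mono (by linarith)
    calc (P₀ + Z) * e₂ ≤ M * ((A0 + Z0) * s * y ^ (-(CZ + δ))) * e₂ :=
          mul_le_mul_of_nonneg_right h1 he0.le
      _ = M * ((A0 + Z0) * s * (y ^ (-(CZ + δ)) * y ^ (CZ + δ + η / 4))) * τ := by
          rw [he₂]; ring
      _ ≤ M * ((A0 + Z0) * s * y ^ (η / 8)) * (τ0 * us) := by
          refine mul_le_mul ?_ hτu hτ.le (by positivity)
          gcongr
      _ = _ := by rw [← s54 hs, hus]; ring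
  have num := stageY_num (η := η) (δ := 2 * δ) (by positivity) hη (A0 := A0) (A1 := A1)
    (B0 := a1 * τ0 ^ 2) (C0 := b1 * τ0 ^ 2) (κ0 := √(a1 * b1) * τ0) (L' := L')
    (Z0 := (A0 + Z0) * τ0) hA0 hA1 (by positivity) (by positivity) (by positivity) hL'
    (by positivity) hy hy1 hs hM hu l0 lD l1
    (by positivity) (by positivity) bκ b0 b1' bA bB bZ
  have e4 : η / 8 - 2 * (2 * δ) = η / 8 - 4 * δ := by ring
  rw [e4] at num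
  exact num

/-- **The stage closed.** -/
theorem close_raw {η δ CZ Ck C1 A0 A1 E0 V0 Λ0 Z0 K0 c1 τ0 : ℝ} (hη : 0 ≤ η) (hδ : 0 < δ)
    (hCZ : 0 ≤ CZ) (hCk : 0 ≤ Ck) (hC1 : 0 ≤ C1) (hA0 : 0 ≤ A0) (hA1 : 0 ≤ A1) (hE0 : 0 ≤ E0)
    (hV0 : 0 ≤ V0) (hΛ0 : 0 ≤ Λ0) (hZ0 : 0 ≤ Z0) (hK0 : 1 ≤ K0) (hc1 : 1 ≤ c1) (hτ0 : 0 ≤ τ0) :
    ∃ C : ℝ, 0 ≤ C ∧ ∀ (y s M u τ cC Λ E EA EV P₀ P₁ Z K T : ℝ) (RAB RBC RCA : ℝ → ℝ → ℝ),
      0 < y → y ≤ 1 → 0 < s → 0 ≤ M → 0 ≤ u → 0 < τ → τ ≤ τ0 * (u * s ^ (1 / 4 : ℝ)) →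
      0 ≤ Λ → 0 ≤ E → 0 ≤ EA → 0 ≤ EV → 0 ≤ P₀ → 0 ≤ P₁ → 0 ≤ Z → 1 ≤ K →
      StageConc RAB RBC RCA τ cC T →
      (∀ x x', 0 ≤ RCA x x') →
      (∀ h, 0 < h → h ≤ τ → RAB h h ≤ P₀ * h ^ 2) →
      (∀ x, y ^ (η / 4) * τ ≤ x → RBC τ x ≤ Λ * (√(x ^ 2 * E * (τ ^ 2 * EV)) + τ ^ 2 * E)) →
      (∀ x, y ^ (η / 4) * τ ≤ x → RCA x τ ≤ Λ * (√(x ^ 2 * E * (τ ^ 2 * EA)) + τ ^ 2 * E)) →
      (∀ x x', 0 < x' → K * x' ≤ x → x ≤ τ → RCA x x' ≤ P₁ * x ^ 2) →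
      (∀ h, 0 < h → h ≤ τ → RBC h h ≤ Z * h ^ 2) →
      (∀ h, 0 < h → h ≤ τ → RCA h h ≤ Z * h ^ 2) →
      P₀ ≤ M * (A0 * s * y ^ (-δ)) → P₁ ≤ M * (A1 * s * y ^ (-δ)) →
      EA ≤ M * (A0 * s * y ^ (-δ)) → E ≤ M * (E0 * s * y ^ (η / 2 - δ)) →
      EV ≤ M * (V0 * s * y ^ (-(η / 2) - δ)) → Λ ≤ Λ0 * y ^ (-δ) →
      Z ≤ M * (Z0 * s * y ^ (-CZ)) → K ≤ K0 * y ^ (-Ck) → cC ≤ c1 * y ^ (-C1) * τ →
      T ≤ M * (C * (u * s ^ (5 / 4 : ℝ)) * y ^ (η / 8 - 4 * δ)) := by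
  obtain ⟨LD, hLD0, hLD⟩ := exists_L (C := CZ + δ + η / 4 + Ck) (c1 := K0) (δ := 2 * δ)
    (by positivity) hK0 (by positivity)
  obtain ⟨La, hLa0, hLa⟩ := exists_L (C := C1 + η / 4) (c1 := c1) (δ := 2 * δ)
    (by positivity) hc1 (by positivity)
  obtain ⟨Lb, hLb0, hLb⟩ := exists_L (C := C1 + (CZ + δ + η / 4)) (c1 := c1) (δ := 2 * δ)
    (by positivity) hc1 (by positivity)
  have ha10 : 0 ≤ Λ0 * (√(E0 * A0) + E0) := by positivity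
  have hb10 : 0 ≤ Λ0 * (√(E0 * V0) + E0) := by positivity
  generalize ha1 : Λ0 * (√(E0 * A0) + E0) = a1 at ha10
  generalize hb1 : Λ0 * (√(E0 * V0) + E0) = b1 at hb10
  have hL'0 : 0 ≤ LD + La + Lb := by positivity
  refine ⟨6 * (√(a1 * b1) * τ0) * (LD + La + Lb) + 6 * (LD + La + Lb) * (√(A0 * (a1 * τ0 ^ 2)) +
    √(A0 * (b1 * τ0 ^ 2))) + 6 * (LD + La + Lb) * √(A1 * (b1 * τ0 ^ 2)) +
    54 * ((A0 + Z0) * τ0), by positivity, ?_⟩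
  intro y s M u τ cC Λ E EA EV P₀ P₁ Z K T RAB RBC RCA hy hy1 hs hM hu hτ hτu hΛ hE hEA hEV hP₀ hP₁
    hZ hK hst nCA hAB hBC hCA hLow hZB hZA nP₀ nP₁ nEA nE nEV nΛ nZ nK nC
  have add : ∀ a b : ℝ, y ^ a * y ^ b = y ^ (a + b) := fun a b => (Real.rpow_add hy a b).symm
  have hle1 : ∀ {a : ℝ}, 0 ≤ a → y ^ a ≤ 1 := fun h => Real.rpow_le_one hy.le hy1 h
  have hw0 : 0 < y ^ (η / 4) := Real.rpow_pos_of_pos hy _
  have hw1 : y ^ (η / 4) ≤ 1 := hle1 (by positivity)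
  have hCe0 : 0 ≤ CZ + δ + η / 4 := by positivity
  have he0 : 0 < y ^ (CZ + δ + η / 4) * τ := mul_pos (Real.rpow_pos_of_pos hy _) hτ
  have he₂τ : y ^ (CZ + δ + η / 4) * τ ≤ τ := mul_le_of_le_one_left hτ.le (hle1 hCe0)
  have hwτ : y ^ (η / 4) * τ ≤ τ := mul_le_of_le_one_left hτ.le hw1
  have hK1 : 0 < K := by linarith
  generalize hge : y ^ (CZ + δ + η / 4) * τ = e₂ at he0 he₂τ
  generalize hgw : y ^ (η / 4) = w at hw0 hw1 hwτ hBC hCA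
  have hσ0 : 0 < e₂ / K := div_pos he0 hK1
  have hKσ : K * (e₂ / K) = e₂ := by field_simp
  have hσe : e₂ / K ≤ e₂ := div_le_self he0.le hK
  have hg0 : 0 < w * τ := mul_pos hw0 hτ
  -- the levels
  obtain ⟨D, hD1, hD2⟩ := hLD y hy hy1 τ (e₂ / K) hσ0 (by
    have h2 : y ^ (-(CZ + δ + η / 4 + Ck)) = y ^ (-Ck) * y ^ (-(CZ + δ + η / 4)) := by
      rw [add]
      congr 1
      ring
    have h3 : y ^ (-(CZ + δ + η / 4)) * e₂ = τ := by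
      rw [← hge, ← mul_assoc, add, neg_add_cancel, Real.rpow_zero, one_mul]
    calc τ = y ^ (-(CZ + δ + η / 4)) * (K * (e₂ / K)) := by rw [hKσ, h3]
      _ = K * (y ^ (-(CZ + δ + η / 4)) * (e₂ / K)) := by ring
      _ ≤ (K0 * y ^ (-Ck)) * (y ^ (-(CZ + δ + η / 4)) * (e₂ / K)) :=
          mul_le_mul_of_nonneg_right nK (by positivity)
      _ = _ := by rw [h2]; ring)
  obtain ⟨L₀, hL1, hL2⟩ := hLa y hy hy1 cC (w * τ) hg0 (by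
    have h2 : y ^ (-(C1 + η / 4)) * w = y ^ (-C1) := by
      rw [← hgw, add]
      congr 1
      ring
    calc cC ≤ c1 * y ^ (-C1) * τ := nC
      _ = _ := by rw [← h2]; ring)
  obtain ⟨L₁, hM1, hM2⟩ := hLb y hy hy1 cC e₂ he0 (by
    have h2 : y ^ (-(C1 + (CZ + δ + η / 4))) * y ^ (CZ + δ + η / 4) = y ^ (-C1) := by
      rw [add]
      congr 1
      ring
    calc cC ≤ c1 * y ^ (-C1) * τ := nC
      _ = _ := by rw [← h2, ← hge]; ring)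
  have kA : ∀ x, w * τ ≤ x → RCA x τ ≤ x * τ * (M * s * (a1 * y ^ (η / 4 - 2 * δ))) := by
    intro x hx
    rw [← ha1]
    exact pair_A hA0 hE0 hy hs hM hΛ hE hEA hτ hgw.symm hx (hCA x hx) nEA nE nΛ
  have kB : ∀ x, w * τ ≤ x → RBC τ x ≤ x * τ * (M * s * (b1 * y ^ (-(2 * δ)))) := by
    intro x hx
    rw [← hb1]
    exact pair_B hη hV0 hE0 hy hy1 hs hM hΛ hE hEV hτ hgw.symm hx (hBC x hx) nEV nE nΛ
  have hT : ∀ x, w * τ ≤ x → x ≤ cC → √(RBC τ x * RCA x τ) ≤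
      τ * (M * s * (√(a1 * b1) * y ^ (η / 8 - 2 * δ))) * x := by
    intro x hx _
    have hx0 : 0 ≤ x := hg0.le.trans hx
    refine sqrt_le_of (by positivity) ?_
    have h1 : RBC τ x * RCA x τ ≤ (x * τ * (M * s * (b1 * y ^ (-(2 * δ))))) *
        (x * τ * (M * s * (a1 * y ^ (η / 4 - 2 * δ)))) :=
      mul_le_mul (kB x hx) (kA x hx) (nCA _ _) (by positivity)
    refine h1.trans (le_of_eq ?_)
    have h2 : √(a1 * b1) ^ 2 = a1 * b1 := Real.sq_sqrt (by positivity)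
    have h3 : y ^ (-(2 * δ)) * y ^ (η / 4 - 2 * δ) = (y ^ (η / 8 - 2 * δ)) ^ 2 := by
      rw [y_sq hy (b := η / 4 - 4 * δ) (by ring), add]
      congr 1
      ring
    calc (x * τ * (M * s * (b1 * y ^ (-(2 * δ))))) *
        (x * τ * (M * s * (a1 * y ^ (η / 4 - 2 * δ)))) =
        (x * τ * (M * s)) ^ 2 * (a1 * b1) * (y ^ (-(2 * δ)) * y ^ (η / 4 - 2 * δ)) := by ring
      _ = (x * τ * (M * s)) ^ 2 * (√(a1 * b1) ^ 2) * (y ^ (η / 8 - 2 * δ)) ^ 2 := by rw [h2, h3]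
      _ = _ := by ring
  have fin := hst P₀ P₁ ((w * τ) * τ * (M * s * (a1 * y ^ (η / 4 - 2 * δ))))
    ((w * τ) * τ * (M * s * (b1 * y ^ (-(2 * δ))))) Z
    (τ * (M * s * (√(a1 * b1) * y ^ (η / 8 - 2 * δ)))) (w * τ) (e₂ / K) e₂ D L₀ L₁ hP₀ hP₁
    (by positivity) (by positivity) hZ
    (by positivity) hg0 hσ0 he0 hD1 hσe hL1 hM1 hAB hT (kA _ le_rfl) (kB _ le_rfl)
    (fun x hx hx' => hLow x (e₂ / K) hσ0 (hKσ.le.trans hx) (hx'.trans hwτ))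
    (fun h h0 h1 => hZB h h0 (h1.trans he₂τ)) (fun h h0 h1 => hZA h h0 (h1.trans he₂τ))
  have hyd : 0 ≤ y ^ (-(2 * δ)) := (Real.rpow_pos_of_pos hy _).le
  exact fin.trans (num_part hη hδ hA0 hA1 ha10 hb10 hZ0 hτ0 hL'0 hy hy1 hs hM hu hτ hτu hCZ
    hgw.symm hge.symm nP₀ nP₁ nZ
    (hL2.trans (mul_le_mul_of_nonneg_right (by linarith) hyd))
    (hD2.trans (mul_le_mul_of_nonneg_right (by linarith) hyd))
    (hM2.trans (mul_le_mul_of_nonneg_right (by linarith) hyd)))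

end

end Vale.Agent.P141.H186.CloseY
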