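import Vale.Agent.P141.PL.H103.FD

/-!
# P141: first differences of a convolution, with the weights `(2/3)^r`

`H103.first_diff` has the weights `(3/4)^r`.  A single Cauchy-Schwarz inequality over all levels
gives the same bound with the smaller weights `(2/3)^r` (any base above `1/2` would do).  Since
`2/3 < 1/√2`, charges of size `2^(r/2)` at the level `r` can be summed.
-/

namespace Vale.Agent.P141.H186

open Finset Vale.Agent.P141.PL.H103

noncomputable section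

/-- `√(3/4)` -/
def qa : ℝ := Real.sqrt (3 / 4)

/-- `√(2/3)` -/
def qb : ℝ := Real.sqrt (2 / 3)

theorem qa_nonneg : 0 ≤ qa := Real.sqrt_nonneg _

theorem qb_nonneg : 0 ≤ qb := Real.sqrt_nonneg _

theorem qa_sq : qa ^ 2 = 3 / 4 := Real.sq_sqrt (by norm_num)

theorem qb_sq : qb ^ 2 = 2 / 3 := Real.sq_sqrt (by norm_num)

/-- `√(1/2)` -/
def qq : ℝ := qa * qb

theorem qq_nonneg : 0 ≤ qq := mul_nonneg qa_nonneg qb_nonneg

theorem qq_sq : qq ^ 2 = 1 / 2 := by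
  rw [qq, mul_pow, qa_sq, qb_sq]; norm_num

theorem two_mul_qq_sq (r : ℕ) : (2 : ℝ) ^ r * (qq ^ r) ^ 2 = 1 := by
  rw [← pow_mul, mul_comm r 2, pow_mul, qq_sq, ← mul_pow]
  norm_num

/-- geometric mean form of the core estimate -/
theorem BB_abs_le2 {r r' : ℕ} {d e : ℤ → ℝ} (hd : Blk r d) (he : Blk r' e) (fd : FS d)
    (fe : FS e) (s : ℤ) :
    |BB s d e| ≤ 2 * (qq ^ r * Real.sqrt (∑' n, d n ^ 2)) * (qq ^ r' * Real.sqrt (∑' n, e n ^ 2)) := by
  have key : (2 : ℝ) ^ r * 2 ^ r' * (BB s d e) ^ 2 ≤ 4 * (∑' n, d n ^ 2) * (∑' n, e n ^ 2) := by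
    rcases le_total r' r with h | h
    · exact BB_sq_le h hd he fd fe s
    · have := BB_sq_le h he hd fe fd s
      rw [BB_symm] at this
      linarith
  set x := ∑' n, d n ^ 2
  set y := ∑' n, e n ^ 2
  have hx : 0 ≤ x := tsum_nonneg fun _ => sq_nonneg _
  have hy : 0 ≤ y := tsum_nonneg fun _ => sq_nonneg _
  have h1 := two_mul_qq_sq r
  have h2 := two_mul_qq_sq r'
  have hq := qq_nonneg
  apply abs_le_of_sq_le_sq
  · have q5 : (0 : ℝ) ≤ (qq ^ r) ^ 2 * (qq ^ r') ^ 2 := by positivity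
    have q6 := mul_le_mul_of_nonneg_left key q5
    calc (BB s d e) ^ 2 = (2 ^ r * (qq ^ r) ^ 2) * (2 ^ r' * (qq ^ r') ^ 2) * (BB s d e) ^ 2 := by
          rw [h1, h2]; ring
      _ = (qq ^ r) ^ 2 * (qq ^ r') ^ 2 * (2 ^ r * 2 ^ r' * (BB s d e) ^ 2) := by ring
      _ ≤ (qq ^ r) ^ 2 * (qq ^ r') ^ 2 * (4 * x * y) := q6
      _ = (2 * (qq ^ r * Real.sqrt x) * (qq ^ r' * Real.sqrt y)) ^ 2 := by
          rw [mul_pow, mul_pow, mul_pow, mul_pow, Real.sq_sqrt hx, Real.sq_sqrt hy]; ring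
  · positivity

/-- the levels of a family: differences below `R`, the last function at `R` -/
def lvx (R : ℕ) (f : ℕ → ℤ → ℝ) (r : ℕ) : ℝ :=
  if r < R then ∑' n, (f r n - f (r + 1) n) ^ 2 else ∑' n, f R n ^ 2

theorem lvx_nonneg (R : ℕ) (f : ℕ → ℤ → ℝ) (r : ℕ) : 0 ≤ lvx R f r := by
  unfold lvx
  split_ifs
  · exact tsum_nonneg fun _ => sq_nonneg _
  · exact tsum_nonneg fun _ => sq_nonneg _

/-- the square root form -/
def SR (R : ℕ) (f : ℕ → ℤ → ℝ) : ℝ := ∑ r ∈ range (R + 1), qq ^ r * Real.sqrt (lvx R f r)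

theorem SR_nonneg (R : ℕ) (f : ℕ → ℤ → ℝ) : 0 ≤ SR R f :=
  sum_nonneg fun _ _ => mul_nonneg (pow_nonneg qq_nonneg _) (Real.sqrt_nonneg _)

/-- multiscale energy of a family, weights `(2/3)^r` -/
def ME2 (R : ℕ) (f : ℕ → ℤ → ℝ) : ℝ :=
  ∑ r ∈ range R, (2 / 3) ^ r * ∑' n, (f r n - f (r + 1) n) ^ 2 + (2 / 3) ^ R * ∑' n, f R n ^ 2

theorem ME2_eq (R : ℕ) (f : ℕ → ℤ → ℝ) :
    ME2 R f = ∑ r ∈ range (R + 1), (2 / 3 : ℝ) ^ r * lvx R f r := by
  rw [sum_range_succ, ME2]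
  congr 1
  · refine sum_congr rfl fun r hr => ?_
    rw [lvx, if_pos (mem_range.1 hr)]
  · rw [lvx, if_neg (lt_irrefl R)]

theorem geo34_le (n : ℕ) : ∑ r ∈ range n, (3 / 4 : ℝ) ^ r ≤ 4 := by
  have h2 : ∀ n : ℕ, ∑ r ∈ range n, (3 / 4 : ℝ) ^ r = 4 - 4 * (3 / 4) ^ n := by
    intro n
    induction n with
    | zero => simp
    | succ n ih => rw [sum_range_succ, ih, pow_succ]; ring
  rw [h2]
  have : (0 : ℝ) ≤ (3 / 4) ^ n := by positivity
  linarith

theorem geo23_le (n : ℕ) : ∑ r ∈ range n, (2 / 3 : ℝ) ^ r ≤ 3 := by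
  have h2 : ∀ n : ℕ, ∑ r ∈ range n, (2 / 3 : ℝ) ^ r = 3 - 3 * (2 / 3) ^ n := by
    intro n
    induction n with
    | zero => simp
    | succ n ih => rw [sum_range_succ, ih, pow_succ]; ring
  rw [h2]
  have : (0 : ℝ) ≤ (2 / 3) ^ n := by positivity
  linarith

theorem SR_sq_le (R : ℕ) (f : ℕ → ℤ → ℝ) : SR R f ^ 2 ≤ 4 * ME2 R f := by
  have h := Finset.sum_mul_sq_le_sq_mul_sq (range (R + 1)) (fun r => qa ^ r)
    (fun r => qb ^ r * Real.sqrt (lvx R f r))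
  have e1 : ∑ r ∈ range (R + 1), qa ^ r * (qb ^ r * Real.sqrt (lvx R f r)) = SR R f := by
    refine sum_congr rfl fun r _ => ?_
    rw [qq, mul_pow]; ring
  have e2 : ∑ r ∈ range (R + 1), (qa ^ r) ^ 2 = ∑ r ∈ range (R + 1), (3 / 4 : ℝ) ^ r := by
    refine sum_congr rfl fun r _ => ?_
    rw [← pow_mul, mul_comm r 2, pow_mul, qa_sq]
  have e3 : ∑ r ∈ range (R + 1), (qb ^ r * Real.sqrt (lvx R f r)) ^ 2 = ME2 R f := by
    rw [ME2_eq]
    refine sum_congr rfl fun r _ => ?_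
    rw [mul_pow, Real.sq_sqrt (lvx_nonneg R f r), ← pow_mul, mul_comm r 2, pow_mul, qb_sq]
  rw [e1, e2, e3] at h
  refine h.trans (mul_le_mul_of_nonneg_right (geo34_le _) ?_)
  rw [ME2_eq]
  exact sum_nonneg fun r _ => mul_nonneg (by positivity) (lvx_nonneg R f r)

/-- one function decomposed -/
theorem BB_one2 (R : ℕ) {r' : ℕ} {f : ℕ → ℤ → ℝ} {e : ℤ → ℝ} (hf : ∀ r ≤ R, Blk r (f r))
    (ff : ∀ r ≤ R, FS (f r)) (he : Blk r' e) (fe : FS e) (s : ℤ) :
    |BB s (f 0) e| ≤ 2 * SR R f * (qq ^ r' * Real.sqrt (∑' n, e n ^ 2)) := by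
  set y := qq ^ r' * Real.sqrt (∑' n, e n ^ 2) with hy
  have key : ∀ Q ≤ R, |BB s (f 0) e - BB s (f Q) e| ≤
      2 * (∑ r ∈ range Q, qq ^ r * Real.sqrt (lvx R f r)) * y := by
    intro Q
    induction Q with
    | zero => intro _; simp
    | succ Q ih =>
      intro hQ
      have h1 := ih (by omega)
      have fQ := ff Q (by omega)
      have fQ1 := ff (Q + 1) hQ
      have h2 := BB_abs_le2 ((hf Q (by omega)).sub ((hf (Q + 1) hQ).mono (Nat.le_succ Q))) he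
        (fQ.sub fQ1) fe s
      rw [BB_sub_left fQ fQ1] at h2
      have hl : lvx R f Q = ∑' n, (f Q n - f (Q + 1) n) ^ 2 := by rw [lvx, if_pos (by omega)]
      rw [← hl] at h2
      rw [sum_range_succ]
      have e1 : BB s (f 0) e - BB s (f (Q + 1)) e
          = (BB s (f 0) e - BB s (f Q) e) + (BB s (f Q) e - BB s (f (Q + 1)) e) := by ring
      rw [e1]
      refine (abs_add_le _ _).trans ((add_le_add h1 h2).trans (le_of_eq ?_))
      rw [hy]; ring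
  have h1 := key R le_rfl
  have h2 := BB_abs_le2 (hf R le_rfl) he (ff R le_rfl) fe s
  have hl : lvx R f R = ∑' n, f R n ^ 2 := by rw [lvx, if_neg (lt_irrefl R)]
  rw [← hl] at h2
  have e1 : BB s (f 0) e = (BB s (f 0) e - BB s (f R) e) + BB s (f R) e := by ring
  rw [e1]
  refine (abs_add_le _ _).trans ((add_le_add h1 h2).trans (le_of_eq ?_))
  rw [SR, sum_range_succ, hy]; ring

/-- **First difference lemma**, scalar form, weights `(2/3)^r`. -/
theorem first_diff2 (R : ℕ) {f g : ℕ → ℤ → ℝ} (hf : ∀ r ≤ R, Blk r (f r))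
    (ff : ∀ r ≤ R, FS (f r)) (hg : ∀ r ≤ R, Blk r (g r)) (fg : ∀ r ≤ R, FS (g r)) (s : ℤ) :
    |BB s (f 0) (g 0)| ≤ 4 * (ME2 R f + ME2 R g) := by
  have key : ∀ Q ≤ R, |BB s (f 0) (g 0) - BB s (f 0) (g Q)| ≤
      2 * SR R f * ∑ r ∈ range Q, qq ^ r * Real.sqrt (lvx R g r) := by
    intro Q
    induction Q with
    | zero => intro _; simp
    | succ Q ih =>
      intro hQ
      have h1 := ih (by omega)
      have fQ := fg Q (by omega)
      have fQ1 := fg (Q + 1) hQ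
      have h2 := BB_one2 R hf ff ((hg Q (by omega)).sub ((hg (Q + 1) hQ).mono (Nat.le_succ Q)))
        (fQ.sub fQ1) s
      rw [BB_sub_right fQ fQ1] at h2
      have hl : lvx R g Q = ∑' n, (g Q n - g (Q + 1) n) ^ 2 := by rw [lvx, if_pos (by omega)]
      rw [← hl] at h2
      rw [sum_range_succ]
      have e1 : BB s (f 0) (g 0) - BB s (f 0) (g (Q + 1))
          = (BB s (f 0) (g 0) - BB s (f 0) (g Q)) + (BB s (f 0) (g Q) - BB s (f 0) (g (Q + 1))) := by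
        ring
      rw [e1]
      exact (abs_add_le _ _).trans ((add_le_add h1 h2).trans (le_of_eq (by ring)))
  have h1 := key R le_rfl
  have h2 := BB_one2 R hf ff (hg R le_rfl) (fg R le_rfl) s
  have hl : lvx R g R = ∑' n, g R n ^ 2 := by rw [lvx, if_neg (lt_irrefl R)]
  rw [← hl] at h2
  have e1 : BB s (f 0) (g 0) = (BB s (f 0) (g 0) - BB s (f 0) (g R)) + BB s (f 0) (g R) := by ring
  have h3 : |BB s (f 0) (g 0)| ≤ 2 * SR R f * SR R g := by
    rw [e1]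
    refine (abs_add_le _ _).trans ((add_le_add h1 h2).trans (le_of_eq ?_))
    rw [SR, SR, sum_range_succ _ R, sum_range_succ _ R]; ring
  have h4 := SR_sq_le R f
  have h5 := SR_sq_le R g
  nlinarith [sq_nonneg (SR R f - SR R g)]

/-! ### Matrix version -/

open Matrix

variable {ι : Type*} [Fintype ι]

/-- multiscale energy of a family of matrix sequences -/
def MM2 (R : ℕ) (f : ℕ → ℤ → Matrix ι ι ℝ) : ℝ :=
  ∑ r ∈ range R, (2 / 3) ^ r * ∑' n, ((f r n - f (r + 1) n) * (f r n - f (r + 1) n)).trace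
    + (2 / 3) ^ R * ∑' n, (f R n * f R n).trace

theorem MM2_eq (R : ℕ) {f : ℕ → ℤ → Matrix ι ι ℝ} (hs : ∀ r ≤ R, ∀ n, (f r n)ᵀ = f r n)
    (ff : ∀ r ≤ R, FSM (f r)) : MM2 R f = ∑ i, ∑ j, ME2 R (fun r n => f r n i j) := by
  have h1 : ∀ r < R, ∑' n, ((f r n - f (r + 1) n) * (f r n - f (r + 1) n)).trace
      = ∑ i, ∑ j, ∑' n, (f r n i j - f (r + 1) n i j) ^ 2 := by
    intro r hr
    rw [← tsum_sum2]
    · refine tsum_congr fun n => ?_
      rw [trace_sq_eq (by rw [transpose_sub, hs r hr.le, hs (r + 1) hr])]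
      rfl
    · intro i j
      exact (((ff r hr.le).entry i j).sub ((ff (r + 1) hr).entry i j)).sq
  have h2 : ∑' n, (f R n * f R n).trace = ∑ i, ∑ j, ∑' n, f R n i j ^ 2 := by
    rw [← tsum_sum2]
    · exact tsum_congr fun n => trace_sq_eq (hs R le_rfl n)
    · intro i j
      exact ((ff R le_rfl).entry i j).sq
  simp only [MM2, ME2, Finset.sum_add_distrib, ← Finset.mul_sum]
  rw [h2]
  congr 1
  have h3 : ∀ i : ι, ∑ j, ∑ r ∈ range R, (2 / 3 : ℝ) ^ r * ∑' n, (f r n i j - f (r + 1) n i j) ^ 2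
      = ∑ r ∈ range R, (2 / 3 : ℝ) ^ r * ∑ j, ∑' n, (f r n i j - f (r + 1) n i j) ^ 2 := by
    intro i
    rw [Finset.sum_comm]
    exact Finset.sum_congr rfl fun r _ => by rw [Finset.mul_sum]
  simp only [h3]
  rw [Finset.sum_comm]
  refine Finset.sum_congr rfl fun r hr => ?_
  rw [h1 r (Finset.mem_range.1 hr), Finset.mul_sum]

/-- **First difference lemma**, matrix form, weights `(2/3)^r`. -/
theorem first_diff_mat2 (R : ℕ) {f g : ℕ → ℤ → Matrix ι ι ℝ}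
    (hf : ∀ r ≤ R, ∀ n, f r n = f r (2 ^ r * (n / 2 ^ r)))
    (hg : ∀ r ≤ R, ∀ n, g r n = g r (2 ^ r * (n / 2 ^ r)))
    (sf : ∀ r ≤ R, ∀ n, (f r n)ᵀ = f r n) (sg : ∀ r ≤ R, ∀ n, (g r n)ᵀ = g r n)
    (ff : ∀ r ≤ R, FSM (f r)) (fg : ∀ r ≤ R, FSM (g r)) (s : ℤ) :
    |cv (f 0) (g 0) (s + 1) - cv (f 0) (g 0) s| ≤ 4 * (MM2 R f + MM2 R g) := by
  have bf : ∀ i j, ∀ r ≤ R, Blk r (fun n => f r n i j) := fun i j r hr =>
    ⟨fun m => f r (2 ^ r * m) i j, fun n => congrFun (congrFun (hf r hr n) i) j⟩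
  have bg : ∀ i j, ∀ r ≤ R, Blk r (fun n => g r n i j) := fun i j r hr =>
    ⟨fun m => g r (2 ^ r * m) i j, fun n => congrFun (congrFun (hg r hr n) i) j⟩
  have hc : ∀ t, cv (f 0) (g 0) t = ∑ i, ∑ j, ∑' n, f 0 n i j * g 0 (t - n) j i := by
    intro t
    rw [← tsum_sum2 fun i j => ((ff 0 (Nat.zero_le R)).entry i j).mul_left _]
    exact tsum_congr fun n => trace_mul_eq _ _
  have e1 : cv (f 0) (g 0) (s + 1) - cv (f 0) (g 0) s
      = ∑ i, ∑ j, BB s (fun n => f 0 n i j) (fun n => g 0 n j i) := by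
    rw [hc, hc, ← Finset.sum_sub_distrib]
    refine Finset.sum_congr rfl fun i _ => ?_
    rw [← Finset.sum_sub_distrib]
    rfl
  rw [e1, MM2_eq R sf ff, MM2_eq R sg fg]
  have e2 : ∑ i, ∑ j, ME2 R (fun r n => g r n i j) = ∑ i, ∑ j, ME2 R (fun r n => g r n j i) :=
    Finset.sum_comm
  rw [e2, ← Finset.sum_add_distrib, Finset.mul_sum]
  refine (Finset.abs_sum_le_sum_abs _ _).trans (Finset.sum_le_sum fun i _ => ?_)
  rw [← Finset.sum_add_distrib, Finset.mul_sum]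
  refine (Finset.abs_sum_le_sum_abs _ _).trans (Finset.sum_le_sum fun j _ => ?_)
  exact first_diff2 R (f := fun r n => f r n i j) (g := fun r n => g r n j i) (bf i j)
    (fun r hr => (ff r hr).entry i j) (bg j i) (fun r hr => (fg r hr).entry j i) s

end

end Vale.Agent.P141.H186
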