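import Vale.Agent.P141.H186.CloseM

/-!
# P141, line A: the price of one slot from `close_m`

`fin_m` : the conclusion of `close_m` with `N ≤ N0 t^(-(b (c + d))) s 8^K`, `τ ≤ τ0 th`,
`Λ ≤ Λ0 (1 + log (X / m))^3`, `X ≤ (c0 κ ρ)^a`, `m = min E 1`, in the letters of `H677.PriceM`,
`θ = 1/16`, `w = k3`, `p = 4`.
-/

namespace Vale.Agent.P141.H186.FinM

open Vale.Agent.P141.H186.CloseM Vale.Agent.P141.H186.PriceC Vale.Agent.P141.H186.CloseY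

noncomputable section

/-- logarithm of a polynomial -/
theorem log_poly {c0 κ ρ X : ℝ} {a : ℕ} (hc0 : 1 ≤ c0) (hκ : 1 ≤ κ) (hρ : 1 ≤ ρ) (hX : 1 ≤ X)
    (h : X ≤ (c0 * κ * ρ) ^ a) :
    1 + Real.log X ≤ (1 + a * (1 + Real.log c0)) * (1 + Real.log κ + Real.log ρ) := by
  have h0 : 0 < c0 := by linarith
  have h1 : 0 < κ := by linarith
  have h2 : 0 < ρ := by linarith
  have l0 : 0 ≤ Real.log c0 := Real.log_nonneg hc0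
  have l1 : 0 ≤ Real.log κ := Real.log_nonneg hκ
  have l2 : 0 ≤ Real.log ρ := Real.log_nonneg hρ
  have h3 : Real.log X ≤ a * (Real.log c0 + Real.log κ + Real.log ρ) := by
    have := Real.log_le_log (by linarith) h
    rwa [Real.log_pow, Real.log_mul (by positivity) h2.ne', Real.log_mul h0.ne' h1.ne'] at this
  have ha : (0 : ℝ) ≤ (a : ℝ) := Nat.cast_nonneg _
  have h4 : Real.log c0 + Real.log κ + Real.log ρ ≤
      (1 + Real.log c0) * (1 + Real.log κ + Real.log ρ) := by nlinarith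
  have h5 : (a : ℝ) * (Real.log c0 + Real.log κ + Real.log ρ) ≤
      a * ((1 + Real.log c0) * (1 + Real.log κ + Real.log ρ)) := mul_le_mul_of_nonneg_left h4 ha
  have h6 : (1 : ℝ) ≤ 1 + Real.log κ + Real.log ρ := by linarith
  calc 1 + Real.log X ≤ (1 + Real.log κ + Real.log ρ) +
        a * ((1 + Real.log c0) * (1 + Real.log κ + Real.log ρ)) := by linarith
    _ = _ := by ring

/-- **The logarithms of one slot.** -/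
theorem logs_m {c0 Λ0 : ℝ} {a : ℕ} (hc0 : 1 ≤ c0) (hΛ0 : 0 ≤ Λ0) :
    ∃ C : ℝ, 0 ≤ C ∧ ∀ κ ρ m X Λ W T : ℝ, 1 ≤ κ → 1 ≤ ρ → 0 < m → m ≤ 1 → 1 ≤ X →
      X ≤ (c0 * κ * ρ) ^ a → 0 ≤ W → Λ ≤ Λ0 * (1 + Real.log (X / m)) ^ 3 →
      T ≤ 162 * (1 + Λ) * (1 + Real.log (X / m)) * (W * m ^ (1 / 8 : ℝ)) →
      T ≤ C * ((1 + Real.log κ + Real.log ρ) ^ 4 * m ^ (1 / 16 : ℝ) * W) := by
  obtain ⟨C1, hC1, h1⟩ := log_m 4 (θ := 1 / 8) (ε := 1 / 16) (by norm_num)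
  have hlc : 0 ≤ Real.log c0 := Real.log_nonneg hc0
  refine ⟨162 * (1 + Λ0) * (C1 * (1 + a * (1 + Real.log c0)) ^ 4), by positivity, ?_⟩
  intro κ ρ m X Λ W T hκ hρ hm hm1 hX hXa hW hΛ hT
  have hl : 0 ≤ Real.log (X / m) := by
    refine Real.log_nonneg ?_
    rw [le_div_iff₀ hm]
    linarith
  set ℓ : ℝ := 1 + Real.log (X / m) with hℓ
  have hℓ1 : 1 ≤ ℓ := by rw [hℓ]; linarith
  have hℓ3 : 1 ≤ ℓ ^ 3 := one_le_pow₀ hℓ1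
  have g1 : 1 + Λ ≤ (1 + Λ0) * ℓ ^ 3 := by nlinarith
  have g2 : ℓ ^ 4 * m ^ (1 / 8 : ℝ) ≤ C1 * ((1 + Real.log X) ^ 4 * m ^ (1 / 8 - 1 / 16 : ℝ)) :=
    h1 m X hm hm1 hX
  have e16 : (1 / 8 - 1 / 16 : ℝ) = 1 / 16 := by norm_num
  rw [e16] at g2
  have hlX : 0 ≤ 1 + Real.log X := by
    have := Real.log_nonneg hX
    linarith
  have g3 : (1 + Real.log X) ^ 4 ≤ (1 + a * (1 + Real.log c0)) ^ 4 *
      (1 + Real.log κ + Real.log ρ) ^ 4 := by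
    rw [← mul_pow]
    exact pow_le_pow_left₀ hlX (log_poly hc0 hκ hρ hX hXa) 4
  have hmm : 0 ≤ m ^ (1 / 8 : ℝ) := by positivity
  have hm16 : 0 ≤ m ^ (1 / 16 : ℝ) := by positivity
  calc T ≤ 162 * (1 + Λ) * ℓ * (W * m ^ (1 / 8 : ℝ)) := hT
    _ ≤ 162 * ((1 + Λ0) * ℓ ^ 3) * ℓ * (W * m ^ (1 / 8 : ℝ)) := by gcongr
    _ = 162 * (1 + Λ0) * (ℓ ^ 4 * m ^ (1 / 8 : ℝ)) * W := by ring
    _ ≤ 162 * (1 + Λ0) * (C1 * ((1 + Real.log X) ^ 4 * m ^ (1 / 16 : ℝ))) * W := by gcongr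
    _ ≤ 162 * (1 + Λ0) * (C1 * (((1 + a * (1 + Real.log c0)) ^ 4 *
        (1 + Real.log κ + Real.log ρ) ^ 4) * m ^ (1 / 16 : ℝ))) * W := by gcongr
    _ = _ := by ring

/-- **The price of one slot.** Conclusion in the letters of `H677.PriceM` (`θ = 1/16`, `w = k3`,
`p = 4`) at `√ez` times the normalised form. -/
theorem fin_m {c0 Λ0 N0 τ0 : ℝ} {a : ℕ} (hc0 : 1 ≤ c0) (hΛ0 : 0 ≤ Λ0) (hN0 : 0 ≤ N0)
    (hτ0 : 0 ≤ τ0) :
    ∃ C : ℝ, 0 ≤ C ∧ ∀ (t r s k3 b c d κ E m X Λ N τ ez T : ℝ) (K : ℕ), 0 < t → 1 ≤ r → t ≤ 1 →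
      0 < s → 1 ≤ κ → 0 < E → m = min E 1 → 1 ≤ X → X ≤ (c0 * κ * (r / t)) ^ a →
      0 ≤ N → 0 ≤ τ → N ≤ N0 * (t ^ (-(b * (c + d))) * s * 8 ^ K) →
      τ ≤ τ0 * (t ^ (1 - k3) * s ^ (1 / 4 : ℝ) * r ^ k3) →
      Λ ≤ Λ0 * (1 + Real.log (X / m)) ^ 3 →
      T ≤ √ez * (162 * (1 + Λ) * (1 + Real.log (X / m)) * (N * τ * m ^ (1 / 8 : ℝ))) →
      T ≤ C * ((1 + Real.log κ + Real.log (r / t)) ^ 4 * E ^ (1 / 16 : ℝ) *
        (t * (r / t) ^ k3 * t ^ (-(b * (c + d))) * s ^ (5 / 4 : ℝ) * √ez * 8 ^ K)) := by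
  obtain ⟨C, hC, h⟩ := logs_m (a := a) hc0 hΛ0
  refine ⟨C * (N0 * τ0), by positivity, ?_⟩
  intro t r s k3 b c d κ E m X Λ N τ ez T K ht hr ht1 hs hκ hE hm hX hXa hN hτ nN nτ nΛ hT
  have hr0 : 0 < r := by linarith
  have hρ : 1 ≤ r / t := by
    rw [le_div_iff₀ ht]
    linarith
  have hm0 : 0 < m := by rw [hm]; exact lt_min hE one_pos
  have hm1 : m ≤ 1 := by rw [hm]; exact min_le_right _ _
  have hmE : m ≤ E := by rw [hm]; exact min_le_left _ _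
  have h1 := h κ (r / t) m X Λ (N * τ) _ hκ hρ hm0 hm1 hX hXa (by positivity) nΛ le_rfl
  have hNτ : N * τ ≤ N0 * τ0 * (t * (r / t) ^ k3 * t ^ (-(b * (c + d))) * s ^ (5 / 4 : ℝ) *
      8 ^ K) := by
    have e1 : t ^ (1 - k3) * s ^ (1 / 4 : ℝ) * r ^ k3 = t * (r / t) ^ k3 * s ^ (1 / 4 : ℝ) := by
      rw [Real.div_rpow hr0.le ht.le, Real.rpow_sub ht, Real.rpow_one]
      ring
    rw [e1] at nτ
    calc N * τ ≤ (N0 * (t ^ (-(b * (c + d))) * s * 8 ^ K)) *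
          (τ0 * (t * (r / t) ^ k3 * s ^ (1 / 4 : ℝ))) := mul_le_mul nN nτ hτ (by positivity)
      _ = N0 * τ0 * (t * (r / t) ^ k3 * t ^ (-(b * (c + d))) * (s * s ^ (1 / 4 : ℝ)) * 8 ^ K) := by
          ring
      _ = _ := by rw [s54 hs]
  have hmE' : m ^ (1 / 16 : ℝ) ≤ E ^ (1 / 16 : ℝ) := Real.rpow_le_rpow hm0.le hmE (by norm_num)
  have l0 : 0 ≤ 1 + Real.log κ + Real.log (r / t) := by
    have e1 := Real.log_nonneg hκ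
    have e2 := Real.log_nonneg hρ
    linarith
  calc T ≤ √ez * (162 * (1 + Λ) * (1 + Real.log (X / m)) * (N * τ * m ^ (1 / 8 : ℝ))) := hT
    _ ≤ √ez * (C * ((1 + Real.log κ + Real.log (r / t)) ^ 4 * m ^ (1 / 16 : ℝ) * (N * τ))) :=
        mul_le_mul_of_nonneg_left h1 (Real.sqrt_nonneg _)
    _ ≤ √ez * (C * ((1 + Real.log κ + Real.log (r / t)) ^ 4 * E ^ (1 / 16 : ℝ) *
        (N0 * τ0 * (t * (r / t) ^ k3 * t ^ (-(b * (c + d))) * s ^ (5 / 4 : ℝ) * 8 ^ K)))) := by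
        gcongr
    _ = _ := by ring

end

end Vale.Agent.P141.H186.FinM
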