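import Vale.Agent.P141.H186.FinM

/-!
# P141, line A: the price of one slot, any `m`

`fin_gen` : `fin_m` for any `0 < m ≤ 1`, number `N` with logarithms;
`fin_pow` : `m = (t / r) ^ (e0 / 2) (E / EM) ^ th`.
-/

namespace Vale.Agent.P141.H186.FinM

open Vale.Agent.P141.H186.CloseM Vale.Agent.P141.H186.PriceC Vale.Agent.P141.H186.CloseY

noncomputable section

/-- **The price of one slot, any `m`.** -/
theorem fin_gen (p' : ℕ) {c0 Λ0 N0 τ0 : ℝ} {a : ℕ} (hc0 : 1 ≤ c0) (hΛ0 : 0 ≤ Λ0) (hN0 : 0 ≤ N0)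
    (hτ0 : 0 ≤ τ0) :
    ∃ C : ℝ, 0 ≤ C ∧ ∀ (t r s k3 b c d κ m X Λ N τ ez T : ℝ) (K : ℕ), 0 < t → 1 ≤ r → t ≤ 1 →
      0 < s → 1 ≤ κ → 0 < m → m ≤ 1 → 1 ≤ X → X ≤ (c0 * κ * (r / t)) ^ a →
      0 ≤ N → 0 ≤ τ →
      N ≤ N0 * ((1 + Real.log κ + Real.log (r / t)) ^ p' *
        (t ^ (-(b * (c + d))) * s * 8 ^ K)) →
      τ ≤ τ0 * (t ^ (1 - k3) * s ^ (1 / 4 : ℝ) * r ^ k3) →
      Λ ≤ Λ0 * (1 + Real.log (X / m)) ^ 3 →
      T ≤ √ez * (162 * (1 + Λ) * (1 + Real.log (X / m)) * (N * τ * m ^ (1 / 8 : ℝ))) →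
      T ≤ C * ((1 + Real.log κ + Real.log (r / t)) ^ (4 + p') * m ^ (1 / 16 : ℝ) *
        (t * (r / t) ^ k3 * t ^ (-(b * (c + d))) * s ^ (5 / 4 : ℝ) * √ez * 8 ^ K)) := by
  obtain ⟨C, hC, h⟩ := logs_m (a := a) hc0 hΛ0
  refine ⟨C * (N0 * τ0), by positivity, ?_⟩
  intro t r s k3 b c d κ m X Λ N τ ez T K ht hr ht1 hs hκ hm0 hm1 hX hXa hN hτ nN nτ nΛ hT
  have hr0 : 0 < r := by linarith
  have hρ : 1 ≤ r / t := by
    rw [le_div_iff₀ ht]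
    linarith
  have h1 := h κ (r / t) m X Λ (N * τ) _ hκ hρ hm0 hm1 hX hXa (by positivity) nΛ le_rfl
  have l0 : 0 ≤ 1 + Real.log κ + Real.log (r / t) := by
    have e1 := Real.log_nonneg hκ
    have e2 := Real.log_nonneg hρ
    linarith
  have hNτ : N * τ ≤ N0 * τ0 * ((1 + Real.log κ + Real.log (r / t)) ^ p' *
      (t * (r / t) ^ k3 * t ^ (-(b * (c + d))) * s ^ (5 / 4 : ℝ) * 8 ^ K)) := by
    have e1 : t ^ (1 - k3) * s ^ (1 / 4 : ℝ) * r ^ k3 = t * (r / t) ^ k3 * s ^ (1 / 4 : ℝ) := by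
      rw [Real.div_rpow hr0.le ht.le, Real.rpow_sub ht, Real.rpow_one]
      ring
    rw [e1] at nτ
    calc N * τ ≤ (N0 * ((1 + Real.log κ + Real.log (r / t)) ^ p' *
            (t ^ (-(b * (c + d))) * s * 8 ^ K))) *
          (τ0 * (t * (r / t) ^ k3 * s ^ (1 / 4 : ℝ))) := mul_le_mul nN nτ hτ (by positivity)
      _ = N0 * τ0 * ((1 + Real.log κ + Real.log (r / t)) ^ p' *
            (t * (r / t) ^ k3 * t ^ (-(b * (c + d))) * (s * s ^ (1 / 4 : ℝ)) * 8 ^ K)) := by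
          ring
      _ = _ := by rw [s54 hs]
  calc T ≤ √ez * (162 * (1 + Λ) * (1 + Real.log (X / m)) * (N * τ * m ^ (1 / 8 : ℝ))) := hT
    _ ≤ √ez * (C * ((1 + Real.log κ + Real.log (r / t)) ^ 4 * m ^ (1 / 16 : ℝ) * (N * τ))) :=
        mul_le_mul_of_nonneg_left h1 (Real.sqrt_nonneg _)
    _ ≤ √ez * (C * ((1 + Real.log κ + Real.log (r / t)) ^ 4 * m ^ (1 / 16 : ℝ) *
        (N0 * τ0 * ((1 + Real.log κ + Real.log (r / t)) ^ p' *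
          (t * (r / t) ^ k3 * t ^ (-(b * (c + d))) * s ^ (5 / 4 : ℝ) * 8 ^ K))))) := by
        gcongr
    _ = _ := by rw [pow_add]; ring

/-- **The price of one slot, `m = (t / r) ^ (e0 / 2) (E / EM) ^ th`.** -/
theorem fin_pow (p' : ℕ) {c0 Λ0 N0 τ0 EM th : ℝ} {a : ℕ} (hc0 : 1 ≤ c0) (hΛ0 : 0 ≤ Λ0)
    (hN0 : 0 ≤ N0) (hτ0 : 0 ≤ τ0) (hEM : 1 ≤ EM) (hth : 0 ≤ th) :
    ∃ C : ℝ, 0 ≤ C ∧ ∀ (t r s k3 e0 b c d κ E m X Λ N τ ez T : ℝ) (K : ℕ), 0 < t → 1 ≤ r →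
      t ≤ 1 → 0 < s → 1 ≤ κ → 0 < E → m = (t / r) ^ (e0 / 2) * (E / EM) ^ th → m ≤ 1 → 1 ≤ X →
      X ≤ (c0 * κ * (r / t)) ^ a → 0 ≤ N → 0 ≤ τ →
      N ≤ N0 * ((1 + Real.log κ + Real.log (r / t)) ^ p' *
        (t ^ (-(b * (c + d))) * s * 8 ^ K)) →
      τ ≤ τ0 * (t ^ (1 - k3) * s ^ (1 / 4 : ℝ) * r ^ k3) →
      Λ ≤ Λ0 * (1 + Real.log (X / m)) ^ 3 →
      T ≤ √ez * (162 * (1 + Λ) * (1 + Real.log (X / m)) * (N * τ * m ^ (1 / 8 : ℝ))) →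
      T ≤ C * ((1 + Real.log κ + Real.log (r / t)) ^ (4 + p') * E ^ (th / 16) *
        (t * (r / t) ^ (k3 - e0 / 32) * t ^ (-(b * (c + d))) * s ^ (5 / 4 : ℝ) * √ez *
          8 ^ K)) := by
  obtain ⟨C, hC, h⟩ := fin_gen p' (a := a) hc0 hΛ0 hN0 hτ0
  refine ⟨C, hC, ?_⟩
  intro t r s k3 e0 b c d κ E m X Λ N τ ez T K ht hr ht1 hs hκ hE hm hm1 hX hXa hN hτ nN nτ nΛ hT
  have hr0 : 0 < r := by linarith
  have hEM0 : 0 < EM := by linarith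
  have hρ0 : 0 < r / t := by positivity
  have hy : 0 < t / r := by positivity
  have hm0 : 0 < m := by rw [hm]; positivity
  have h1 := h t r s k3 b c d κ m X Λ N τ ez T K ht hr ht1 hs hκ hm0 hm1 hX hXa hN hτ nN nτ nΛ hT
  have hmE : m ^ (1 / 16 : ℝ) ≤ E ^ (th / 16) * (r / t) ^ (-(e0 / 32)) := by
    have e1 : ((t / r) ^ (e0 / 2)) ^ (1 / 16 : ℝ) = (r / t) ^ (-(e0 / 32)) := by
      rw [← Real.rpow_mul hy.le, ← inv_div r t, Real.inv_rpow hρ0.le, ← Real.rpow_neg hρ0.le]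
      congr 1
      ring
    have e2 : ((E / EM) ^ th) ^ (1 / 16 : ℝ) ≤ E ^ (th / 16) := by
      rw [← Real.rpow_mul (by positivity)]
      have e3 : E / EM ≤ E := div_le_self hE.le hEM
      have e4 : th * (1 / 16 : ℝ) = th / 16 := by ring
      rw [e4]
      exact Real.rpow_le_rpow (by positivity) e3 (by positivity)
    rw [hm, Real.mul_rpow (by positivity) (by positivity), e1, mul_comm]
    gcongr
  have l0 : 0 ≤ 1 + Real.log κ + Real.log (r / t) := by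
    have e1 := Real.log_nonneg hκ
    have e2 : 0 ≤ Real.log (r / t) := Real.log_nonneg (by
      rw [le_div_iff₀ ht]
      linarith)
    linarith
  have e5 : (r / t) ^ (k3 - e0 / 32) = (r / t) ^ k3 * (r / t) ^ (-(e0 / 32)) := by
    rw [← Real.rpow_add hρ0]
    congr 1
  refine h1.trans ?_
  rw [e5]
  calc C * ((1 + Real.log κ + Real.log (r / t)) ^ (4 + p') * m ^ (1 / 16 : ℝ) *
        (t * (r / t) ^ k3 * t ^ (-(b * (c + d))) * s ^ (5 / 4 : ℝ) * √ez * 8 ^ K)) ≤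
      C * ((1 + Real.log κ + Real.log (r / t)) ^ (4 + p') *
        (E ^ (th / 16) * (r / t) ^ (-(e0 / 32))) *
        (t * (r / t) ^ k3 * t ^ (-(b * (c + d))) * s ^ (5 / 4 : ℝ) * √ez * 8 ^ K)) := by
        gcongr
    _ = _ := by ring

end

end Vale.Agent.P141.H186.FinM
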