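import Vale.Agent.P141.H186.FinN

/-!
# P141, line A: `fin_gen`, `fin_pow` with crude numbers of size `1 / m`

`fin_gen2`, `fin_pow2` : `X ≤ (c0 κ ρ)^a / m`.
-/

namespace Vale.Agent.P141.H186.FinM

open Vale.Agent.P141.H186.CloseM Vale.Agent.P141.H186.PriceC Vale.Agent.P141.H186.CloseY

noncomputable section

/-- the logarithm with `P / m` in place of `X ≤ P / m` -/
theorem log_two {X P m : ℝ} (hm : 0 < m) (hm1 : m ≤ 1) (hX : 1 ≤ X) (hP : 1 ≤ P)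
    (h : X ≤ P / m) : 1 + Real.log (X / m) ≤ 2 * (1 + Real.log (P / m)) := by
  have hX0 : 0 < X := by linarith
  have hPm : 1 ≤ P / m := by
    rw [le_div_iff₀ hm]
    linarith
  have h1 : X / m ≤ (P / m) ^ 2 := by
    have h2 : X / m ≤ (P / m) / m := div_le_div_of_nonneg_right h hm.le
    have h3 : (P / m) / m ≤ (P / m) ^ 2 := by
      rw [sq, div_eq_mul_inv (P / m) m]
      refine mul_le_mul_of_nonneg_left ?_ (by linarith)
      rw [div_eq_mul_inv]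
      have : 0 < m⁻¹ := inv_pos.2 hm
      nlinarith
    exact h2.trans h3
  have h4 := Real.log_le_log (by positivity) h1
  rw [Real.log_pow] at h4
  push_cast at h4
  linarith

/-- **The price of one slot, any `m`, crude numbers of size `1 / m`.** -/
theorem fin_gen2 (p' : ℕ) {c0 Λ0 N0 τ0 : ℝ} {a : ℕ} (hc0 : 1 ≤ c0) (hΛ0 : 0 ≤ Λ0) (hN0 : 0 ≤ N0)
    (hτ0 : 0 ≤ τ0) :
    ∃ C : ℝ, 0 ≤ C ∧ ∀ (t r s k3 b c d κ m X Λ N τ ez T : ℝ) (K : ℕ), 0 < t → 1 ≤ r → t ≤ 1 →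
      0 < s → 1 ≤ κ → 0 < m → m ≤ 1 → 1 ≤ X → X ≤ (c0 * κ * (r / t)) ^ a / m →
      0 ≤ N → 0 ≤ τ → 0 ≤ Λ →
      N ≤ N0 * ((1 + Real.log κ + Real.log (r / t)) ^ p' *
        (t ^ (-(b * (c + d))) * s * 8 ^ K)) →
      τ ≤ τ0 * (t ^ (1 - k3) * s ^ (1 / 4 : ℝ) * r ^ k3) →
      Λ ≤ Λ0 * (1 + Real.log (X / m)) ^ 3 →
      T ≤ √ez * (162 * (1 + Λ) * (1 + Real.log (X / m)) * (N * τ * m ^ (1 / 8 : ℝ))) →
      T ≤ C * ((1 + Real.log κ + Real.log (r / t)) ^ (4 + p') * m ^ (1 / 16 : ℝ) *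
        (t * (r / t) ^ k3 * t ^ (-(b * (c + d))) * s ^ (5 / 4 : ℝ) * √ez * 8 ^ K)) := by
  obtain ⟨C, hC, h⟩ := fin_gen p' (a := a) (Λ0 := 8 * Λ0) hc0 (by positivity) hN0 hτ0
  refine ⟨2 * C, by positivity, ?_⟩
  intro t r s k3 b c d κ m X Λ N τ ez T K ht hr ht1 hs hκ hm0 hm1 hX hXa hN hτ hΛ nN nτ nΛ hT
  have hρ : 1 ≤ r / t := by
    rw [le_div_iff₀ ht]
    linarith
  have hP : 1 ≤ (c0 * κ * (r / t)) ^ a := one_le_pow₀ (by
    have h1 : 1 ≤ c0 * κ := by nlinarith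
    nlinarith)
  have hl := log_two hm0 hm1 hX hP hXa
  have hX1 : 0 ≤ 1 + Real.log (X / m) := by
    have : 0 ≤ Real.log (X / m) := Real.log_nonneg (by
      rw [le_div_iff₀ hm0]
      linarith)
    linarith
  have hPm : 0 ≤ 1 + Real.log ((c0 * κ * (r / t)) ^ a / m) := by linarith
  have h1 := h t r s k3 b c d κ m ((c0 * κ * (r / t)) ^ a) Λ N τ ez (T / 2) K ht hr ht1 hs hκ hm0 hm1
    hP le_rfl hN hτ nN nτ (by
      refine nΛ.trans ?_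
      have h3 := pow_le_pow_left₀ hX1 hl 3
      calc Λ0 * (1 + Real.log (X / m)) ^ 3 ≤
          Λ0 * (2 * (1 + Real.log ((c0 * κ * (r / t)) ^ a / m))) ^ 3 :=
            mul_le_mul_of_nonneg_left h3 hΛ0
        _ = _ := by ring) (by
      have h4 : √ez * (162 * (1 + Λ) * (1 + Real.log (X / m)) * (N * τ * m ^ (1 / 8 : ℝ))) ≤
          √ez * (162 * (1 + Λ) * (2 * (1 + Real.log ((c0 * κ * (r / t)) ^ a / m))) *
            (N * τ * m ^ (1 / 8 : ℝ))) := by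
        have : 0 ≤ √ez := Real.sqrt_nonneg _
        gcongr
      have h5 := hT.trans h4
      have e : √ez * (162 * (1 + Λ) * (2 * (1 + Real.log ((c0 * κ * (r / t)) ^ a / m))) *
            (N * τ * m ^ (1 / 8 : ℝ))) = 2 * (√ez * (162 * (1 + Λ) *
            (1 + Real.log ((c0 * κ * (r / t)) ^ a / m)) * (N * τ * m ^ (1 / 8 : ℝ)))) := by ring
      rw [e] at h5
      linarith)
  linarith

/-- **The price of one slot, `m = (t / r) ^ (e0 / 2) (E / EM) ^ th`, crude numbers of size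
`1 / m`.** -/
theorem fin_pow2 (p' : ℕ) {c0 Λ0 N0 τ0 EM th : ℝ} {a : ℕ} (hc0 : 1 ≤ c0) (hΛ0 : 0 ≤ Λ0)
    (hN0 : 0 ≤ N0) (hτ0 : 0 ≤ τ0) (hEM : 1 ≤ EM) (hth : 0 ≤ th) :
    ∃ C : ℝ, 0 ≤ C ∧ ∀ (t r s k3 e0 b c d κ E m X Λ N τ ez T : ℝ) (K : ℕ), 0 < t → 1 ≤ r →
      t ≤ 1 → 0 < s → 1 ≤ κ → 0 < E → m = (t / r) ^ (e0 / 2) * (E / EM) ^ th → m ≤ 1 → 1 ≤ X →
      X ≤ (c0 * κ * (r / t)) ^ a / m → 0 ≤ N → 0 ≤ τ → 0 ≤ Λ →
      N ≤ N0 * ((1 + Real.log κ + Real.log (r / t)) ^ p' *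
        (t ^ (-(b * (c + d))) * s * 8 ^ K)) →
      τ ≤ τ0 * (t ^ (1 - k3) * s ^ (1 / 4 : ℝ) * r ^ k3) →
      Λ ≤ Λ0 * (1 + Real.log (X / m)) ^ 3 →
      T ≤ √ez * (162 * (1 + Λ) * (1 + Real.log (X / m)) * (N * τ * m ^ (1 / 8 : ℝ))) →
      T ≤ C * ((1 + Real.log κ + Real.log (r / t)) ^ (4 + p') * E ^ (th / 16) *
        (t * (r / t) ^ (k3 - e0 / 32) * t ^ (-(b * (c + d))) * s ^ (5 / 4 : ℝ) * √ez *
          8 ^ K)) := by
  obtain ⟨C, hC, h⟩ := fin_gen2 p' (a := a) hc0 hΛ0 hN0 hτ0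
  refine ⟨C, hC, ?_⟩
  intro t r s k3 e0 b c d κ E m X Λ N τ ez T K ht hr ht1 hs hκ hE hm hm1 hX hXa hN hτ hΛ nN nτ nΛ hT
  have hr0 : 0 < r := by linarith
  have hEM0 : 0 < EM := by linarith
  have hρ0 : 0 < r / t := by positivity
  have hy : 0 < t / r := by positivity
  have hm0 : 0 < m := by rw [hm]; positivity
  have h1 := h t r s k3 b c d κ m X Λ N τ ez T K ht hr ht1 hs hκ hm0 hm1 hX hXa hN hτ hΛ nN nτ nΛ hT
  have hmE : m ^ (1 / 16 : ℝ) ≤ E ^ (th / 16) * (r / t) ^ (-(e0 / 32)) := by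
    have e1 : ((t / r) ^ (e0 / 2)) ^ (1 / 16 : ℝ) = (r / t) ^ (-(e0 / 32)) := by
      rw [← Real.rpow_mul hy.le, ← inv_div r t, Real.inv_rpow hρ0.le, ← Real.rpow_neg hρ0.le]
      congr 1
      ring
    have e2 : ((E / EM) ^ th) ^ (1 / 16 : ℝ) ≤ E ^ (th / 16) := by
      rw [← Real.rpow_mul (by positivity)]
      have e3 : E / EM ≤ E := div_le_self hE.le hEM
      have e4 : th * (1 / 16 : ℝ) = th / 16 := by ring
      rw [e4]
      exact Real.rpow_le_rpow (by positivity) e3 (by positivity)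
    rw [hm, Real.mul_rpow (by positivity) (by positivity), e1, mul_comm]
    gcongr
  have l0 : 0 ≤ 1 + Real.log κ + Real.log (r / t) := by
    have e1 := Real.log_nonneg hκ
    have e2 : 0 ≤ Real.log (r / t) := Real.log_nonneg (by
      rw [le_div_iff₀ ht]
      linarith)
    linarith
  have e5 : (r / t) ^ (k3 - e0 / 32) = (r / t) ^ k3 * (r / t) ^ (-(e0 / 32)) := by
    rw [← Real.rpow_add hρ0]
    congr 1
  refine h1.trans ?_
  rw [e5]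
  calc C * ((1 + Real.log κ + Real.log (r / t)) ^ (4 + p') * m ^ (1 / 16 : ℝ) *
        (t * (r / t) ^ k3 * t ^ (-(b * (c + d))) * s ^ (5 / 4 : ℝ) * √ez * 8 ^ K)) ≤
      C * ((1 + Real.log κ + Real.log (r / t)) ^ (4 + p') *
        (E ^ (th / 16) * (r / t) ^ (-(e0 / 32))) *
        (t * (r / t) ^ k3 * t ^ (-(b * (c + d))) * s ^ (5 / 4 : ℝ) * √ez * 8 ^ K)) := by
        gcongr
    _ = _ := by ring

end

end Vale.Agent.P141.H186.FinM
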