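import Vale.Agent.P141.H186.QuaP
import Vale.Agent.P141.H829.OneP

/-!
# P141, line A, flow part: `OneQ` for the bundles `FD`, `FDU`

* `oneQ_FD`, `oneQ_Fb`, `oneQ_FDU` : over `H829.FM1_one`;
* `priceB_FDU` : `PriceB FDU FM1` from the three pair statements of `H972.NumQ`.
-/

namespace Vale.Agent.P141.H186.QuaP

open Finset Matrix
open Vale.Agent.P141.PL (Pt iv cx cb)
open Vale.Agent.P141.PL.H315 (Tri)
open Vale.Agent.P141.H958 (lbs)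
open Vale.Agent.P141.H795 (E8)
open Vale.Agent.P141.H215 (capV)
open Vale.Agent.P141.H677 (rt)
open Vale.Agent.P141.H677.Sk
open Vale.Agent.P141.H48 (US ES BSl)
open Vale.Agent.P141.H305 (Cls ClsM kapM)
open Vale.Agent.P141.H401 (Bun)
open Vale.Agent.P141.H972 (StP PCA PBC PZB NumQ)

noncomputable section

open scoped Classical

set_option linter.unusedSectionVars false

set_option linter.unusedVariables false

/-- the cap of the stacked slot -/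
theorem cap_num {t s r κ H' d k3 : ℝ} (ht : 0 < t) (ht1 : t ≤ 1) (hs : 0 < s) (hr : 1 ≤ r)
    (hκ : 1 ≤ κ) (hd : 0 ≤ d) (hd1 : d ≤ 1) (hk : 0 ≤ k3) (hk1 : k3 ≤ 1)
    (hH : 3 * κ / t ^ 2 ≤ H') :
    √((1 + κ ^ 2) * (4 * capV (t ^ (-d)) s 1)) ≤
      H' * (2 * (t ^ (1 - k3) * s ^ (1 / 4 : ℝ) * r ^ k3)) := by
  have hH0 : 0 ≤ H' := le_trans (by positivity) hH
  have hq0 : 0 < s ^ (1 / 4 : ℝ) := by positivity
  have hq2 : (s ^ (1 / 4 : ℝ)) ^ 2 = √s := by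
    rw [← Real.rpow_natCast, ← Real.rpow_mul hs.le, Real.sqrt_eq_rpow]
    norm_num
  have e1 : t ≤ t ^ (1 - k3) := by
    have := Real.rpow_le_rpow_of_exponent_ge ht ht1 (by linarith : 1 - k3 ≤ 1)
    rwa [Real.rpow_one] at this
  have e2 : 1 ≤ r ^ k3 := Real.one_le_rpow hr hk
  have e3 : t * s ^ (1 / 4 : ℝ) ≤ t ^ (1 - k3) * s ^ (1 / 4 : ℝ) * r ^ k3 := by
    have h1 : t * s ^ (1 / 4 : ℝ) ≤ t ^ (1 - k3) * s ^ (1 / 4 : ℝ) := by gcongr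
    have h2 : 0 ≤ t ^ (1 - k3) * s ^ (1 / 4 : ℝ) := by positivity
    nlinarith
  have e4 : H' * (2 * (t * s ^ (1 / 4 : ℝ))) ≤
      H' * (2 * (t ^ (1 - k3) * s ^ (1 / 4 : ℝ) * r ^ k3)) := by gcongr
  refine le_trans ?_ e4
  rw [Real.sqrt_le_iff]
  refine ⟨by positivity, ?_⟩
  unfold H215.capV
  have e5 : √(t ^ (-d) * s) ≤ t⁻¹ * √s := by
    rw [Real.sqrt_mul (by positivity)]
    refine mul_le_mul_of_nonneg_right ?_ (Real.sqrt_nonneg _)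
    rw [Real.sqrt_le_iff]
    refine ⟨by positivity, ?_⟩
    have h1 : t ^ (-d) ≤ t ^ (-1 : ℝ) := Real.rpow_le_rpow_of_exponent_ge ht ht1 (by linarith)
    rw [Real.rpow_neg_one] at h1
    have h2 : 1 ≤ t⁻¹ := (one_le_inv₀ ht).2 ht1
    nlinarith
  have e6 : (H' * (2 * (t * s ^ (1 / 4 : ℝ)))) ^ 2 = 4 * (H' ^ 2 * t ^ 2) * √s := by
    rw [← hq2]
    ring
  rw [e6]
  have hsq : 0 ≤ √s := Real.sqrt_nonneg _
  have e7 : (3 * κ / t ^ 2) ^ 2 ≤ H' ^ 2 := pow_le_pow_left₀ (by positivity) hH 2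
  have e8 : (3 * κ / t ^ 2) ^ 2 * t ^ 2 = 9 * κ ^ 2 * (t⁻¹ * t⁻¹) := by
    field_simp
    ring
  have e9 : 9 * κ ^ 2 * (t⁻¹ * t⁻¹) ≤ H' ^ 2 * t ^ 2 := by
    rw [← e8]
    exact mul_le_mul_of_nonneg_right e7 (by positivity)
  have e10 : 1 ≤ t⁻¹ := (one_le_inv₀ ht).2 ht1
  have hκ2 : 1 ≤ κ ^ 2 := one_le_pow₀ hκ
  have e11 : 16 * (1 + κ ^ 2) * t⁻¹ ≤ 4 * (H' ^ 2 * t ^ 2) := by
    have h1 : 16 * (1 + κ ^ 2) * t⁻¹ ≤ 32 * κ ^ 2 * t⁻¹ := by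
      refine mul_le_mul_of_nonneg_right ?_ (by positivity)
      linarith
    have h2 : 32 * κ ^ 2 * t⁻¹ ≤ 36 * κ ^ 2 * (t⁻¹ * t⁻¹) := by
      have h3 : t⁻¹ ≤ t⁻¹ * t⁻¹ := by nlinarith
      have h4 : 0 ≤ κ ^ 2 := by positivity
      have h5 : 0 ≤ t⁻¹ * t⁻¹ := by positivity
      nlinarith [mul_le_mul_of_nonneg_left h3 h4]
    linarith
  calc (1 + κ ^ 2) * (4 * (4 * (√(t ^ (-d) * s) * 1))) =
      16 * (1 + κ ^ 2) * √(t ^ (-d) * s) := by ring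
    _ ≤ 16 * (1 + κ ^ 2) * (t⁻¹ * √s) := by gcongr
    _ = 16 * (1 + κ ^ 2) * t⁻¹ * √s := by ring
    _ ≤ 4 * (H' ^ 2 * t ^ 2) * √s := mul_le_mul_of_nonneg_right e11 hsq

/-- the logarithm of the final number -/
theorem log_num {X1 κ H m : ℝ} (hX : 2 ≤ X1) (hκ : 1 ≤ κ) (hκH : κ ≤ H) (hm : 0 < m)
    (hm1 : m ≤ 1) : 1 + Real.log ((1 + κ) * (H ^ 2 / m) / m) ≤
      3 * (1 + Real.log (X1 * H / m ^ 2)) := by
  have hH : 1 ≤ H := hκ.trans hκH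
  have hm2 : 0 < m ^ 2 := by positivity
  have hm21 : m ^ 2 ≤ 1 := pow_le_one₀ hm.le hm1
  have hb : 1 ≤ X1 * H / m ^ 2 := by
    rw [le_div_iff₀ hm2]
    nlinarith
  have h1 : (1 + κ) * (H ^ 2 / m) / m ≤ (X1 * H / m ^ 2) ^ 3 := by
    have e1 : (1 + κ) * (H ^ 2 / m) / m = (1 + κ) * H ^ 2 / m ^ 2 := by
      field_simp
    have e2 : (X1 * H / m ^ 2) ^ 3 = (X1 * H) ^ 3 / m ^ 6 := by
      rw [div_pow]
      ring
    rw [e1, e2]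
    have e3 : (1 + κ) * H ^ 2 ≤ (X1 * H) ^ 3 := by
      have f1 : (1 + κ) * H ^ 2 ≤ 2 * H * H ^ 2 := by
        refine mul_le_mul_of_nonneg_right ?_ (by positivity)
        linarith
      have f2 : 2 * H * H ^ 2 ≤ (X1 * H) ^ 3 := by
        have f3 : (X1 * H) ^ 3 = X1 ^ 3 * (H * H ^ 2) := by ring
        rw [f3]
        have f4 : 2 ≤ X1 ^ 3 := by
          have : (2 : ℝ) ^ 3 ≤ X1 ^ 3 := pow_le_pow_left₀ (by norm_num) hX 3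
          linarith
        have f5 : 0 ≤ H * H ^ 2 := by positivity
        nlinarith
      exact f1.trans f2
    have e4 : m ^ 6 ≤ m ^ 2 := pow_le_pow_of_le_one hm.le hm1 (by norm_num)
    have hm6 : 0 < m ^ 6 := by positivity
    exact div_le_div₀ (by positivity) e3 hm6 e4
  have h0 : 0 < (1 + κ) * (H ^ 2 / m) / m := by positivity
  have h2 := Real.log_le_log h0 h1
  rw [Real.log_pow] at h2
  push_cast at h2
  linarith

/-- the final number -/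
theorem end_num {X1 κ H m C0 N θ T : ℝ} (hX : 1458 ≤ X1) (hκ : 1 ≤ κ) (hκH : κ ≤ H) (hm : 0 < m)
    (hm1 : m ≤ 1) (hC0 : 1 ≤ C0) (hN : 0 ≤ N) (hθ : 0 ≤ θ)
    (hT : T ≤ 3 * (162 * (1 + C0 * (1 + Real.log (H / m)) ^ 3) *
      (1 + Real.log ((1 + κ) * (H ^ 2 / m) / m)) * (N * (2 * θ) * m ^ (1 / 8 : ℝ)))) :
    T ≤ X1 * ((1 + C0 * (1 + Real.log (H / m)) ^ 3) * (1 + Real.log (X1 * H / m ^ 2)) *
      (N * (2 * θ) * m ^ (1 / 8 : ℝ))) := by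
  have hH1 : 1 ≤ H := hκ.trans hκH
  have hHm : 1 ≤ H / m := by
    rw [le_div_iff₀ hm]
    linarith
  have hlH : 0 ≤ Real.log (H / m) := Real.log_nonneg hHm
  have hΛ0 : 0 ≤ C0 * (1 + Real.log (H / m)) ^ 3 := by
    have : 0 ≤ 1 + Real.log (H / m) := by linarith
    positivity
  have hlog := log_num (X1 := X1) (by linarith) hκ hκH hm hm1
  refine hT.trans ?_
  generalize C0 * (1 + Real.log (H / m)) ^ 3 = Λ at hΛ0
  have hlX : 0 ≤ 1 + Real.log (X1 * H / m ^ 2) := by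
    have hm2 : 0 < m ^ 2 := by positivity
    have hm21 : m ^ 2 ≤ 1 := pow_le_one₀ hm.le hm1
    have : 0 ≤ Real.log (X1 * H / m ^ 2) := Real.log_nonneg (by
      rw [le_div_iff₀ hm2]
      nlinarith)
    linarith
  have hR0 : 0 ≤ N * (2 * θ) * m ^ (1 / 8 : ℝ) := by positivity
  generalize 1 + Real.log ((1 + κ) * (H ^ 2 / m) / m) = l1 at hlog
  generalize 1 + Real.log (X1 * H / m ^ 2) = l2 at hlog hlX
  generalize N * (2 * θ) * m ^ (1 / 8 : ℝ) = Rr at hR0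
  have hP0 : 0 ≤ (1 + Λ) * (l2 * Rr) := by positivity
  calc 3 * (162 * (1 + Λ) * l1 * Rr) ≤ 3 * (162 * (1 + Λ) * (3 * l2) * Rr) := by gcongr
    _ = 1458 * ((1 + Λ) * (l2 * Rr)) := by ring
    _ ≤ X1 * ((1 + Λ) * (l2 * Rr)) := mul_le_mul_of_nonneg_right hX hP0
    _ = _ := by ring

/-- the mass numbers -/
theorem mass_num {X1 κ H m N cP CD Y G : ℝ} (hX : X1 = 10 ^ 6 * (cP + 2) * (CD + 8))
    (hcP : 0 ≤ cP) (hCD : 1 ≤ CD) (hκ : 1 ≤ κ) (hκH : κ ≤ H) (hm : 0 < m) (hm1 : m ≤ 1)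
    (hY : 0 ≤ Y) (hG : 0 ≤ G) (hN : X1 * (Y * G) ≤ N) :
    70400 * (cP + 2) * CD * Y * G ≤ N ∧ 35200 * (cP + 2) * (CD + 4) * Y * G ≤ N ∧
      35200 * (cP + 2) * (CD + 4 * (1 + κ ^ 2)) * Y * G ≤ N * (H ^ 2 / m) := by
  have hM0 : 0 ≤ Y * G := by positivity
  have h2 : 0 ≤ cP + 2 := by linarith
  have hXa : 70400 * (cP + 2) * CD ≤ X1 := by
    rw [hX]
    nlinarith [mul_nonneg h2 (by linarith : 0 ≤ CD)]
  have hXb : 35200 * (cP + 2) * (CD + 8) ≤ X1 := by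
    rw [hX]
    nlinarith [mul_nonneg h2 (by linarith : 0 ≤ CD)]
  have k1 := (mul_le_mul_of_nonneg_right hXa hM0).trans hN
  have k2 := (mul_le_mul_of_nonneg_right hXb hM0).trans hN
  have hN0 : 0 ≤ N := le_trans (by positivity) k2
  refine ⟨by linarith, ?_, ?_⟩
  · have e1 : 35200 * (cP + 2) * (CD + 4) ≤ 35200 * (cP + 2) * (CD + 8) := by nlinarith
    have e2 := mul_le_mul_of_nonneg_right e1 hM0
    linarith
  · have hκ2 : 1 ≤ κ ^ 2 := one_le_pow₀ hκ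
    have e1 : 35200 * (cP + 2) * (CD + 4 * (1 + κ ^ 2)) ≤
        35200 * (cP + 2) * (CD + 8) * κ ^ 2 := by
      have f1 : CD + 4 * (1 + κ ^ 2) ≤ (CD + 8) * κ ^ 2 := by nlinarith
      have f2 := mul_le_mul_of_nonneg_left f1 (by positivity : 0 ≤ 35200 * (cP + 2))
      linarith
    have e2 := mul_le_mul_of_nonneg_right e1 hM0
    have e3 : κ ^ 2 ≤ H ^ 2 := pow_le_pow_left₀ (by linarith) hκH 2
    have e4 : κ ^ 2 ≤ H ^ 2 / m := by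
      rw [le_div_iff₀ hm]
      have : 0 ≤ κ ^ 2 := by positivity
      nlinarith
    have e5 := mul_le_mul k2 e4 (by positivity) hN0
    calc 35200 * (cP + 2) * (CD + 4 * (1 + κ ^ 2)) * Y * G =
        35200 * (cP + 2) * (CD + 4 * (1 + κ ^ 2)) * (Y * G) := by ring
      _ ≤ 35200 * (cP + 2) * (CD + 8) * κ ^ 2 * (Y * G) := e2
      _ = 35200 * (cP + 2) * (CD + 8) * (Y * G) * κ ^ 2 := by ring
      _ ≤ _ := e5

theorem cap_two {X1 κ H m r t : ℝ} (hX : 1458 ≤ X1) (hκ : 1 ≤ κ) (ht : 0 < t) (ht1 : t ≤ 1)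
    (hr : 1 ≤ r) (hm : 0 < m) (hm1 : m ≤ 1) (hXH : X1 * κ * (r / t) ≤ H) :
    3 * κ / t ^ 2 ≤ H ^ 2 / m := by
  have hr0 : 0 < r := by linarith
  have hH0 : 0 ≤ H := le_trans (by positivity) hXH
  have hH2 : H ^ 2 ≤ H ^ 2 / m := by
    rw [le_div_iff₀ hm]
    nlinarith [sq_nonneg H]
  refine le_trans ?_ hH2
  have f1 : 3 * κ * (r / t) ≤ H := by
    refine le_trans ?_ hXH
    have : 0 ≤ κ * (r / t) := by positivity
    nlinarith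
  have f2 : 1 / t ≤ r / t := div_le_div_of_nonneg_right hr ht.le
  have f3 : 3 * κ * (1 / t) ≤ H := (mul_le_mul_of_nonneg_left f2 (by positivity)).trans f1
  have f4 : 1 / t ≤ H := by
    refine le_trans ?_ f3
    have : 0 < 1 / t := by positivity
    nlinarith
  have f5 := mul_le_mul f3 f4 (by positivity) hH0
  calc 3 * κ / t ^ 2 = 3 * κ * (1 / t) * (1 / t) := by
        field_simp
    _ ≤ H * H := f5
    _ = _ := by ring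

/-- **One slot, `ez = 1`.** -/
theorem one_FD {ι : Type} [Fintype ι] [DecidableEq ι] {q₀ : H401.Num} {n : ℕ}
    {F1 F2 F3 : ℕ → Pt → ℝ} {o : ℤ} {K : ℕ} {x : Pt} {s r P X1 : ℝ} {U : Tri}
    {g : ℤ → ℤ → ℝ} {u v : ℤ → ℤ → ι → ℝ} {A : FamA} {b' C' : FamV ι}
    (hX : X1 = 10 ^ 6 * (q₀.cP + 2) * (q₀.CD + 8))
    (hD : FD ι q₀ n 1 F1 F2 F3 o K x s r U g u v A b' C') (hcl : Cls K x s r P U g u v)
    (ht : 0 < q₀.t) (ht1 : q₀.t ≤ 1) (hs : 0 < s) (hr : 1 ≤ r) (hcP : 0 ≤ q₀.cP)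
    (hCD : 1 ≤ q₀.CD) (hc : 0 ≤ q₀.c) (hd : 0 ≤ q₀.d) (hd1 : q₀.d ≤ 1) (hk : 0 ≤ q₀.k3)
    (hk1 : q₀.k3 ≤ 1) (hKn : K ≤ n) {Al : ℕ → Pt → Prop} {l κ E : ℝ} {R : Slt ι} (hκ : 1 ≤ κ)
    (hsl : SlotN Al o K (cx K x) l u R κ E) {h : Pt} {j : ℤ} (hj : j ∈ Icc (0 : ℤ) 2) {q : Pt}
    {Lb : ℕ} {eb : ι ⊕ ι → ℤ} (heb : Function.Injective eb) (hlb : ∀ i, eb i ∈ lbs Lb)
    {m C0 H N : ℝ} (hm : 0 < m) (hm1 : m ≤ 1) (hC0 : 1 ≤ C0) (hXH : X1 * κ * (r / q₀.t) ≤ H)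
    (hXN : X1 * (q₀.t ^ (-(1 * (q₀.c + q₀.d))) * s * 8 ^ K) ≤ N)
    (hP : ∀ t' ∈ rt (cx K x), P3 ι K (cx K x) R A b' C' Lb eb h j q t'
        (2 * q₀.th s r) m C0 H N) :
    FM1 K (cx K x) R A b' C' h j q ≤
        X1 * ((1 + C0 * (1 + Real.log (H / m)) ^ 3) * (1 + Real.log (X1 * H / m ^ 2)) *
          (N * (2 * q₀.th s r) * m ^ (1 / 8 : ℝ))) := by
  obtain ⟨Q1, Q2, Q3, v', hF⟩ := hD
  have hX1 : 1458 ≤ X1 := by
    rw [hX]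
    nlinarith [mul_nonneg hcP (by linarith : 0 ≤ q₀.CD)]
  have hr0 : 0 < r := by linarith
  have hρ : 1 ≤ r / q₀.t := by
    rw [le_div_iff₀ ht]
    linarith
  have hκρ : κ * (r / q₀.t) ≤ H := by
    refine le_trans ?_ hXH
    have : 0 ≤ κ * (r / q₀.t) := by positivity
    nlinarith
  have hκH : κ ≤ H := by nlinarith
  have hH1 : 1 ≤ H := hκ.trans hκH
  have hLm1 : (1 : ℝ) ≤ q₀.Lm :=
    Real.one_le_rpow_of_pos_of_le_one_of_nonpos ht ht1 (by linarith)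
  have hLm : q₀.Lm ≤ q₀.t ^ (-(1 * (q₀.c + q₀.d))) :=
    Real.rpow_le_rpow_of_exponent_ge ht ht1 (by linarith)
  have hN1 : X1 * (q₀.Lm * s * 8 ^ K) ≤ N := by
    refine le_trans ?_ hXN
    have : 0 ≤ X1 := by linarith
    gcongr
  have hX0 : 0 ≤ X1 := by linarith
  have hLm0 : 0 ≤ q₀.Lm := by linarith
  have hN0 : 0 ≤ N := le_trans (by positivity) hN1
  have hHm : 1 ≤ H / m := by
    rw [le_div_iff₀ hm]
    linarith
  have hlH : 0 ≤ Real.log (H / m) := Real.log_nonneg hHm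
  have hΛ0 : 0 ≤ C0 * (1 + Real.log (H / m)) ^ 3 := by
    have : 0 ≤ 1 + Real.log (H / m) := by linarith
    positivity
  have hHH : 1 ≤ H ^ 2 / m := by
    rw [le_div_iff₀ hm]
    nlinarith
  have hth : 0 < q₀.th s r := by
    unfold H401.Num.th
    positivity
  obtain ⟨n0, n1, n2⟩ := mass_num hX hcP hCD hκ hκH hm hm1 (by positivity : 0 ≤ q₀.Lm * s)
    (by positivity : (0 : ℝ) ≤ 8 ^ K) hN1
  refine end_num hX1 hκ hκH hm hm1 hC0 hN0 hth.le ?_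
  exact H829.FM1_one (p := q₀) hF hcl hs hth hLm1 (by linarith) hcP hKn (w := h) hj (q := q) hsl hκ
    hm hm1 hΛ0 (H := H ^ 2 / m) (N := N) hHH hN0 heb hlb
    (fun t' ht' => by
      obtain ⟨⟨⟨Λ, E1, EA, g1, g2, g3, g4, g5, g6, g7⟩, _⟩, _⟩ := hP t' ht'
      exact ⟨Λ, E1, EA, g2, g3, g4, g5, g6, g7⟩)
    (fun t' ht' => by
      obtain ⟨⟨_, ⟨Λ, E1, EV, g1, g2, g3, g4, g5, g6, g7⟩⟩, _⟩ := hP t' ht'
      exact ⟨Λ, E1, EV, g2, g3, g4, g5, g6, g7⟩)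
    (fun t' ht' => by
      obtain ⟨_, ⟨Z, g1, g2, g3⟩⟩ := hP t' ht'
      refine ⟨Z, g1, ?_, g3⟩
      have e1 : N * (H ^ 2 / m) = N * H ^ 2 / m := by ring
      rw [e1, le_div_iff₀ hm]
      refine g2.trans (mul_le_mul_of_nonneg_left ?_ hN0)
      nlinarith)
    n0 n1 n2 (cap_num ht ht1 hs hr hκ hd hd1 hk hk1 (cap_two hX1 hκ ht ht1 hr hm hm1 hXH))

theorem oneQ_FD : OneQ FD := by
  refine ⟨0, 1, zero_le_one, ?_⟩
  intro a e0 k8 k3 c d Kt e cP L CD ha ha1 he0 he01 hk8 hk81 hk3 hk31 hc hc1 hd hd1 hK he hcP hL hCD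
  refine ⟨10 ^ 6 * (cP + 2) * (CD + 8), by nlinarith [mul_nonneg hcP (by linarith : 0 ≤ CD)], ?_⟩
  intro t ht ht1 n F1 F2 F3 h1 h3 h2 o ho K hKn x ι _ _ s r U g u v hs hr hcls A b' C' hD R κ E hκ
    hE hEL hsl h hh j hj q hq Lb eb heb hlb m C0 H N hm hm1 hC0 hXH hXN hP
  rw [pow_zero, one_mul] at hXN
  exact one_FD (q₀ := ⟨a, e0, k8, k3, c, d, Kt, e, cP, L, CD, t⟩) rfl hD hcls.toCls ht ht1 hs hr
    hcP hCD hc hd.le (hd1.trans (by norm_num)) hk3.le (hk31.trans (by norm_num)) hKn hκ hsl hj heb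
    hlb hm hm1 hC0 hXH hXN hP

theorem oneQ_Fb {D : Bun} (H : OneQ D) : OneQ (H636.Fb D) := by
  obtain ⟨p0, b0, hb0, H⟩ := H
  refine ⟨p0, b0, hb0, ?_⟩
  intro a e0 k8 k3 c d Kt e cP L CD ha ha1 he0 he01 hk8 hk81 hk3 hk31 hc hc1 hd hd1 hK he hcP hL hCD
  obtain ⟨X1, hX1, H⟩ := H a e0 k8 k3 c d Kt e cP L CD ha ha1 he0 he01 hk8 hk81 hk3 hk31 hc hc1 hd
    hd1 hK he hcP hL hCD
  refine ⟨X1, hX1, ?_⟩
  intro t ht ht1 n F1 F2 F3 h1 h3 h2 o ho K hKn x ι _ _ s r U g u v hs hr hcls A b' C' hD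
  exact H t ht ht1 n F1 F2 F3 h1 h3 h2 o ho K hKn x ι s r U g u v hs hr hcls A b' C' hD.2.2

theorem oneQ_FDU : OneQ H636.FDU := oneQ_Fb oneQ_FD

/-- **`PriceB FDU FM1` from the three pair statements.** -/
theorem priceB_FDU (H2 : NumQ H636.FDU PCA) (H3 : NumQ H636.FDU PBC) (H4 : NumQ H636.FDU PZB) :
    H939.PriceB H636.FDU fun _ι _ _ K M R A b C h j e => FM1 K M R A b C h j e :=
  priceB_of_num homB_FDU oneQ_FDU H2 H3 H4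

end

end Vale.Agent.P141.H186.QuaP
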