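import Vale.Agent.P141.H186.FinN
import Vale.Agent.P141.H939.PriceB

/-!
# P141, line A: statements about one slot on one plane, and the price from the closed stage

* `SlotSt` : statements about class data, families, one slot `R` with numbers `κ`, `E`, one grid
  `h`, plane `j`, corner `q`, and a constant;
* `PartS D Φ` : the quantifiers of `H939.PriceB`, the constant `C ≥ 1` at the end;
  `PartSp D Φ` : with three numbers `p`, `th`, `b` chosen after `k3`;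
* `PartS.and`, `PartS.andp`, `PartS.mono`, `PartSp.mono`;
* `OneS` : the data of `CloseM.close_m` at one slot; `priceB_of_stage`.
-/

namespace Vale.Agent.P141.H186.PS

open Finset Matrix
open Vale.Agent.P141.PL (Pt iv hs ix mem_iv ix_ix cb mem_cb cx card_iv)
open Vale.Agent.P141.PL.H315 (Tri)
open Vale.Agent.P141.H48 (US ES)
open Vale.Agent.P141.H795 (E8)
open Vale.Agent.P141.H401 (Bun)
open Vale.Agent.P141.H305 (ClsM kapM)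
open Vale.Agent.P141.H677 Vale.Agent.P141.H677.Sk
open Vale.Agent.P141.H939 (PriceB)
open Vale.Agent.P141.H186.CloseM Vale.Agent.P141.H186.CloseY Vale.Agent.P141.H186.FinM

noncomputable section

open scoped Classical

/-- statements about one slot on one plane of one grid, with a constant -/
abbrev SlotSt : Type 1 :=
  ∀ (ι : Type) [Fintype ι] [DecidableEq ι], H401.Num → ℕ → ℝ → (ℕ → Pt → ℝ) → (ℕ → Pt → ℝ) →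
    (ℕ → Pt → ℝ) → ℤ → ℕ → Pt → ℝ → ℝ → Tri → (ℤ → ℤ → ℝ) → (ℤ → ℤ → ι → ℝ) →
    (ℤ → ℤ → ι → ℝ) → FamA → FamV ι → FamV ι → Slt ι → ℝ → ℝ → Pt → ℤ → Pt → ℝ → Prop

/-- **The quantifiers of `PriceB`**, a constant at the end. -/
def PartS (D : Bun) (Φ : SlotSt) : Prop :=
  ∀ a : ℝ, 0 < a → a ≤ 1 →
  ∃ es : ℝ, 0 < es ∧ es ≤ 1 ∧ ∀ e0 : ℝ, 0 < e0 → e0 ≤ es →
  ∃ k8s : ℝ, 0 < k8s ∧ ∀ k8 : ℝ, 0 < k8 → k8 ≤ k8s →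
  ∃ k3s : ℝ, 0 < k3s ∧ ∀ k3 : ℝ, 0 < k3 → k3 ≤ k3s →
  ∃ (c1 d1 : ℝ), 0 < c1 ∧ 0 < d1 ∧
  ∀ c : ℝ, 0 ≤ c → c ≤ c1 → ∀ d : ℝ, 0 < d → d ≤ d1 →
  ∀ Kt e cP L : ℝ, 0 < Kt → 1 ≤ e → 0 ≤ cP → 1 ≤ L → ∀ CD : ℝ, 1 ≤ CD → ∃ C : ℝ, 1 ≤ C ∧
  ∀ t : ℝ, 0 < t → t ≤ 1 → ∀ (n : ℕ) (ez : ℝ) (F1 F2 F3 : ℕ → Pt → ℝ),
    US n (Kt * t ^ (1 - c)) e cP F1 → US n (Kt * t ^ (1 - c)) e cP F3 → ES n ez cP F2 →
  ∀ o : ℤ, o = 1 ∨ o = -1 → ∀ K ≤ n, ∀ (x : Pt) (ι : Type) [Fintype ι] [DecidableEq ι]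
    (s r : ℝ) (U : Tri) (g : ℤ → ℤ → ℝ) (u v : ℤ → ℤ → ι → ℝ), 0 < s → 1 ≤ r →
    ClsM K x s r (L * t ^ (2 - c) * √s) (kapM L t a s r) U g u v →
    ∀ (A : FamA) (b' C' : FamV ι),
      D ι ⟨a, e0, k8, k3, c, d, Kt, e, cP, L, CD, t⟩ n ez F1 F2 F3 o K x s r U g u v A b' C' →
    ∀ (R : Slt ι) (κ E : ℝ), 1 ≤ κ → 0 < E → E ≤ L + 3780000 →
      SlotN ((⟨a, e0, k8, k3, c, d, Kt, e, cP, L, CD, t⟩ : H401.Num).al U K) o K (cx K x)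
        ((⟨a, e0, k8, k3, c, d, Kt, e, cP, L, CD, t⟩ : H401.Num).lam s r) u R κ E →
    ∀ h ∈ cb K 0, ∀ j ∈ Icc (0 : ℤ) 2, ∀ q ∈ E8,
      Φ ι ⟨a, e0, k8, k3, c, d, Kt, e, cP, L, CD, t⟩ n ez F1 F2 F3 o K x s r U g u v A b' C' R κ E
        h j q C

/-- **The same with three numbers chosen after `k3`.** -/
def PartSp (D : Bun) (Φ : ℕ → ℝ → ℝ → SlotSt) : Prop :=
  ∀ a : ℝ, 0 < a → a ≤ 1 →
  ∃ es : ℝ, 0 < es ∧ es ≤ 1 ∧ ∀ e0 : ℝ, 0 < e0 → e0 ≤ es →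
  ∃ k8s : ℝ, 0 < k8s ∧ ∀ k8 : ℝ, 0 < k8 → k8 ≤ k8s →
  ∃ k3s : ℝ, 0 < k3s ∧ ∀ k3 : ℝ, 0 < k3 → k3 ≤ k3s →
  ∃ (p : ℕ) (th b : ℝ), 0 < th ∧ 0 ≤ b ∧ ∃ (c1 d1 : ℝ), 0 < c1 ∧ 0 < d1 ∧
  ∀ c : ℝ, 0 ≤ c → c ≤ c1 → ∀ d : ℝ, 0 < d → d ≤ d1 →
  ∀ Kt e cP L : ℝ, 0 < Kt → 1 ≤ e → 0 ≤ cP → 1 ≤ L → ∀ CD : ℝ, 1 ≤ CD → ∃ C : ℝ, 1 ≤ C ∧
  ∀ t : ℝ, 0 < t → t ≤ 1 → ∀ (n : ℕ) (ez : ℝ) (F1 F2 F3 : ℕ → Pt → ℝ),
    US n (Kt * t ^ (1 - c)) e cP F1 → US n (Kt * t ^ (1 - c)) e cP F3 → ES n ez cP F2 →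
  ∀ o : ℤ, o = 1 ∨ o = -1 → ∀ K ≤ n, ∀ (x : Pt) (ι : Type) [Fintype ι] [DecidableEq ι]
    (s r : ℝ) (U : Tri) (g : ℤ → ℤ → ℝ) (u v : ℤ → ℤ → ι → ℝ), 0 < s → 1 ≤ r →
    ClsM K x s r (L * t ^ (2 - c) * √s) (kapM L t a s r) U g u v →
    ∀ (A : FamA) (b' C' : FamV ι),
      D ι ⟨a, e0, k8, k3, c, d, Kt, e, cP, L, CD, t⟩ n ez F1 F2 F3 o K x s r U g u v A b' C' →
    ∀ (R : Slt ι) (κ E : ℝ), 1 ≤ κ → 0 < E → E ≤ L + 3780000 →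
      SlotN ((⟨a, e0, k8, k3, c, d, Kt, e, cP, L, CD, t⟩ : H401.Num).al U K) o K (cx K x)
        ((⟨a, e0, k8, k3, c, d, Kt, e, cP, L, CD, t⟩ : H401.Num).lam s r) u R κ E →
    ∀ h ∈ cb K 0, ∀ j ∈ Icc (0 : ℤ) 2, ∀ q ∈ E8,
      Φ p th b ι ⟨a, e0, k8, k3, c, d, Kt, e, cP, L, CD, t⟩ n ez F1 F2 F3 o K x s r U g u v A b' C'
        R κ E h j q C

/-- implication of statements, the constant may grow -/
def ImpS (Φ Ψ : SlotSt) : Prop :=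
  ∀ (ι : Type) [Fintype ι] [DecidableEq ι] (p : H401.Num) (n : ℕ) (ez : ℝ)
    (F1 F2 F3 : ℕ → Pt → ℝ) (o : ℤ) (K : ℕ) (x : Pt) (s r : ℝ) (U : Tri) (g : ℤ → ℤ → ℝ)
    (u v : ℤ → ℤ → ι → ℝ) (A : FamA) (b C : FamV ι) (R : Slt ι) (κ E : ℝ) (h : Pt) (j : ℤ)
    (q : Pt) (X X' : ℝ), 0 < p.t → p.t ≤ 1 → 0 < s → 1 ≤ r → 1 ≤ κ → 0 < E → 1 ≤ X → X ≤ X' →
    Φ ι p n ez F1 F2 F3 o K x s r U g u v A b C R κ E h j q X →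
    Ψ ι p n ez F1 F2 F3 o K x s r U g u v A b C R κ E h j q X'

/-- **Two statements together.** -/
theorem PartS.and {D : Bun} {Φ1 Φ2 Φ1' Φ2' : SlotSt} (m1 : ImpS Φ1 Φ1') (m2 : ImpS Φ2 Φ2')
    (H1 : PartS D Φ1) (H2 : PartS D Φ2) :
    PartS D (fun ι _ _ p n ez F1 F2 F3 o K x s r U g u v A b C R κ E h j q X =>
      Φ1' ι p n ez F1 F2 F3 o K x s r U g u v A b C R κ E h j q X ∧
      Φ2' ι p n ez F1 F2 F3 o K x s r U g u v A b C R κ E h j q X) := by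
  intro a ha ha1
  obtain ⟨es1, hes1, hes11, H1⟩ := H1 a ha ha1
  obtain ⟨es2, hes2, hes21, H2⟩ := H2 a ha ha1
  refine ⟨min es1 es2, lt_min hes1 hes2, (min_le_left _ _).trans hes11, fun e0 he0 he0' => ?_⟩
  obtain ⟨k81, hk81, H1⟩ := H1 e0 he0 (he0'.trans (min_le_left _ _))
  obtain ⟨k82, hk82, H2⟩ := H2 e0 he0 (he0'.trans (min_le_right _ _))
  refine ⟨min k81 k82, lt_min hk81 hk82, fun k8 hk8 hk8' => ?_⟩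
  obtain ⟨k31, hk31, H1⟩ := H1 k8 hk8 (hk8'.trans (min_le_left _ _))
  obtain ⟨k32, hk32, H2⟩ := H2 k8 hk8 (hk8'.trans (min_le_right _ _))
  refine ⟨min k31 k32, lt_min hk31 hk32, fun k3 hk3 hk3' => ?_⟩
  obtain ⟨c1, d1, hc1, hd1, H1⟩ := H1 k3 hk3 (hk3'.trans (min_le_left _ _))
  obtain ⟨c2, d2, hc2, hd2, H2⟩ := H2 k3 hk3 (hk3'.trans (min_le_right _ _))
  refine ⟨min c1 c2, min d1 d2, lt_min hc1 hc2, lt_min hd1 hd2,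
    fun c hc hcc d hd hdd Kt e cP L hK he hcP hL CD hCD => ?_⟩
  obtain ⟨C1, hC1, H1⟩ := H1 c hc (hcc.trans (min_le_left _ _)) d hd (hdd.trans (min_le_left _ _))
    Kt e cP L hK he hcP hL CD hCD
  obtain ⟨C2, hC2, H2⟩ := H2 c hc (hcc.trans (min_le_right _ _)) d hd
    (hdd.trans (min_le_right _ _)) Kt e cP L hK he hcP hL CD hCD
  refine ⟨max C1 C2, le_max_of_le_left hC1, ?_⟩
  intro t ht ht1 n ez F1 F2 F3 h1 h3 h2 o ho K hKn x ι _ _ s r U g u v hs hr hcls A b' C' hD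
    R κ E hκ hE hEL hsl h hh j hj q hq
  exact ⟨m1 ι _ n ez F1 F2 F3 o K x s r U g u v A b' C' R κ E h j q _ _ ht ht1 hs hr hκ hE hC1
      (le_max_left _ _) (H1 t ht ht1 n ez F1 F2 F3 h1 h3 h2 o ho K hKn x ι s r U g u v hs hr hcls
        A b' C' hD R κ E hκ hE hEL hsl h hh j hj q hq),
    m2 ι _ n ez F1 F2 F3 o K x s r U g u v A b' C' R κ E h j q _ _ ht ht1 hs hr hκ hE hC2
      (le_max_right _ _) (H2 t ht ht1 n ez F1 F2 F3 h1 h3 h2 o ho K hKn x ι s r U g u v hs hr hcls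
        A b' C' hD R κ E hκ hE hEL hsl h hh j hj q hq)⟩

/-- **A statement and a statement with parameters together.** -/
theorem PartS.andp {D : Bun} {Φ1 Φ1' : SlotSt} {Φ2 Φ2' : ℕ → ℝ → ℝ → SlotSt}
    (m1 : ImpS Φ1 Φ1') (m2 : ∀ p th b, 0 < th → 0 ≤ b → ImpS (Φ2 p th b) (Φ2' p th b))
    (H1 : PartS D Φ1) (H2 : PartSp D Φ2) :
    PartSp D (fun p' th b' ι _ _ p n ez F1 F2 F3 o K x s r U g u v A b C R κ E h j q X =>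
      Φ1' ι p n ez F1 F2 F3 o K x s r U g u v A b C R κ E h j q X ∧
      Φ2' p' th b' ι p n ez F1 F2 F3 o K x s r U g u v A b C R κ E h j q X) := by
  intro a ha ha1
  obtain ⟨es1, hes1, hes11, H1⟩ := H1 a ha ha1
  obtain ⟨es2, hes2, hes21, H2⟩ := H2 a ha ha1
  refine ⟨min es1 es2, lt_min hes1 hes2, (min_le_left _ _).trans hes11, fun e0 he0 he0' => ?_⟩
  obtain ⟨k81, hk81, H1⟩ := H1 e0 he0 (he0'.trans (min_le_left _ _))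
  obtain ⟨k82, hk82, H2⟩ := H2 e0 he0 (he0'.trans (min_le_right _ _))
  refine ⟨min k81 k82, lt_min hk81 hk82, fun k8 hk8 hk8' => ?_⟩
  obtain ⟨k31, hk31, H1⟩ := H1 k8 hk8 (hk8'.trans (min_le_left _ _))
  obtain ⟨k32, hk32, H2⟩ := H2 k8 hk8 (hk8'.trans (min_le_right _ _))
  refine ⟨min k31 k32, lt_min hk31 hk32, fun k3 hk3 hk3' => ?_⟩
  obtain ⟨c1, d1, hc1, hd1, H1⟩ := H1 k3 hk3 (hk3'.trans (min_le_left _ _))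
  obtain ⟨p', th, b0, hth, hb0, c2, d2, hc2, hd2, H2⟩ := H2 k3 hk3 (hk3'.trans (min_le_right _ _))
  refine ⟨p', th, b0, hth, hb0, min c1 c2, min d1 d2, lt_min hc1 hc2, lt_min hd1 hd2,
    fun c hc hcc d hd hdd Kt e cP L hK he hcP hL CD hCD => ?_⟩
  obtain ⟨C1, hC1, H1⟩ := H1 c hc (hcc.trans (min_le_left _ _)) d hd (hdd.trans (min_le_left _ _))
    Kt e cP L hK he hcP hL CD hCD
  obtain ⟨C2, hC2, H2⟩ := H2 c hc (hcc.trans (min_le_right _ _)) d hd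
    (hdd.trans (min_le_right _ _)) Kt e cP L hK he hcP hL CD hCD
  refine ⟨max C1 C2, le_max_of_le_left hC1, ?_⟩
  intro t ht ht1 n ez F1 F2 F3 h1 h3 h2 o ho K hKn x ι _ _ s r U g u v hs hr hcls A b' C' hD
    R κ E hκ hE hEL hsl h hh j hj q hq
  exact ⟨m1 ι _ n ez F1 F2 F3 o K x s r U g u v A b' C' R κ E h j q _ _ ht ht1 hs hr hκ hE hC1
      (le_max_left _ _) (H1 t ht ht1 n ez F1 F2 F3 h1 h3 h2 o ho K hKn x ι s r U g u v hs hr hcls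
        A b' C' hD R κ E hκ hE hEL hsl h hh j hj q hq),
    m2 p' th b0 hth hb0 ι _ n ez F1 F2 F3 o K x s r U g u v A b' C' R κ E h j q _ _ ht ht1 hs hr hκ
      hE hC2 (le_max_right _ _) (H2 t ht ht1 n ez F1 F2 F3 h1 h3 h2 o ho K hKn x ι s r U g u v hs
        hr hcls A b' C' hD R κ E hκ hE hEL hsl h hh j hj q hq)⟩

/-- **The closed stage at one slot**: the hypotheses of `close_m` with numbers. `T` is the value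
of the functional, `X` the constant. -/
structure OneS (q : H401.Num) (s r ez κ E : ℝ) (K p : ℕ) (th b T X : ℝ) : Prop where
  ex : ∃ (m T0 N τ cC Λ Es EA EV P₀ P₁ Z Kc H : ℝ) (RAB RBC RCA : ℝ → ℝ → ℝ),
    (T ≤ X * (√ez * T0)) ∧ (0 < m ∧ m ≤ 1 ∧ m ≤ X * ((q.t / r) ^ (q.e0 / 2) * E ^ th)) ∧
    (1 ≤ H ∧ 1 ≤ Kc ∧ 0 ≤ Λ ∧ 0 ≤ N ∧ 0 < τ ∧ 0 ≤ Es ∧ 0 ≤ EA ∧ 0 ≤ EV ∧ 0 ≤ P₀ ∧ 0 ≤ P₁ ∧ 0 ≤ Z) ∧
    StageConc RAB RBC RCA τ cC T0 ∧ (∀ x x', 0 ≤ RCA x x') ∧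
    (∀ h, 0 < h → h ≤ τ → RAB h h ≤ P₀ * h ^ 2) ∧
    (∀ x, m ^ (1 / 4 : ℝ) * τ ≤ x →
      RBC τ x ≤ Λ * (√(x ^ 2 * Es * (τ ^ 2 * EV)) + τ ^ 2 * Es)) ∧
    (∀ x, m ^ (1 / 4 : ℝ) * τ ≤ x →
      RCA x τ ≤ Λ * (√(x ^ 2 * Es * (τ ^ 2 * EA)) + τ ^ 2 * Es)) ∧
    (∀ x x', 0 < x' → Kc * x' ≤ x → x ≤ τ → RCA x x' ≤ P₁ * x ^ 2) ∧
    (∀ h, 0 < h → h ≤ τ → RBC h h ≤ Z * h ^ 2) ∧
    (∀ h, 0 < h → h ≤ τ → RCA h h ≤ Z * h ^ 2) ∧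
    (P₀ ≤ N ∧ P₁ ≤ N ∧ EA ≤ N ∧ Es ≤ N * √m ∧ EV * √m ≤ N ∧ Z ≤ N * H ∧ cC ≤ H * τ) ∧
    N ≤ X * ((1 + Real.log κ + Real.log (r / q.t)) ^ p *
      (q.t ^ (-(b * (q.c + q.d))) * s * 8 ^ K)) ∧
    τ ≤ X * q.th s r ∧ Λ ≤ X * (1 + Real.log (Kc * H / m)) ^ 3 ∧
    Kc * H ≤ (X * κ * (r / q.t)) ^ (⌈X⌉₊)

/-- the closed stage as a statement about one slot -/
def OneSt (T : FunG) (p : ℕ) (th b : ℝ) : SlotSt :=
  fun ι _ _ q _n ez _F1 _F2 _F3 _o K x s r _U _g _u _v A b' C R κ E h j e X =>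
    OneS q s r ez κ E K p th b (T ι K (cx K x) R A b' C h j e) X

/-- **The price from the closed stage.** -/
theorem priceB_of_stage {D : Bun} {T : FunG} (H : PartSp D (OneSt T)) : PriceB D T := by
  intro a ha ha1
  obtain ⟨es, hes, hes1, H⟩ := H a ha ha1
  refine ⟨es, hes, hes1, fun e0 he0 he0' => ?_⟩
  obtain ⟨k8s, hk8s, H⟩ := H e0 he0 he0'
  refine ⟨k8s, hk8s, fun k8 hk8 hk8' => ?_⟩
  obtain ⟨k3s, hk3s, H⟩ := H k8 hk8 hk8'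
  refine ⟨min k3s (e0 / 32), lt_min hk3s (by positivity), fun k3 hk3 hk3' => ?_⟩
  obtain ⟨p, th, b, hth, hb, c1, d1, hc1, hd1, H⟩ := H k3 hk3 (hk3'.trans (min_le_left _ _))
  have hk32 : k3 ≤ e0 / 32 := hk3'.trans (min_le_right _ _)
  refine ⟨4 + p, th / 16, k3 - e0 / 32, b, c1, d1, by positivity, ?_, hb, hc1, hd1,
    fun c hc hcc d hd hdd Kt e cP L hK he hcP hL CD hCD => ?_⟩
  · have : 0 < e0 * (th / 16) := by positivity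
    linarith
  obtain ⟨X, hX, H⟩ := H c hc hcc d hd hdd Kt e cP L hK he hcP hL CD hCD
  have hX0 : 0 ≤ X := by linarith
  obtain ⟨C2, hC2, H2⟩ := fin_gen p (a := ⌈X⌉₊) hX hX0 hX0 hX0
  refine ⟨X * C2 * X ^ (1 / 16 : ℝ), by positivity, ?_⟩
  intro t ht ht1 n ez F1 F2 F3 h1 h3 h2 o ho K hKn x ι _ _ s r U g u v hs hr hcls A b' C' hD
    R κ E hκ hE hEL hsl h hh j hj q hq
  have hS := H t ht ht1 n ez F1 F2 F3 h1 h3 h2 o ho K hKn x ι s r U g u v hs hr hcls A b' C' hD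
    R κ E hκ hE hEL hsl h hh j hj q hq
  obtain ⟨m, T0, N, τ, cC, Λ, Es, EA, EV, P₀, P₁, Z, Kc, Hc, RAB, RBC, RCA, hT, ⟨hm, hm1, hmE⟩,
    ⟨hH, hKc, hΛ, hN, hτ, hEs, hEA, hEV, hP₀, hP₁, hZ⟩, hst, nCA, hAB, hBC, hCA, hLow, hZB, hZA,
    ⟨nP₀, nP₁, nEA, nE, nEV, nZ, nC⟩, nN, nτ, nΛ, nKH⟩ := hS.ex
  have hr0 : 0 < r := by linarith
  have hρ0 : 0 < r / t := by positivity
  have hy : 0 < t / r := by positivity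
  have hcl := close_m hm hm1 hH hKc hΛ hN hτ hEs hEA hEV hP₀ hP₁ hZ hst nCA hAB hBC hCA hLow hZB
    hZA nP₀ nP₁ nEA nE nEV nZ nC
  have hKH1 : 1 ≤ Kc * Hc := by nlinarith
  have h5 := H2 t r s k3 b c d κ m (Kc * Hc) Λ N τ ez (√ez * T0) K ht hr ht1 hs hκ hm hm1 hKH1 nKH
    hN hτ.le nN nτ nΛ (mul_le_mul_of_nonneg_left hcl (Real.sqrt_nonneg _))
  have l0 : 0 ≤ 1 + Real.log κ + Real.log (r / t) := by
    have e1 := Real.log_nonneg hκ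
    have e2 : 0 ≤ Real.log (r / t) := Real.log_nonneg (by
      rw [le_div_iff₀ ht]
      linarith)
    linarith
  have hm16 : m ^ (1 / 16 : ℝ) ≤
      X ^ (1 / 16 : ℝ) * ((r / t) ^ (-(e0 / 32)) * E ^ (th / 16)) := by
    have e1 : ((t / r) ^ (e0 / 2)) ^ (1 / 16 : ℝ) = (r / t) ^ (-(e0 / 32)) := by
      rw [← Real.rpow_mul hy.le, ← inv_div r t, Real.inv_rpow hρ0.le, ← Real.rpow_neg hρ0.le]
      congr 1
      ring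
    have e2 : (E ^ th) ^ (1 / 16 : ℝ) = E ^ (th / 16) := by
      rw [← Real.rpow_mul hE.le]
      congr 1
      ring
    refine (Real.rpow_le_rpow hm.le hmE (by norm_num)).trans (le_of_eq ?_)
    rw [Real.mul_rpow hX0 (by positivity), Real.mul_rpow (by positivity) (by positivity)]
    rw [e2]
    congr 2
  have e5 : (r / t) ^ (k3 - e0 / 32) = (r / t) ^ k3 * (r / t) ^ (-(e0 / 32)) := by
    rw [← Real.rpow_add hρ0]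
    congr 1
  rw [e5]
  refine hT.trans ((mul_le_mul_of_nonneg_left h5 hX0).trans ?_)
  calc X * (C2 * ((1 + Real.log κ + Real.log (r / t)) ^ (4 + p) * m ^ (1 / 16 : ℝ) *
        (t * (r / t) ^ k3 * t ^ (-(b * (c + d))) * s ^ (5 / 4 : ℝ) * √ez * 8 ^ K))) ≤
      X * (C2 * ((1 + Real.log κ + Real.log (r / t)) ^ (4 + p) *
        (X ^ (1 / 16 : ℝ) * ((r / t) ^ (-(e0 / 32)) * E ^ (th / 16))) *
        (t * (r / t) ^ k3 * t ^ (-(b * (c + d))) * s ^ (5 / 4 : ℝ) * √ez * 8 ^ K))) := by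
        gcongr
    _ = _ := by ring

end

end Vale.Agent.P141.H186.PS
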