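import Vale.Agent.P141.H186.PartS
import Vale.Agent.P141.H186.FinP
import Vale.Agent.P141.H677.SlotX

/-!
# P141, line A: the price from the closed stage, crude numbers of size `1 / m`

* `OneS2`, `priceB_of_stage2` : as `OneS`, `priceB_of_stage` with `K H ≤ (X κ (r / t))^⌈X⌉ / m`;
* `mS` : the number `m` of a slot; `slotNum_p` : `H677.Sk.SlotNum` as a statement `PartSp`.
-/

namespace Vale.Agent.P141.H186.PS

open Finset Matrix
open Vale.Agent.P141.PL (Pt iv hs ix mem_iv ix_ix cb mem_cb cx card_iv)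
open Vale.Agent.P141.PL.H315 (Tri)
open Vale.Agent.P141.H48 (US ES)
open Vale.Agent.P141.H795 (E8)
open Vale.Agent.P141.H401 (Bun)
open Vale.Agent.P141.H305 (ClsM kapM)
open Vale.Agent.P141.H677 Vale.Agent.P141.H677.Sk
open Vale.Agent.P141.H939 (PriceB)
open Vale.Agent.P141.H186.CloseM Vale.Agent.P141.H186.CloseY Vale.Agent.P141.H186.FinM

noncomputable section

open scoped Classical

/-- **The closed stage at one slot**: the hypotheses of `close_m` with numbers. `T` is the value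
of the functional, `X` the constant. -/
structure OneS2 (q : H401.Num) (s r ez κ E : ℝ) (K p : ℕ) (th b T X : ℝ) : Prop where
  ex : ∃ (m T0 N τ cC Λ Es EA EV P₀ P₁ Z Kc H : ℝ) (RAB RBC RCA : ℝ → ℝ → ℝ),
    (T ≤ X * (√ez * T0)) ∧ (0 < m ∧ m ≤ 1 ∧ m ≤ X * ((q.t / r) ^ (q.e0 / 2) * E ^ th)) ∧
    (1 ≤ H ∧ 1 ≤ Kc ∧ 0 ≤ Λ ∧ 0 ≤ N ∧ 0 < τ ∧ 0 ≤ Es ∧ 0 ≤ EA ∧ 0 ≤ EV ∧ 0 ≤ P₀ ∧ 0 ≤ P₁ ∧ 0 ≤ Z) ∧
    StageConc RAB RBC RCA τ cC T0 ∧ (∀ x x', 0 ≤ RCA x x') ∧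
    (∀ h, 0 < h → h ≤ τ → RAB h h ≤ P₀ * h ^ 2) ∧
    (∀ x, m ^ (1 / 4 : ℝ) * τ ≤ x →
      RBC τ x ≤ Λ * (√(x ^ 2 * Es * (τ ^ 2 * EV)) + τ ^ 2 * Es)) ∧
    (∀ x, m ^ (1 / 4 : ℝ) * τ ≤ x →
      RCA x τ ≤ Λ * (√(x ^ 2 * Es * (τ ^ 2 * EA)) + τ ^ 2 * Es)) ∧
    (∀ x x', 0 < x' → Kc * x' ≤ x → x ≤ τ → RCA x x' ≤ P₁ * x ^ 2) ∧
    (∀ h, 0 < h → h ≤ τ → RBC h h ≤ Z * h ^ 2) ∧
    (∀ h, 0 < h → h ≤ τ → RCA h h ≤ Z * h ^ 2) ∧
    (P₀ ≤ N ∧ P₁ ≤ N ∧ EA ≤ N ∧ Es ≤ N * √m ∧ EV * √m ≤ N ∧ Z ≤ N * H ∧ cC ≤ H * τ) ∧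
    N ≤ X * ((1 + Real.log κ + Real.log (r / q.t)) ^ p *
      (q.t ^ (-(b * (q.c + q.d))) * s * 8 ^ K)) ∧
    τ ≤ X * q.th s r ∧ Λ ≤ X * (1 + Real.log (Kc * H / m)) ^ 3 ∧
    Kc * H ≤ (X * κ * (r / q.t)) ^ (⌈X⌉₊) / m

/-- the closed stage as a statement about one slot -/
def OneSt2 (T : FunG) (p : ℕ) (th b : ℝ) : SlotSt :=
  fun ι _ _ q _n ez _F1 _F2 _F3 _o K x s r _U _g _u _v A b' C R κ E h j e X =>
    OneS2 q s r ez κ E K p th b (T ι K (cx K x) R A b' C h j e) X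

/-- **The price from the closed stage.** -/
theorem priceB_of_stage2 {D : Bun} {T : FunG} (H : PartSp D (OneSt2 T)) : PriceB D T := by
  intro a ha ha1
  obtain ⟨es, hes, hes1, H⟩ := H a ha ha1
  refine ⟨es, hes, hes1, fun e0 he0 he0' => ?_⟩
  obtain ⟨k8s, hk8s, H⟩ := H e0 he0 he0'
  refine ⟨k8s, hk8s, fun k8 hk8 hk8' => ?_⟩
  obtain ⟨k3s, hk3s, H⟩ := H k8 hk8 hk8'
  refine ⟨min k3s (e0 / 32), lt_min hk3s (by positivity), fun k3 hk3 hk3' => ?_⟩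
  obtain ⟨p, th, b, hth, hb, c1, d1, hc1, hd1, H⟩ := H k3 hk3 (hk3'.trans (min_le_left _ _))
  have hk32 : k3 ≤ e0 / 32 := hk3'.trans (min_le_right _ _)
  refine ⟨4 + p, th / 16, k3 - e0 / 32, b, c1, d1, by positivity, ?_, hb, hc1, hd1,
    fun c hc hcc d hd hdd Kt e cP L hK he hcP hL CD hCD => ?_⟩
  · have : 0 < e0 * (th / 16) := by positivity
    linarith
  obtain ⟨X, hX, H⟩ := H c hc hcc d hd hdd Kt e cP L hK he hcP hL CD hCD
  have hX0 : 0 ≤ X := by linarith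
  obtain ⟨C2, hC2, H2⟩ := fin_gen2 p (a := ⌈X⌉₊) hX hX0 hX0 hX0
  refine ⟨X * C2 * X ^ (1 / 16 : ℝ), by positivity, ?_⟩
  intro t ht ht1 n ez F1 F2 F3 h1 h3 h2 o ho K hKn x ι _ _ s r U g u v hs hr hcls A b' C' hD
    R κ E hκ hE hEL hsl h hh j hj q hq
  have hS := H t ht ht1 n ez F1 F2 F3 h1 h3 h2 o ho K hKn x ι s r U g u v hs hr hcls A b' C' hD
    R κ E hκ hE hEL hsl h hh j hj q hq
  obtain ⟨m, T0, N, τ, cC, Λ, Es, EA, EV, P₀, P₁, Z, Kc, Hc, RAB, RBC, RCA, hT, ⟨hm, hm1, hmE⟩,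
    ⟨hH, hKc, hΛ, hN, hτ, hEs, hEA, hEV, hP₀, hP₁, hZ⟩, hst, nCA, hAB, hBC, hCA, hLow, hZB, hZA,
    ⟨nP₀, nP₁, nEA, nE, nEV, nZ, nC⟩, nN, nτ, nΛ, nKH⟩ := hS.ex
  have hr0 : 0 < r := by linarith
  have hρ0 : 0 < r / t := by positivity
  have hy : 0 < t / r := by positivity
  have hcl := close_m hm hm1 hH hKc hΛ hN hτ hEs hEA hEV hP₀ hP₁ hZ hst nCA hAB hBC hCA hLow hZB
    hZA nP₀ nP₁ nEA nE nEV nZ nC
  have hKH1 : 1 ≤ Kc * Hc := by nlinarith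
  have h5 := H2 t r s k3 b c d κ m (Kc * Hc) Λ N τ ez (√ez * T0) K ht hr ht1 hs hκ hm hm1 hKH1 nKH
    hN hτ.le hΛ nN nτ nΛ (mul_le_mul_of_nonneg_left hcl (Real.sqrt_nonneg _))
  have l0 : 0 ≤ 1 + Real.log κ + Real.log (r / t) := by
    have e1 := Real.log_nonneg hκ
    have e2 : 0 ≤ Real.log (r / t) := Real.log_nonneg (by
      rw [le_div_iff₀ ht]
      linarith)
    linarith
  have hm16 : m ^ (1 / 16 : ℝ) ≤
      X ^ (1 / 16 : ℝ) * ((r / t) ^ (-(e0 / 32)) * E ^ (th / 16)) := by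
    have e1 : ((t / r) ^ (e0 / 2)) ^ (1 / 16 : ℝ) = (r / t) ^ (-(e0 / 32)) := by
      rw [← Real.rpow_mul hy.le, ← inv_div r t, Real.inv_rpow hρ0.le, ← Real.rpow_neg hρ0.le]
      congr 1
      ring
    have e2 : (E ^ th) ^ (1 / 16 : ℝ) = E ^ (th / 16) := by
      rw [← Real.rpow_mul hE.le]
      congr 1
      ring
    refine (Real.rpow_le_rpow hm.le hmE (by norm_num)).trans (le_of_eq ?_)
    rw [Real.mul_rpow hX0 (by positivity), Real.mul_rpow (by positivity) (by positivity)]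
    rw [e2]
    congr 2
  have e5 : (r / t) ^ (k3 - e0 / 32) = (r / t) ^ k3 * (r / t) ^ (-(e0 / 32)) := by
    rw [← Real.rpow_add hρ0]
    congr 1
  rw [e5]
  refine hT.trans ((mul_le_mul_of_nonneg_left h5 hX0).trans ?_)
  calc X * (C2 * ((1 + Real.log κ + Real.log (r / t)) ^ (4 + p) * m ^ (1 / 16 : ℝ) *
        (t * (r / t) ^ k3 * t ^ (-(b * (c + d))) * s ^ (5 / 4 : ℝ) * √ez * 8 ^ K))) ≤
      X * (C2 * ((1 + Real.log κ + Real.log (r / t)) ^ (4 + p) *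
        (X ^ (1 / 16 : ℝ) * ((r / t) ^ (-(e0 / 32)) * E ^ (th / 16))) *
        (t * (r / t) ^ k3 * t ^ (-(b * (c + d))) * s ^ (5 / 4 : ℝ) * √ez * 8 ^ K))) := by
        gcongr
    _ = _ := by ring

/-- the number `m` of a slot -/
def mS (q : H401.Num) (r E th : ℝ) : ℝ :=
  (q.t / r) ^ (q.e0 / 2) * (E / (q.L + 3780000)) ^ th

theorem mS_pos {q : H401.Num} {r E th : ℝ} (ht : 0 < q.t) (hr : 1 ≤ r) (hL : 1 ≤ q.L)
    (hE : 0 < E) : 0 < mS q r E th := by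
  have hr0 : 0 < r := by linarith
  have hL0 : 0 < q.L + 3780000 := by linarith
  unfold mS
  positivity

theorem mS_le {q : H401.Num} {r E th : ℝ} (ht : 0 < q.t) (ht1 : q.t ≤ 1) (hr : 1 ≤ r)
    (hL : 1 ≤ q.L) (he : 0 ≤ q.e0) (hE : 0 < E) (hEL : E ≤ q.L + 3780000) (hth : 0 ≤ th) :
    mS q r E th ≤ 1 := by
  have hr0 : 0 < r := by linarith
  have hL0 : 0 < q.L + 3780000 := by linarith
  have h1 : (q.t / r) ^ (q.e0 / 2) ≤ 1 := by
    refine Real.rpow_le_one (by positivity) ?_ (by positivity)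
    rw [div_le_one hr0]
    linarith
  have h2 : (E / (q.L + 3780000)) ^ th ≤ 1 := by
    refine Real.rpow_le_one (by positivity) ?_ hth
    rw [div_le_one hL0]
    exact hEL
  unfold mS
  have h3 : 0 ≤ (E / (q.L + 3780000)) ^ th := by positivity
  nlinarith

/-- **The numbers of the slots with `m`**: statement with the parameters `p`, `th`, `b`. -/
def SlotNumSt (p : ℕ) (th b : ℝ) : SlotSt :=
  fun _ι _ _ q _n ez _F1 _F2 _F3 _o K x s r _U _g _u _v _A _b' C' R κ E h _j _e X =>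
    NumX K (cx K x) R C' h (X * ((1 + Real.log κ + Real.log (r / q.t)) ^ p *
      (q.t ^ (-(b * (q.c + q.d))) * s * 8 ^ K)) * (ez * mS q r E th))

theorem slotNum_p {D : Bun} (H : SlotNum D) : PartSp D SlotNumSt := by
  intro a ha ha1
  obtain ⟨es, hes, hes1, H⟩ := H a ha ha1
  refine ⟨es, hes, hes1, fun e0 he0 he0' => ?_⟩
  obtain ⟨k8s, hk8s, H⟩ := H e0 he0 he0'
  refine ⟨k8s, hk8s, fun k8 hk8 hk8' => ?_⟩
  obtain ⟨k3s, hk3s, H⟩ := H k8 hk8 hk8'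
  refine ⟨k3s, hk3s, fun k3 hk3 hk3' => ?_⟩
  obtain ⟨p, th, b, c1, d1, hth, hb, hc1, hd1, H⟩ := H k3 hk3 hk3'
  refine ⟨p, th, b, hth, hb, c1, d1, hc1, hd1,
    fun c hc hcc d hd hdd Kt e cP L hK he hcP hL CD hCD => ?_⟩
  obtain ⟨C, hC, H⟩ := H c hc hcc d hd hdd Kt e cP L hK he hcP hL CD hCD
  have hL0 : 0 < L + 3780000 := by linarith
  refine ⟨C * (L + 3780000) ^ th + 1, by
    have : 0 ≤ C * (L + 3780000) ^ th := by positivity
    linarith, ?_⟩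
  intro t ht ht1 n ez F1 F2 F3 h1 h3 h2 o ho K hKn x ι _ _ s r U g u v hs hr hcls A b' C' hD
    R κ E hκ hE hEL hsl h hh j hj q hq
  have hr0 : 0 < r := by linarith
  have h5 := H t ht ht1 n ez F1 F2 F3 h1 h3 h2 o ho K hKn x ι s r U g u v hs hr hcls A b' C' hD
    R κ E hκ hE hEL hsl h hh
  refine h5.mono ?_
  have l0 : 0 ≤ 1 + Real.log κ + Real.log (r / t) := by
    have e1 := Real.log_nonneg hκ
    have e2 : 0 ≤ Real.log (r / t) := Real.log_nonneg (by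
      rw [le_div_iff₀ ht]
      linarith)
    linarith
  have e1 : E ^ th = (L + 3780000) ^ th * (E / (L + 3780000)) ^ th := by
    rw [← Real.mul_rpow hL0.le (by positivity)]
    congr 1
    field_simp
  have hez : 0 ≤ ez := h2.1
  have hm0 : 0 ≤ (t / r) ^ (e0 / 2) * (E / (L + 3780000)) ^ th := by positivity
  have hY : 0 ≤ (1 + Real.log κ + Real.log (r / t)) ^ p * (t ^ (-(b * (c + d))) * s * 8 ^ K) *
      (ez * ((t / r) ^ (e0 / 2) * (E / (L + 3780000)) ^ th)) := by positivity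
  have e2 : C * ((1 + Real.log κ + Real.log (r / t)) ^ p * E ^ th *
      ((t / r) ^ (e0 / 2) * t ^ (-(b * (c + d))) * (ez * s) * 8 ^ K)) =
      C * (L + 3780000) ^ th * ((1 + Real.log κ + Real.log (r / t)) ^ p *
        (t ^ (-(b * (c + d))) * s * 8 ^ K) *
        (ez * ((t / r) ^ (e0 / 2) * (E / (L + 3780000)) ^ th))) := by
    rw [e1]
    ring
  rw [e2]
  unfold mS
  calc C * (L + 3780000) ^ th * ((1 + Real.log κ + Real.log (r / t)) ^ p *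
        (t ^ (-(b * (c + d))) * s * 8 ^ K) *
        (ez * ((t / r) ^ (e0 / 2) * (E / (L + 3780000)) ^ th))) ≤
      (C * (L + 3780000) ^ th + 1) * ((1 + Real.log κ + Real.log (r / t)) ^ p *
        (t ^ (-(b * (c + d))) * s * 8 ^ K) *
        (ez * ((t / r) ^ (e0 / 2) * (E / (L + 3780000)) ^ th))) :=
      mul_le_mul_of_nonneg_right (by linarith) hY
    _ = _ := by ring

/-- the sum of the slot number and the mass number (any numerals `p₀`, `b₀`) -/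
theorem mm_le {X X' b b₀ s r κ : ℝ} {q : H401.Num} {p p₀ K : ℕ} (hX : 0 ≤ X) (hX' : 0 ≤ X')
    (ht : 0 < q.t) (ht1 : q.t ≤ 1) (hr : 1 ≤ r) (hκ : 1 ≤ κ) (hs : 0 ≤ s)
    (hcd : 0 ≤ q.c + q.d) :
    X' * (X * ((1 + Real.log κ + Real.log (r / q.t)) ^ p *
      (q.t ^ (-(b * (q.c + q.d))) * s * 8 ^ K)) +
      (1 + Real.log κ + Real.log (r / q.t)) ^ p₀ *
      (q.t ^ (-(b₀ * (q.c + q.d))) * s * 8 ^ K)) ≤
    X' * (X + 1) * ((1 + Real.log κ + Real.log (r / q.t)) ^ (max p p₀) *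
      (q.t ^ (-(max b b₀ * (q.c + q.d))) * s * 8 ^ K)) := by
  have l1 : 1 ≤ 1 + Real.log κ + Real.log (r / q.t) := by
    have e1 := Real.log_nonneg hκ
    have e2 : 0 ≤ Real.log (r / q.t) := Real.log_nonneg (by
      rw [le_div_iff₀ ht]
      linarith)
    linarith
  have hp1 : (1 + Real.log κ + Real.log (r / q.t)) ^ p ≤
      (1 + Real.log κ + Real.log (r / q.t)) ^ (max p p₀) :=
    pow_le_pow_right₀ l1 (le_max_left _ _)
  have hp2 : (1 + Real.log κ + Real.log (r / q.t)) ^ p₀ ≤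
      (1 + Real.log κ + Real.log (r / q.t)) ^ (max p p₀) :=
    pow_le_pow_right₀ l1 (le_max_right _ _)
  have hb1 : q.t ^ (-(b * (q.c + q.d))) ≤ q.t ^ (-(max b b₀ * (q.c + q.d))) := by
    refine Real.rpow_le_rpow_of_exponent_ge ht ht1 ?_
    have := mul_le_mul_of_nonneg_right (le_max_left b b₀) hcd
    linarith
  have hb2 : q.t ^ (-(b₀ * (q.c + q.d))) ≤ q.t ^ (-(max b b₀ * (q.c + q.d))) := by
    refine Real.rpow_le_rpow_of_exponent_ge ht ht1 ?_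
    have := mul_le_mul_of_nonneg_right (le_max_right b b₀) hcd
    linarith
  have l0 : 0 ≤ 1 + Real.log κ + Real.log (r / q.t) := by linarith
  have h1 : (1 + Real.log κ + Real.log (r / q.t)) ^ p *
      (q.t ^ (-(b * (q.c + q.d))) * s * 8 ^ K) ≤
      (1 + Real.log κ + Real.log (r / q.t)) ^ (max p p₀) *
      (q.t ^ (-(max b b₀ * (q.c + q.d))) * s * 8 ^ K) := by
    gcongr
  have h2 : (1 + Real.log κ + Real.log (r / q.t)) ^ p₀ *
      (q.t ^ (-(b₀ * (q.c + q.d))) * s * 8 ^ K) ≤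
      (1 + Real.log κ + Real.log (r / q.t)) ^ (max p p₀) *
      (q.t ^ (-(max b b₀ * (q.c + q.d))) * s * 8 ^ K) := by
    gcongr
  have h3 := mul_le_mul_of_nonneg_left h1 hX
  refine (mul_le_mul_of_nonneg_left (add_le_add h3 h2) hX').trans (le_of_eq ?_)
  ring

end

end Vale.Agent.P141.H186.PS
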