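import Vale.Agent.P141.H186.XSum

/-!
# P141, line A: the exponents of the stage sum

`price`: with `a = A0 t^(2-δ) s^(3/2)`, `b = B0 t^(2-δ) s^(3/2)`, `m = M0 ez s t^(η/2)`,
`ρ = t^(-η/4)` the x0-sum of `H619.Stage.stage` is at most
`C t^(1 + η/8 - δ/2 - 2δ') s^(5/4) √ez 8^K`.
-/

namespace Vale.Agent.P141.H186.XSum

open Finset
open Vale.Agent.P141.H958

noncomputable section

/-- the number of levels -/
theorem exists_lev {δ : ℝ} (hδ : 0 < δ) : ∀ x : ℝ, 1 ≤ x → ∃ L : ℕ, x ≤ 4 ^ (L - 1) ∧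
    (20 + (L : ℝ)) ^ 3 ≤ (22 + 3 / δ) ^ 3 * x ^ δ := by
  intro x hx
  have hx0 : 0 < x := by linarith
  have hl : 0 ≤ Real.log x := Real.log_nonneg hx
  have h4 : 1 ≤ Real.log 4 := by
    rw [Real.le_log_iff_exp_le (by norm_num)]
    exact Real.exp_one_lt_three.le.trans (by norm_num)
  refine ⟨⌈Real.log x⌉₊ + 1, ?_, ?_⟩
  · rw [Nat.add_sub_cancel]
    have h1 : Real.log x ≤ (⌈Real.log x⌉₊ : ℝ) := Nat.le_ceil _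
    rw [← Real.log_le_log_iff hx0 (by positivity), Real.log_pow]
    have h2 : (0 : ℝ) ≤ (⌈Real.log x⌉₊ : ℝ) := Nat.cast_nonneg _
    nlinarith
  · have h1 : ((⌈Real.log x⌉₊ + 1 : ℕ) : ℝ) ≤ Real.log x + 2 := by
      push_cast
      linarith [(Nat.ceil_lt_add_one hl).le]
    have hx3 : 1 ≤ x ^ (δ / 3) := Real.one_le_rpow hx (by positivity)
    have h2 : Real.log x ≤ x ^ (δ / 3) / (δ / 3) := Real.log_le_rpow_div hx0.le (by positivity)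
    have h3 : 20 + ((⌈Real.log x⌉₊ + 1 : ℕ) : ℝ) ≤ (22 + 3 / δ) * x ^ (δ / 3) := by
      have h4 : x ^ (δ / 3) / (δ / 3) = 3 / δ * x ^ (δ / 3) := by field_simp
      rw [h4] at h2
      nlinarith
    have h5 : (0 : ℝ) ≤ 20 + ((⌈Real.log x⌉₊ + 1 : ℕ) : ℝ) := by positivity
    refine (pow_le_pow_left₀ h5 h3 3).trans (le_of_eq ?_)
    rw [mul_pow, ← Real.rpow_natCast (x ^ (δ / 3)) 3, ← Real.rpow_mul hx0.le]
    congr 2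
    push_cast
    ring

/-- limit in the line energy -/
theorem of_gt {T C ez : ℝ} (h : ∀ z, ez < z → T ≤ C * √z) : T ≤ C * √ez := by
  have hc : Filter.Tendsto (fun z => C * √z) (nhdsWithin ez (Set.Ioi ez)) (nhds (C * √ez)) := by
    refine Filter.Tendsto.mono_left ?_ nhdsWithin_le_nhds
    exact (continuous_const.mul Real.continuous_sqrt).tendsto ez
  exact ge_of_tendsto hc (by filter_upwards [self_mem_nhdsWithin] with z hz using h z hz)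

/-- **The exponents of the stage sum.** -/
theorem price {η δ δ' C1 A0 B0 M0 Q0 κ0 c0 : ℝ} (hη : 0 < η) (hδ' : 0 < δ')
    (hC1 : 0 ≤ C1) (hA0 : 0 < A0) (hB0 : 0 < B0) (hM0 : 0 < M0) (hQ0 : 1 ≤ Q0) (hκ0 : 0 ≤ κ0)
    (hc0 : 0 ≤ c0) :
    ∃ C : ℝ, 0 ≤ C ∧ ∀ t : ℝ, 0 < t → t ≤ 1 → ∀ s ez W κ cA cB cC : ℝ, 0 < s → 0 < ez → 0 < W →
    0 ≤ κ → κ ≤ κ0 * t ^ (-δ') → ∀ (ι : Type) (X : Finset ι) (K : ℕ) (T GA GB EC DA DB DC : ι → ℝ),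
    (#X : ℝ) * W ≤ c0 * 8 ^ K →
    (∀ i, 0 ≤ GA i) → (∀ i, 0 ≤ GB i) → (∀ i, 0 ≤ EC i) →
    ∑ i ∈ X, GA i ≤ #X * (W * (A0 * t ^ (2 - δ) * s ^ (3 / 2 : ℝ))) →
    ∑ i ∈ X, GB i ≤ #X * (W * (B0 * t ^ (2 - δ) * s ^ (3 / 2 : ℝ))) →
    ∑ i ∈ X, EC i ≤ #X * (W * (M0 * ez * s * t ^ (η / 2))) →
    cA ^ 4 ≤ Q0 * t ^ (-C1) * (A0 * t ^ (2 - δ) * s ^ (3 / 2 : ℝ)) →
    cB ^ 4 ≤ Q0 * t ^ (-C1) * (B0 * t ^ (2 - δ) * s ^ (3 / 2 : ℝ)) →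
    cC ^ 2 ≤ Q0 * t ^ (-C1) * (M0 * ez * s * t ^ (η / 2)) →
    (∀ i ∈ X, 0 ≤ DA i ∧ DA i ≤ Q0 * t ^ (-C1) * W * √(A0 * t ^ (2 - δ) * s ^ (3 / 2 : ℝ))) →
    (∀ i ∈ X, 0 ≤ DB i ∧ DB i ≤ Q0 * t ^ (-C1) * W * √(B0 * t ^ (2 - δ) * s ^ (3 / 2 : ℝ))) →
    (∀ i ∈ X, 0 ≤ DC i ∧ DC i ≤ Q0 * t ^ (-C1) * W * (M0 * ez * s * t ^ (η / 2))) →
    (∀ L : ℕ, ∀ i ∈ X, ∀ Θ GA' GB' EC' : ℝ, 0 < Θ → GA i ≤ GA' → GB i ≤ GB' → EC i ≤ EC' →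
      t ^ (-(η / 4)) * Θ * cA ^ 4 ≤ 16 ^ (L - 1) * GA' →
      Θ * cB ^ 4 ≤ 16 ^ (L - 1) * (t ^ (-(η / 4)) * GB') →
      Θ * cC ^ 2 ≤ 4 ^ (L - 1) * (t ^ (-(η / 4)) * EC') →
      T i ≤ 6 * (κ * (1 + (L : ℝ)) ^ 2 * (√(t ^ (-(η / 4))) * √(√(GA' * GB') * EC'))) *
          (L + L + L : ℕ) +
        100 * κ * (20 + (L : ℝ)) ^ 2 *
          st3 √√(GA' / (t ^ (-(η / 4)) * Θ)) √√(t ^ (-(η / 4)) * GB' / Θ)
            √(t ^ (-(η / 4)) * EC' / Θ) (DA i) (t ^ (-(η / 4)) * DB i)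
            (t ^ (-(η / 4)) * DC i)) →
    ∑ i ∈ X, T i ≤ C * (t ^ (1 + (η / 8 - δ / 2 - 2 * δ')) * s ^ (5 / 4 : ℝ) * √ez * 8 ^ K) := by
  set C2 : ℝ := 5 * (η / 4 + C1) with hC2
  have hC2p : 0 < C2 := by positivity
  have hd : 0 < δ' / C2 := by positivity
  refine ⟨66 * κ0 * ((22 + 3 / (δ' / C2)) ^ 3 * (Q0 ^ 5) ^ (δ' / C2)) * (c0 * √(√(A0 * B0) * M0)),
    by positivity, ?_⟩
  intro t ht ht1 s ez W κ cA cB cC hs hez hW hκ hκ' ι X K T GA GB EC DA DB DC hX pA pB pC sA sB sC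
    cA4 cB4 cC2 hDA hDB hDC hT
  set ρ : ℝ := t ^ (-(η / 4)) with hρ
  set Q : ℝ := Q0 * t ^ (-C1) with hQ
  have hρ1 : 1 ≤ ρ := Real.one_le_rpow_of_pos_of_le_one_of_nonpos ht ht1 (by linarith)
  have hQ1 : 1 ≤ Q := by
    have : 1 ≤ t ^ (-C1) := Real.one_le_rpow_of_pos_of_le_one_of_nonpos ht ht1 (by linarith)
    nlinarith
  have hx : (ρ * Q) ^ 5 = Q0 ^ 5 * t ^ (-C2) := by
    rw [hρ, hQ, show t ^ (-(η / 4)) * (Q0 * t ^ (-C1)) = Q0 * (t ^ (-(η / 4)) * t ^ (-C1)) by ring,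
      ← Real.rpow_add ht, mul_pow, ← Real.rpow_natCast (t ^ (-(η / 4) + -C1)) 5,
      ← Real.rpow_mul ht.le]
    congr 2
    rw [hC2]
    push_cast
    ring
  have hx1 : 1 ≤ (ρ * Q) ^ 5 := one_le_pow₀ (by nlinarith)
  obtain ⟨L, hL, hLp⟩ := exists_lev hd ((ρ * Q) ^ 5) hx1
  have main := x0_sum X hκ hρ1 (by positivity) (by positivity) (by positivity) hW hQ1 pA pB pC
    sA sB sC cA4 cB4 cC2 hL hDA hDB hDC (hT L)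
  refine main.trans ?_
  -- the polynomial of the number of levels
  have h1 : (20 + (L : ℝ)) ^ 3 ≤
      (22 + 3 / (δ' / C2)) ^ 3 * (Q0 ^ 5) ^ (δ' / C2) * t ^ (-δ') := by
    refine hLp.trans (le_of_eq ?_)
    rw [hx, Real.mul_rpow (by positivity) (by positivity), ← Real.rpow_mul ht.le,
      show -C2 * (δ' / C2) = -δ' by field_simp]
    ring
  have h2 : √(√(A0 * t ^ (2 - δ) * s ^ (3 / 2 : ℝ) * (B0 * t ^ (2 - δ) * s ^ (3 / 2 : ℝ))) *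
      (M0 * ez * s * t ^ (η / 2))) =
      √(√(A0 * B0) * M0) * (t ^ (1 - δ / 2 + η / 4) * s ^ (5 / 4 : ℝ) * √ez) := by
    have e1 : A0 * t ^ (2 - δ) * s ^ (3 / 2 : ℝ) * (B0 * t ^ (2 - δ) * s ^ (3 / 2 : ℝ)) =
        (t ^ (2 - δ) * s ^ (3 / 2 : ℝ)) ^ 2 * (A0 * B0) := by ring
    rw [e1, Real.sqrt_mul (sq_nonneg _), Real.sqrt_sq (by positivity)]
    have e2 : t ^ (2 - δ) * s ^ (3 / 2 : ℝ) * √(A0 * B0) * (M0 * ez * s * t ^ (η / 2)) =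
        (t ^ (1 - δ / 2 + η / 4) * s ^ (5 / 4 : ℝ)) ^ 2 * (ez * (√(A0 * B0) * M0)) := by
      have e3 : (t ^ (1 - δ / 2 + η / 4) * s ^ (5 / 4 : ℝ)) ^ 2 =
          t ^ (2 - δ) * t ^ (η / 2) * (s ^ (3 / 2 : ℝ) * s) := by
        rw [mul_pow, ← Real.rpow_natCast (t ^ (1 - δ / 2 + η / 4)) 2, ← Real.rpow_mul ht.le,
          ← Real.rpow_natCast (s ^ (5 / 4 : ℝ)) 2, ← Real.rpow_mul hs.le, ← Real.rpow_add ht]
        have e4 : s ^ (3 / 2 : ℝ) * s = s ^ (5 / 4 * ((2 : ℕ) : ℝ) : ℝ) := by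
          nth_rewrite 2 [← Real.rpow_one s]
          rw [← Real.rpow_add hs]
          norm_num
        rw [e4]
        congr 2
        push_cast
        ring
      rw [e3]
      ring
    rw [e2, Real.sqrt_mul (sq_nonneg _), Real.sqrt_sq (by positivity), Real.sqrt_mul hez.le]
    ring
  rw [h2]
  have h3 : √ρ = t ^ (-(η / 8)) := by
    rw [hρ, Real.sqrt_eq_rpow, ← Real.rpow_mul ht.le]
    congr 1
    ring
  rw [h3]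
  have h4 : t ^ (1 + (η / 8 - δ / 2 - 2 * δ')) =
      t ^ (-δ') * t ^ (-δ') * (t ^ (-(η / 8)) * t ^ (1 - δ / 2 + η / 4)) := by
    rw [← Real.rpow_add ht, ← Real.rpow_add ht, ← Real.rpow_add ht]
    congr 1
    ring
  rw [h4]
  have k1 : 66 * κ * (20 + (L : ℝ)) ^ 3 ≤ 66 * (κ0 * t ^ (-δ')) *
      ((22 + 3 / (δ' / C2)) ^ 3 * (Q0 ^ 5) ^ (δ' / C2) * t ^ (-δ')) := by
    have : 66 * κ ≤ 66 * (κ0 * t ^ (-δ')) := by linarith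
    exact mul_le_mul this h1 (by positivity) (by positivity)
  calc 66 * κ * (20 + (L : ℝ)) ^ 3 * t ^ (-(η / 8)) *
        (#X * (W * (√(√(A0 * B0) * M0) * (t ^ (1 - δ / 2 + η / 4) * s ^ (5 / 4 : ℝ) * √ez)))) =
      66 * κ * (20 + (L : ℝ)) ^ 3 * ((#X * W) * (t ^ (-(η / 8)) *
        (√(√(A0 * B0) * M0) * (t ^ (1 - δ / 2 + η / 4) * s ^ (5 / 4 : ℝ) * √ez)))) := by ring
    _ ≤ 66 * (κ0 * t ^ (-δ')) *
        ((22 + 3 / (δ' / C2)) ^ 3 * (Q0 ^ 5) ^ (δ' / C2) * t ^ (-δ')) *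
        ((c0 * 8 ^ K) * (t ^ (-(η / 8)) *
        (√(√(A0 * B0) * M0) * (t ^ (1 - δ / 2 + η / 4) * s ^ (5 / 4 : ℝ) * √ez)))) := by
        refine mul_le_mul k1 (mul_le_mul_of_nonneg_right hX (by positivity)) (by positivity)
          (by positivity)
    _ = _ := by ring

end

end Vale.Agent.P141.H186.XSum
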