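import Vale.Agent.P141.H186.PriceS
import Vale.Agent.P141.H186.ClosX

/-!
# P141, line A: exponents of the right side of `H408.StageC`

`y = t / r`, `u = t y^(-k3)`, `τ = u s^(1/4)` (`H401.Num.th`), `m = y^η`, `θ = √ez y^(η/4)`,
`q` a loss `t^(-b (c + d))`, `M` the number of points times `4 ^ K`.
-/

namespace Vale.Agent.P141.H186.PriceC

open Vale.Agent.P141.H186.PriceS

noncomputable section

theorem sqrt_le_of {X Z : ℝ} (hZ : 0 ≤ Z) (h : X ≤ Z ^ 2) : √X ≤ Z := by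
  rw [Real.sqrt_le_left hZ]
  exact h

/-- powers of `y` under a square root -/
theorem y_sq {y a b : ℝ} (hy : 0 < y) (h : a + a = b) : (y ^ a) ^ 2 = y ^ b := by
  rw [sq, ← Real.rpow_add hy, h]

/-- **The right side of `H408.StageC` in numbers.** -/
theorem stageC_num {η δ : ℝ} (hδ : 0 ≤ δ) {A0 B0 C0 κ0 L' τ0 : ℝ} (hA0 : 0 ≤ A0)
    (hB0 : 0 ≤ B0) (hC0 : 0 ≤ C0) (hκ0 : 0 ≤ κ0) (hL' : 0 ≤ L') (hτ0 : 0 ≤ τ0) (hη : 0 ≤ η)
    {y s M u q ez τ θ P₀ PA PB κ' : ℝ} {L₀ : ℕ} (hy : 0 < y) (hy1 : y ≤ 1) (hs : 0 < s)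
    (hM : 0 ≤ M) (hu : 0 ≤ u) (hq : 0 ≤ q) (hez : 0 < ez) (h0τ : 0 ≤ τ)
    (hτ : τ ≤ τ0 * (u * s ^ (1 / 4 : ℝ))) (hθ : θ = √ez * y ^ (η / 4))
    (l0 : (L₀ : ℝ) ≤ L' * y ^ (-δ)) (nA : 0 ≤ PA) (nB : 0 ≤ PB)
    (b0 : P₀ ≤ M * (A0 * s * y ^ (-δ) * q))
    (bA : PA ≤ M * (B0 * (ez * s) * y ^ (η / 2 - δ) * q))
    (bB : PB ≤ M * (C0 * (ez * s) * y ^ (η / 4 - δ) * q))
    (bκ : κ' ≤ M * (κ0 * (√ez * (u * s ^ (5 / 4 : ℝ))) * y ^ (η / 8 - δ) * q)) :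
    (√(P₀ * PA) + √(P₀ * PB) + √(PA * PB) / θ) * τ + κ' * L₀ ≤
      M * ((τ0 * (√(A0 * B0) + √(A0 * C0) + √(B0 * C0)) + κ0 * L') *
        (√ez * (u * s ^ (5 / 4 : ℝ))) * y ^ (η / 8 - 2 * δ) * q) := by
  have hse : 0 < √ez := Real.sqrt_pos.2 hez
  have hee : √ez * √ez = ez := Real.mul_self_sqrt hez.le
  have hAB : √(A0 * B0) * √(A0 * B0) = A0 * B0 := Real.mul_self_sqrt (by positivity)
  have hAC : √(A0 * C0) * √(A0 * C0) = A0 * C0 := Real.mul_self_sqrt (by positivity)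
  have hBC : √(B0 * C0) * √(B0 * C0) = B0 * C0 := Real.mul_self_sqrt (by positivity)
  set Y : ℝ := y ^ (η / 8 - δ) with hY
  have hY0 : 0 ≤ Y := by positivity
  have mono : ∀ {a b : ℝ}, b ≤ a → y ^ a ≤ y ^ b := fun h =>
    Real.rpow_le_rpow_of_exponent_ge hy hy1 h
  -- the three products
  have e1 : √(P₀ * PA) ≤ M * (√(A0 * B0) * (√ez * s) * Y * q) := by
    refine sqrt_le_of (by positivity) ?_
    have h1 : P₀ * PA ≤ M * (A0 * s * y ^ (-δ) * q) * (M * (B0 * (ez * s) * y ^ (η / 2 - δ) * q)) :=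
      mul_le_mul b0 bA nA (by positivity)
    have h2 : y ^ (-δ) * y ^ (η / 2 - δ) ≤ Y * Y := by
      rw [hY, ← Real.rpow_add hy, ← Real.rpow_add hy]
      exact mono (by linarith)
    refine h1.trans ?_
    calc M * (A0 * s * y ^ (-δ) * q) * (M * (B0 * (ez * s) * y ^ (η / 2 - δ) * q)) =
        (M * M * (A0 * B0) * ez * (s * s) * (q * q)) * (y ^ (-δ) * y ^ (η / 2 - δ)) := by ring
      _ ≤ (M * M * (A0 * B0) * ez * (s * s) * (q * q)) * (Y * Y) := by gcongr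
      _ = (M * M * (√(A0 * B0) * √(A0 * B0)) * (√ez * √ez) * (s * s) * (q * q)) * (Y * Y) := by
          rw [hAB, hee]
      _ = _ := by ring
  have e2 : √(P₀ * PB) ≤ M * (√(A0 * C0) * (√ez * s) * Y * q) := by
    refine sqrt_le_of (by positivity) ?_
    have h1 : P₀ * PB ≤ M * (A0 * s * y ^ (-δ) * q) * (M * (C0 * (ez * s) * y ^ (η / 4 - δ) * q)) :=
      mul_le_mul b0 bB nB (by positivity)
    have h2 : y ^ (-δ) * y ^ (η / 4 - δ) ≤ Y * Y := by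
      rw [hY, ← Real.rpow_add hy, ← Real.rpow_add hy]
      exact mono (by linarith)
    refine h1.trans ?_
    calc M * (A0 * s * y ^ (-δ) * q) * (M * (C0 * (ez * s) * y ^ (η / 4 - δ) * q)) =
        (M * M * (A0 * C0) * ez * (s * s) * (q * q)) * (y ^ (-δ) * y ^ (η / 4 - δ)) := by ring
      _ ≤ (M * M * (A0 * C0) * ez * (s * s) * (q * q)) * (Y * Y) := by gcongr
      _ = (M * M * (√(A0 * C0) * √(A0 * C0)) * (√ez * √ez) * (s * s) * (q * q)) * (Y * Y) := by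
          rw [hAC, hee]
      _ = _ := by ring
  have hθ0 : 0 < θ := by rw [hθ]; positivity
  have e3 : √(PA * PB) / θ ≤ M * (√(B0 * C0) * (√ez * s) * Y * q) := by
    rw [div_le_iff₀ hθ0]
    refine sqrt_le_of (by positivity) ?_
    have h1 : PA * PB ≤ M * (B0 * (ez * s) * y ^ (η / 2 - δ) * q) *
        (M * (C0 * (ez * s) * y ^ (η / 4 - δ) * q)) := mul_le_mul bA bB nB (by positivity)
    have h2 : y ^ (η / 2 - δ) * y ^ (η / 4 - δ) ≤ Y * Y * (y ^ (η / 4) * y ^ (η / 4)) := by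
      rw [hY, ← Real.rpow_add hy, ← Real.rpow_add hy, ← Real.rpow_add hy, ← Real.rpow_add hy]
      exact mono (by linarith)
    refine h1.trans ?_
    calc M * (B0 * (ez * s) * y ^ (η / 2 - δ) * q) * (M * (C0 * (ez * s) * y ^ (η / 4 - δ) * q)) =
        (M * M * (B0 * C0) * (ez * ez) * (s * s) * (q * q)) *
          (y ^ (η / 2 - δ) * y ^ (η / 4 - δ)) := by ring
      _ ≤ (M * M * (B0 * C0) * (ez * ez) * (s * s) * (q * q)) *
          (Y * Y * (y ^ (η / 4) * y ^ (η / 4))) := by gcongr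
      _ = (M * M * (√(B0 * C0) * √(B0 * C0)) * ((√ez * √ez) * (√ez * √ez)) * (s * s) * (q * q)) *
          (Y * Y * (y ^ (η / 4) * y ^ (η / 4))) := by rw [hBC, hee]
      _ = _ := by rw [hθ]; ring
  have hyy : y ^ (η / 8 - 2 * δ) = Y * y ^ (-δ) := by
    rw [hY, ← Real.rpow_add hy]
    congr 1
    ring
  have hYm : Y ≤ y ^ (η / 8 - 2 * δ) := mono (by linarith)
  have h54 : s * s ^ (1 / 4 : ℝ) = s ^ (5 / 4 : ℝ) := by
    nth_rewrite 1 [← Real.rpow_one s]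
    rw [← Real.rpow_add hs]
    norm_num
  have g1 : (√(P₀ * PA) + √(P₀ * PB) + √(PA * PB) / θ) * τ ≤
      M * (τ0 * (√(A0 * B0) + √(A0 * C0) + √(B0 * C0)) * (√ez * (u * s ^ (5 / 4 : ℝ))) *
        y ^ (η / 8 - 2 * δ) * q) := by
    have h1 : (√(P₀ * PA) + √(P₀ * PB) + √(PA * PB) / θ) * τ ≤
        (M * (√(A0 * B0) * (√ez * s) * Y * q) + M * (√(A0 * C0) * (√ez * s) * Y * q) +
          M * (√(B0 * C0) * (√ez * s) * Y * q)) * (τ0 * (u * s ^ (1 / 4 : ℝ))) := by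
      refine mul_le_mul (add_le_add (add_le_add e1 e2) e3) hτ h0τ (by positivity)
    refine h1.trans ?_
    calc (M * (√(A0 * B0) * (√ez * s) * Y * q) + M * (√(A0 * C0) * (√ez * s) * Y * q) +
          M * (√(B0 * C0) * (√ez * s) * Y * q)) * (τ0 * (u * s ^ (1 / 4 : ℝ))) =
        M * (τ0 * (√(A0 * B0) + √(A0 * C0) + √(B0 * C0)) *
          (√ez * (u * (s * s ^ (1 / 4 : ℝ)))) * Y * q) := by ring
      _ ≤ M * (τ0 * (√(A0 * B0) + √(A0 * C0) + √(B0 * C0)) *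
          (√ez * (u * (s * s ^ (1 / 4 : ℝ)))) * y ^ (η / 8 - 2 * δ) * q) := by gcongr
      _ = _ := by rw [h54]
  have nL0 : (0 : ℝ) ≤ (L₀ : ℝ) := Nat.cast_nonneg _
  have g2 : κ' * L₀ ≤ M * (κ0 * L' * (√ez * (u * s ^ (5 / 4 : ℝ))) * y ^ (η / 8 - 2 * δ) * q) := by
    have h1 : κ' * L₀ ≤ M * (κ0 * (√ez * (u * s ^ (5 / 4 : ℝ))) * Y * q) * (L' * y ^ (-δ)) :=
      mul_le_mul bκ l0 nL0 (by positivity)
    refine h1.trans (le_of_eq ?_)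
    rw [hyy]
    ring
  refine (add_le_add g1 g2).trans (le_of_eq (by ring))

/-- `th = (t (t / r)^(-k3)) s^(1/4)` -/
theorem th_eq {t r s k : ℝ} (ht : 0 < t) (hr : 0 < r) :
    t ^ (1 - k) * s ^ (1 / 4 : ℝ) * r ^ k = (t * (t / r) ^ (-k)) * s ^ (1 / 4 : ℝ) := by
  rw [Real.div_rpow ht.le hr.le, Real.rpow_neg hr.le, Real.rpow_neg ht.le, Real.rpow_sub ht,
    Real.rpow_one]
  have h1 : (t ^ k)⁻¹ / (r ^ k)⁻¹ = (t ^ k)⁻¹ * r ^ k := by rw [div_inv_eq_mul]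
  rw [h1]
  ring

/-- **Final form of a price with loss**: letters of `ClosX.PartXg`. -/
theorem fin_gain {t r s ez M c c0 k3 p q T u : ℝ} {K : ℕ} (ht : 0 < t) (hr : 1 ≤ r) (hs : 0 < s)
    (hc : 0 ≤ c) (hq : 0 ≤ q) (hMK : M ≤ c0 * 8 ^ K) (hu : u = t * (t / r) ^ (-k3))
    (hT : T ≤ M * (c * (√ez * (u * s ^ (5 / 4 : ℝ))) * (t / r) ^ p * q)) :
    T ≤ (c0 * c) * (t * (t / r) ^ (p - k3) * q * s ^ (5 / 4 : ℝ) * √ez * 8 ^ K) := by
  have hr0 : 0 < r := by linarith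
  have hy : 0 < t / r := by positivity
  have h1 : (t / r) ^ (p - k3) = (t / r) ^ (-k3) * (t / r) ^ p := by
    rw [← Real.rpow_add hy]
    congr 1
    ring
  have hn : 0 ≤ c * (√ez * (u * s ^ (5 / 4 : ℝ))) * (t / r) ^ p * q := by
    rw [hu]
    positivity
  calc T ≤ M * (c * (√ez * (u * s ^ (5 / 4 : ℝ))) * (t / r) ^ p * q) := hT
    _ ≤ (c0 * 8 ^ K) * (c * (√ez * (u * s ^ (5 / 4 : ℝ))) * (t / r) ^ p * q) :=
        mul_le_mul_of_nonneg_right hMK hn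
    _ = _ := by rw [h1, hu]; ring

/-- **The number of levels**: every `x ≥ 1` is at most `2 ^ (L - 1)` with `L ≤ C x^δ`. -/
theorem exists_level {δ : ℝ} (hδ : 0 < δ) : ∀ x : ℝ, 1 ≤ x → ∃ L : ℕ, x ≤ 2 ^ (L - 1) ∧
    (L : ℝ) ≤ (2 + 2 / δ) * x ^ δ := by
  intro x hx
  have hx0 : 0 < x := by linarith
  have hl : 0 ≤ Real.log x := Real.log_nonneg hx
  have h2l : 1 / 2 ≤ Real.log 2 := by
    have := Real.log_two_gt_d9
    linarith
  refine ⟨⌈2 * Real.log x⌉₊ + 1, ?_, ?_⟩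
  · rw [Nat.add_sub_cancel]
    have h1 : 2 * Real.log x ≤ (⌈2 * Real.log x⌉₊ : ℝ) := Nat.le_ceil _
    rw [← Real.log_le_log_iff hx0 (by positivity), Real.log_pow]
    have h2 : (0 : ℝ) ≤ (⌈2 * Real.log x⌉₊ : ℝ) := Nat.cast_nonneg _
    nlinarith
  · have h1 : ((⌈2 * Real.log x⌉₊ + 1 : ℕ) : ℝ) ≤ 2 * Real.log x + 2 := by
      push_cast
      linarith [(Nat.ceil_lt_add_one (by positivity : 0 ≤ 2 * Real.log x)).le]
    have hx3 : 1 ≤ x ^ δ := Real.one_le_rpow hx hδ.le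
    have h2 : Real.log x ≤ x ^ δ / δ := Real.log_le_rpow_div hx0.le hδ
    have h4 : 2 * (x ^ δ / δ) = 2 / δ * x ^ δ := by field_simp
    nlinarith

/-- **Levels down to the bottom**: `cC ≤ c1 y^(-C) g`, `L ≤ C' y^(-δ)`. -/
theorem exists_L {C c1 δ : ℝ} (hC : 0 ≤ C) (hc1 : 1 ≤ c1) (hδ : 0 < δ) :
    ∃ L' : ℝ, 0 ≤ L' ∧ ∀ y : ℝ, 0 < y → y ≤ 1 → ∀ cC g : ℝ, 0 < g → cC ≤ c1 * y ^ (-C) * g →
      ∃ L : ℕ, cC / 2 ^ (L - 1) ≤ g ∧ (L : ℝ) ≤ L' * y ^ (-δ) := by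
  have hd : 0 < δ / (C + 1) := by positivity
  refine ⟨(2 + 2 / (δ / (C + 1))) * c1 ^ (δ / (C + 1)), by positivity, ?_⟩
  intro y hy hy1 cC g hg hcC
  have h1 : 1 ≤ y ^ (-C) := Real.one_le_rpow_of_pos_of_le_one_of_nonpos hy hy1 (by linarith)
  have hx : 1 ≤ c1 * y ^ (-C) := by nlinarith
  obtain ⟨L, hL, hL2⟩ := exists_level hd (c1 * y ^ (-C)) hx
  refine ⟨L, ?_, hL2.trans ?_⟩
  · rw [div_le_iff₀ (by positivity)]
    calc cC ≤ c1 * y ^ (-C) * g := hcC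
      _ ≤ 2 ^ (L - 1) * g := mul_le_mul_of_nonneg_right hL hg.le
      _ = _ := by ring
  · rw [Real.mul_rpow (by positivity) (by positivity), ← Real.rpow_mul hy.le, mul_assoc]
    have h3 : y ^ (-C * (δ / (C + 1))) ≤ y ^ (-δ) := by
      refine Real.rpow_le_rpow_of_exponent_ge hy hy1 ?_
      have e1 : (C + 1) * (δ / (C + 1)) = δ := by field_simp
      nlinarith
    gcongr

end

end Vale.Agent.P141.H186.PriceC
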