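import Vale.Agent.P141.H186.PriceY

/-!
# P141, line A: sum over the outer variable and exponents for the saturated stage lemma

`hT` has the right side of `H609.stageN` / `H228.stageL` at one point `i` of the outer variable:
`81 (√(P0 PA) + √(P0 PB) + √(PA PB) / θ) τ + 6 κ L0`.
-/

namespace Vale.Agent.P141.H186.XSum

open Finset

noncomputable section

theorem sum_sqrt2 {ι : Type*} (X : Finset ι) {a b : ι → ℝ} (ha : ∀ i, 0 ≤ a i)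
    (hb : ∀ i, 0 ≤ b i) : ∑ i ∈ X, √(a i * b i) ≤ √((∑ i ∈ X, a i) * ∑ i ∈ X, b i) := by
  rw [Real.sqrt_mul (sum_nonneg fun i _ => ha i)]
  simp only [fun i => Real.sqrt_mul (ha i) (b i)]
  exact Real.sum_sqrt_mul_sqrt_le X ha hb

/-- **The sum over the outer variable**, saturated stage lemma. -/
theorem x0_sumL {ι : Type*} (X : Finset ι) {T P0 PA PB κ : ι → ℝ} {τ θ L0 : ℝ} (hτ : 0 ≤ τ)
    (hθ : 0 ≤ θ) (p0 : ∀ i, 0 ≤ P0 i) (pA : ∀ i, 0 ≤ PA i) (pB : ∀ i, 0 ≤ PB i)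
    (hT : ∀ i ∈ X, T i ≤ 81 * (√(P0 i * PA i) + √(P0 i * PB i) + √(PA i * PB i) / θ) * τ +
      6 * κ i * L0) :
    ∑ i ∈ X, T i ≤ 81 * (√((∑ i ∈ X, P0 i) * ∑ i ∈ X, PA i) +
      √((∑ i ∈ X, P0 i) * ∑ i ∈ X, PB i) + √((∑ i ∈ X, PA i) * ∑ i ∈ X, PB i) / θ) * τ +
      6 * (∑ i ∈ X, κ i) * L0 := by
  refine (sum_le_sum hT).trans ?_
  rw [sum_add_distrib, ← sum_mul, ← mul_sum, ← sum_mul, ← mul_sum, sum_add_distrib,
    sum_add_distrib, ← sum_div]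
  have h1 := sum_sqrt2 X p0 pA
  have h2 := sum_sqrt2 X p0 pB
  have h3 := div_le_div_of_nonneg_right (sum_sqrt2 X pA pB) hθ
  have h4 : 81 * (∑ i ∈ X, √(P0 i * PA i) + ∑ i ∈ X, √(P0 i * PB i) +
      (∑ i ∈ X, √(PA i * PB i)) / θ) * τ ≤ 81 * (√((∑ i ∈ X, P0 i) * ∑ i ∈ X, PA i) +
      √((∑ i ∈ X, P0 i) * ∑ i ∈ X, PB i) + √((∑ i ∈ X, PA i) * ∑ i ∈ X, PB i) / θ) * τ :=
    mul_le_mul_of_nonneg_right (by linarith) hτ
  linarith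

/-- **The exponents**, saturated stage lemma.  `y = t / r`, `m_l = ez s y^η`, levels of the stack
`θ = √ez y^(η/4)` times those of the companions, `M` the number of points times `4 ^ N`. -/
theorem priceL {η δ : ℝ} (hδ : 0 ≤ δ) {A0 B0 C0 τ0 κ0 L1 c0 : ℝ} (hA0 : 0 ≤ A0) (hB0 : 0 ≤ B0)
    (hC0 : 0 ≤ C0) (hτ0 : 0 ≤ τ0) (hκ0 : 0 ≤ κ0) (hL1 : 0 ≤ L1)
    (hη : 0 ≤ η) {t y s ez c3 M τ L0 : ℝ} (ht : 0 < t) (hy : 0 < y) (hy1 : y ≤ 1)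
    (hs : 0 < s) (hez : 0 < ez) (hM : 0 ≤ M) {ι : Type*} (X : Finset ι) {K : ℕ}
    (hMK : M ≤ c0 * 8 ^ K) {T P0 PA PB κ : ι → ℝ} (hτ : 0 ≤ τ)
    (hτ' : τ ≤ τ0 * (t ^ (1 - c3) * s ^ (1 / 4 : ℝ))) (hL0 : 0 ≤ L0) (hL0' : L0 ≤ L1 * y ^ (-δ))
    (p0 : ∀ i, 0 ≤ P0 i) (pA : ∀ i, 0 ≤ PA i) (pB : ∀ i, 0 ≤ PB i) (pκ : ∀ i, 0 ≤ κ i)
    (s0 : ∑ i ∈ X, P0 i ≤ M * (A0 * s * y ^ (-δ)))
    (sA : ∑ i ∈ X, PA i ≤ M * (B0 * (s * ez) * y ^ (η / 2 - δ)))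
    (sB : ∑ i ∈ X, PB i ≤ M * (C0 * (s * ez) * y ^ (η / 4 - δ)))
    (sκ : ∑ i ∈ X, κ i ≤ M * (κ0 * (t ^ (1 - c3) * s ^ (5 / 4 : ℝ) * √ez) * y ^ (η / 8 - δ)))
    (hT : ∀ i ∈ X, T i ≤ 81 * (√(P0 i * PA i) + √(P0 i * PB i) +
      √(PA i * PB i) / (√ez * y ^ (η / 4))) * τ + 6 * κ i * L0) :
    ∑ i ∈ X, T i ≤ (81 * (√(A0 * B0) + √(A0 * C0) + √(B0 * C0)) * τ0 + 6 * κ0 * L1) * c0 *
      (t ^ (1 - c3) * y ^ (η / 8 - 2 * δ) * s ^ (5 / 4 : ℝ) * √ez * 8 ^ K) := by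
  have hx := x0_sumL X (T := T) (P0 := P0) (PA := PA) (PB := PB) (κ := κ) (τ := τ)
    (θ := √ez * y ^ (η / 4)) (L0 := L0) hτ (by positivity) p0 pA pB hT
  have n0 : 0 ≤ ∑ i ∈ X, P0 i := sum_nonneg fun i _ => p0 i
  have nA : 0 ≤ ∑ i ∈ X, PA i := sum_nonneg fun i _ => pA i
  have nB : 0 ≤ ∑ i ∈ X, PB i := sum_nonneg fun i _ => pB i
  have nκ : 0 ≤ ∑ i ∈ X, κ i := sum_nonneg fun i _ => pκ i
  have sq : ∀ {a b u v : ℝ}, 0 ≤ a → 0 ≤ b → 0 ≤ u → 0 ≤ v →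
      √(M * (a * u) * (M * (b * v))) = M * (√(a * b) * √(u * v)) := fun ha hb hu hv => by
    rw [show ∀ a b u v : ℝ, M * (a * u) * (M * (b * v)) = M ^ 2 * (a * b * (u * v)) by
      intros; ring, Real.sqrt_mul (sq_nonneg M), Real.sqrt_sq hM,
      Real.sqrt_mul (mul_nonneg ha hb)]
  have pw : ∀ p : ℝ, √(y ^ p) = y ^ (p / 2) := fun p => by
    rw [Real.sqrt_eq_rpow, ← Real.rpow_mul hy.le]; ring_nf
  have mono : ∀ {p q : ℝ}, q ≤ p → y ^ p ≤ y ^ q := fun h =>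
    Real.rpow_le_rpow_of_exponent_ge hy hy1 h
  -- the three square roots
  have e1 : √((∑ i ∈ X, P0 i) * ∑ i ∈ X, PA i) ≤
      M * (√(A0 * B0) * (s * √ez * y ^ (η / 8 - δ))) := by
    have h1 := mul_le_mul s0 sA nA (mul_nonneg hM (by positivity))
    refine (Real.sqrt_le_sqrt h1).trans ?_
    rw [show M * (A0 * s * y ^ (-δ)) = M * (A0 * (s * y ^ (-δ))) by ring,
      show M * (B0 * (s * ez) * y ^ (η / 2 - δ)) = M * (B0 * ((s * ez) * y ^ (η / 2 - δ))) by ring,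
      sq hA0 hB0 (by positivity) (by positivity)]
    refine mul_le_mul_of_nonneg_left (mul_le_mul_of_nonneg_left ?_ (Real.sqrt_nonneg _)) hM
    rw [show s * y ^ (-δ) * (s * ez * y ^ (η / 2 - δ)) = s ^ 2 * (ez * (y ^ (-δ) *
      y ^ (η / 2 - δ))) by ring, ← Real.rpow_add hy, Real.sqrt_mul (sq_nonneg s),
      Real.sqrt_sq hs.le, Real.sqrt_mul hez.le, pw, mul_assoc]
    refine mul_le_mul_of_nonneg_left (mul_le_mul_of_nonneg_left (mono (by linarith))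
      (Real.sqrt_nonneg _)) hs.le
  have e2 : √((∑ i ∈ X, P0 i) * ∑ i ∈ X, PB i) ≤
      M * (√(A0 * C0) * (s * √ez * y ^ (η / 8 - δ))) := by
    have h1 := mul_le_mul s0 sB nB (mul_nonneg hM (by positivity))
    refine (Real.sqrt_le_sqrt h1).trans ?_
    rw [show M * (A0 * s * y ^ (-δ)) = M * (A0 * (s * y ^ (-δ))) by ring,
      show M * (C0 * (s * ez) * y ^ (η / 4 - δ)) = M * (C0 * ((s * ez) * y ^ (η / 4 - δ))) by ring,
      sq hA0 hC0 (by positivity) (by positivity)]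
    refine mul_le_mul_of_nonneg_left (mul_le_mul_of_nonneg_left ?_ (Real.sqrt_nonneg _)) hM
    rw [show s * y ^ (-δ) * (s * ez * y ^ (η / 4 - δ)) = s ^ 2 * (ez * (y ^ (-δ) *
      y ^ (η / 4 - δ))) by ring, ← Real.rpow_add hy, Real.sqrt_mul (sq_nonneg s),
      Real.sqrt_sq hs.le, Real.sqrt_mul hez.le, pw, mul_assoc]
    refine mul_le_mul_of_nonneg_left (mul_le_mul_of_nonneg_left (mono (by linarith))
      (Real.sqrt_nonneg _)) hs.le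
  have e3 : √((∑ i ∈ X, PA i) * ∑ i ∈ X, PB i) / (√ez * y ^ (η / 4)) ≤
      M * (√(B0 * C0) * (s * √ez * y ^ (η / 8 - δ))) := by
    have h1 := mul_le_mul sA sB nB (mul_nonneg hM (by positivity))
    have h2 : √((∑ i ∈ X, PA i) * ∑ i ∈ X, PB i) ≤
        M * (√(B0 * C0) * (s * ez * y ^ (3 * η / 8 - δ))) := by
      refine (Real.sqrt_le_sqrt h1).trans (le_of_eq ?_)
      rw [show M * (B0 * (s * ez) * y ^ (η / 2 - δ)) =
          M * (B0 * ((s * ez) * y ^ (η / 2 - δ))) by ring,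
        show M * (C0 * (s * ez) * y ^ (η / 4 - δ)) =
          M * (C0 * ((s * ez) * y ^ (η / 4 - δ))) by ring,
        sq hB0 hC0 (by positivity) (by positivity),
        show s * ez * y ^ (η / 2 - δ) * (s * ez * y ^ (η / 4 - δ)) = (s * ez) ^ 2 *
          (y ^ (η / 2 - δ) * y ^ (η / 4 - δ)) by ring, ← Real.rpow_add hy,
        Real.sqrt_mul (sq_nonneg _), Real.sqrt_sq (by positivity), pw]
      congr 4
      ring
    rw [div_le_iff₀ (by positivity)]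
    refine h2.trans (le_of_eq ?_)
    have h3 : y ^ (3 * η / 8 - δ) = y ^ (η / 8 - δ) * y ^ (η / 4) := by
      rw [← Real.rpow_add hy]; congr 1; ring
    rw [h3]
    nth_rewrite 1 [← Real.mul_self_sqrt hez.le]
    ring
  have s54 : s * s ^ (1 / 4 : ℝ) = s ^ (5 / 4 : ℝ) := by
    nth_rewrite 1 [← Real.rpow_one s]
    rw [← Real.rpow_add hs]
    norm_num
  set E : ℝ := t ^ (1 - c3) * y ^ (η / 8 - 2 * δ) * s ^ (5 / 4 : ℝ) * √ez with hE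
  have hE0 : 0 ≤ E := by positivity
  have f1 : 81 * (√((∑ i ∈ X, P0 i) * ∑ i ∈ X, PA i) +
      √((∑ i ∈ X, P0 i) * ∑ i ∈ X, PB i) +
      √((∑ i ∈ X, PA i) * ∑ i ∈ X, PB i) / (√ez * y ^ (η / 4))) * τ ≤
      81 * (√(A0 * B0) + √(A0 * C0) + √(B0 * C0)) * τ0 * (M * E) := by
    have g1 : √((∑ i ∈ X, P0 i) * ∑ i ∈ X, PA i) +
        √((∑ i ∈ X, P0 i) * ∑ i ∈ X, PB i) +
        √((∑ i ∈ X, PA i) * ∑ i ∈ X, PB i) / (√ez * y ^ (η / 4)) ≤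
        (√(A0 * B0) + √(A0 * C0) + √(B0 * C0)) * (M * (s * √ez * y ^ (η / 8 - δ))) := by
      refine (add_le_add (add_le_add e1 e2) e3).trans (le_of_eq (by ring))
    have g2 : y ^ (η / 8 - δ) ≤ y ^ (η / 8 - 2 * δ) := mono (by linarith)
    calc _ ≤ 81 * ((√(A0 * B0) + √(A0 * C0) + √(B0 * C0)) *
          (M * (s * √ez * y ^ (η / 8 - δ)))) * (τ0 * (t ^ (1 - c3) * s ^ (1 / 4 : ℝ))) := by
          refine mul_le_mul (mul_le_mul_of_nonneg_left g1 (by norm_num)) hτ' hτ (by positivity)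
      _ ≤ 81 * ((√(A0 * B0) + √(A0 * C0) + √(B0 * C0)) *
          (M * (s * √ez * y ^ (η / 8 - 2 * δ)))) * (τ0 * (t ^ (1 - c3) * s ^ (1 / 4 : ℝ))) := by
          gcongr
      _ = _ := by rw [hE, ← s54]; ring
  have f2 : 6 * (∑ i ∈ X, κ i) * L0 ≤ 6 * κ0 * L1 * (M * E) := by
    calc 6 * (∑ i ∈ X, κ i) * L0 ≤ 6 * (M * (κ0 * (t ^ (1 - c3) * s ^ (5 / 4 : ℝ) * √ez) *
          y ^ (η / 8 - δ))) * (L1 * y ^ (-δ)) :=
          mul_le_mul (mul_le_mul_of_nonneg_left sκ (by norm_num)) hL0' hL0 (by positivity)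
      _ = _ := by
          rw [hE, show η / 8 - 2 * δ = (η / 8 - δ) + -δ by ring, Real.rpow_add hy]
          ring
  have hME : M * E ≤ c0 * 8 ^ K * E := mul_le_mul_of_nonneg_right hMK hE0
  refine hx.trans ((add_le_add f1 f2).trans ?_)
  calc 81 * (√(A0 * B0) + √(A0 * C0) + √(B0 * C0)) * τ0 * (M * E) + 6 * κ0 * L1 * (M * E) =
      (81 * (√(A0 * B0) + √(A0 * C0) + √(B0 * C0)) * τ0 + 6 * κ0 * L1) * (M * E) := by ring
    _ ≤ (81 * (√(A0 * B0) + √(A0 * C0) + √(B0 * C0)) * τ0 + 6 * κ0 * L1) * (c0 * 8 ^ K * E) :=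
      mul_le_mul_of_nonneg_left hME (by positivity)
    _ = _ := by rw [hE]; ring

end

end Vale.Agent.P141.H186.XSum
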