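import Vale.Agent.P141.H305.TopM

/-!
# P141, line A: exponents of the stage sum of a family (`H581.stageY`, `H750.stageU`)

`y = t / r`, `u = t y^(-c3)` the unit of the caps of the companions (times `s^(1/4)`), third
function normalised to line energies one, `M` the number of points times `4 ^ N`, `m_l = s y^η`,
`eps² = y^(η/2)`.
-/

namespace Vale.Agent.P141.H186.PriceS

noncomputable section

/-- product of two bounds under a root -/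
theorem sqrt_prod {M a b p q P Q s1 s2 v y α β γ : ℝ} (hM : 0 ≤ M) (ha : 0 ≤ a) (hb : 0 ≤ b)
    (hy : 0 < y) (hy1 : y ≤ 1) (hs1 : 0 ≤ s1) (hs2 : 0 ≤ s2) (hv : 0 ≤ v)
    (hvs : s1 * s2 = v ^ 2) (hQ : 0 ≤ Q) (h1 : P ≤ M * (a * s1 * y ^ α))
    (h2 : Q ≤ M * (b * s2 * y ^ β)) (hγ : γ ≤ (α + β) / 2) (hp : p = √(a * b)) (hq : q = v) :
    √(P * Q) ≤ M * (p * q * y ^ γ) := by
  subst hp hq
  have h3 : P * Q ≤ (M * q) ^ 2 * (a * b * y ^ (α + β)) := by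
    refine (mul_le_mul h1 h2 hQ (by positivity)).trans (le_of_eq ?_)
    rw [Real.rpow_add hy, mul_pow, ← hvs]
    ring
  refine (Real.sqrt_le_sqrt h3).trans ?_
  rw [Real.sqrt_mul (sq_nonneg _), Real.sqrt_sq (by positivity), Real.sqrt_mul (by positivity)]
  have h4 : √(y ^ (α + β)) = y ^ ((α + β) / 2) := by
    rw [Real.sqrt_eq_rpow, ← Real.rpow_mul hy.le]
    ring_nf
  rw [h4]
  have h5 : y ^ ((α + β) / 2) ≤ y ^ γ := Real.rpow_le_rpow_of_exponent_ge hy hy1 hγ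
  calc M * q * (√(a * b) * y ^ ((α + β) / 2)) ≤ M * q * (√(a * b) * y ^ γ) := by gcongr
    _ = _ := by ring

/-- **The right side of `H581.stageY` in numbers.** -/
theorem stageY_num {η δ : ℝ} (hδ : 0 ≤ δ) (hη : 0 ≤ η) {A0 A1 B0 C0 κ0 L' Z0 : ℝ} (hA0 : 0 ≤ A0)
    (hA1 : 0 ≤ A1) (hB0 : 0 ≤ B0) (hC0 : 0 ≤ C0) (hκ0 : 0 ≤ κ0) (hL' : 0 ≤ L') (hZ0 : 0 ≤ Z0)
    {y s M u κ' P₀ P₁ QA QB Z e₂ : ℝ} {D L₀ L₁ : ℕ} (hy : 0 < y) (hy1 : y ≤ 1) (hs : 0 < s)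
    (hM : 0 ≤ M) (hu : 0 ≤ u) (l0 : (L₀ : ℝ) ≤ L' * y ^ (-δ)) (lD : (D : ℝ) ≤ L' * y ^ (-δ))
    (l1 : (L₁ : ℝ) ≤ L' * y ^ (-δ)) (nA : 0 ≤ QA) (nB : 0 ≤ QB)
    (bκ : κ' ≤ M * (κ0 * (u * s ^ (5 / 4 : ℝ)) * y ^ (η / 8 - δ)))
    (b0 : P₀ ≤ M * (A0 * s * y ^ (-δ))) (b1 : P₁ ≤ M * (A1 * s * y ^ (-δ)))
    (bA : QA ≤ M * (B0 * (u ^ 2 * s ^ (3 / 2 : ℝ)) * y ^ (η / 2 - δ)))
    (bB : QB ≤ M * (C0 * (u ^ 2 * s ^ (3 / 2 : ℝ)) * y ^ (η / 4 - δ)))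
    (bZ : (P₀ + Z) * e₂ ≤ M * (Z0 * (u * s ^ (5 / 4 : ℝ)) * y ^ (η / 8))) :
    6 * κ' * L₀ + 6 * D * (√(P₀ * QA) + √(P₀ * QB)) + 6 * L₁ * √(P₁ * QB) +
      54 * (P₀ + Z) * e₂ ≤
      M * ((6 * κ0 * L' + 6 * L' * (√(A0 * B0) + √(A0 * C0)) + 6 * L' * √(A1 * C0) + 54 * Z0) *
        (u * s ^ (5 / 4 : ℝ)) * y ^ (η / 8 - 2 * δ)) := by
  have hv : s * (u ^ 2 * s ^ (3 / 2 : ℝ)) = (u * s ^ (5 / 4 : ℝ)) ^ 2 := by
    have : s * s ^ (3 / 2 : ℝ) = (s ^ (5 / 4 : ℝ)) ^ 2 := by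
      rw [← Real.rpow_natCast (s ^ (5 / 4 : ℝ)) 2, ← Real.rpow_mul hs.le]
      nth_rewrite 1 [← Real.rpow_one s]
      rw [← Real.rpow_add hs]
      norm_num
    rw [mul_pow, ← this]
    ring
  set V : ℝ := u * s ^ (5 / 4 : ℝ) with hV
  have hV0 : 0 ≤ V := by positivity
  have hS0 : 0 ≤ u ^ 2 * s ^ (3 / 2 : ℝ) := by positivity
  have e1 := sqrt_prod (γ := η / 8 - δ) hM hA0 hB0 hy hy1 hs.le hS0 hV0 hv nA b0 bA
    (by linarith) rfl rfl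
  have e2 := sqrt_prod (γ := η / 8 - δ) hM hA0 hC0 hy hy1 hs.le hS0 hV0 hv nB b0 bB
    (by linarith) rfl rfl
  have e3 := sqrt_prod (γ := η / 8 - δ) hM hA1 hC0 hy hy1 hs.le hS0 hV0 hv nB b1 bB
    (by linarith) rfl rfl
  have hyy : y ^ (η / 8 - 2 * δ) = y ^ (η / 8 - δ) * y ^ (-δ) := by
    rw [← Real.rpow_add hy]; congr 1; ring
  have hm : y ^ (η / 8) ≤ y ^ (η / 8 - 2 * δ) :=
    Real.rpow_le_rpow_of_exponent_ge hy hy1 (by linarith)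
  have nL0 : (0 : ℝ) ≤ (L₀ : ℝ) := Nat.cast_nonneg _
  have nD : (0 : ℝ) ≤ (D : ℝ) := Nat.cast_nonneg _
  have nL1 : (0 : ℝ) ≤ (L₁ : ℝ) := Nat.cast_nonneg _
  have g1 : 6 * κ' * L₀ ≤ M * (6 * κ0 * L' * V * y ^ (η / 8 - 2 * δ)) := by
    have h1 : κ' * L₀ ≤ M * (κ0 * V * y ^ (η / 8 - δ)) * (L' * y ^ (-δ)) :=
      mul_le_mul bκ l0 nL0 (by positivity)
    rw [hyy]
    calc 6 * κ' * L₀ = 6 * (κ' * L₀) := by ring
      _ ≤ 6 * (M * (κ0 * V * y ^ (η / 8 - δ)) * (L' * y ^ (-δ))) := by linarith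
      _ = _ := by ring
  have g2 : 6 * D * (√(P₀ * QA) + √(P₀ * QB)) ≤
      M * (6 * L' * (√(A0 * B0) + √(A0 * C0)) * V * y ^ (η / 8 - 2 * δ)) := by
    have h1 : (D : ℝ) * (√(P₀ * QA) + √(P₀ * QB)) ≤ (L' * y ^ (-δ)) *
        (M * (√(A0 * B0) * V * y ^ (η / 8 - δ)) + M * (√(A0 * C0) * V * y ^ (η / 8 - δ))) :=
      mul_le_mul lD (add_le_add e1 e2) (by positivity) (by positivity)
    rw [hyy]
    calc 6 * D * (√(P₀ * QA) + √(P₀ * QB)) = 6 * (D * (√(P₀ * QA) + √(P₀ * QB))) := by ring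
      _ ≤ 6 * ((L' * y ^ (-δ)) * (M * (√(A0 * B0) * V * y ^ (η / 8 - δ)) +
          M * (√(A0 * C0) * V * y ^ (η / 8 - δ)))) := by linarith
      _ = _ := by ring
  have g3 : 6 * L₁ * √(P₁ * QB) ≤ M * (6 * L' * √(A1 * C0) * V * y ^ (η / 8 - 2 * δ)) := by
    have h1 : (L₁ : ℝ) * √(P₁ * QB) ≤ (L' * y ^ (-δ)) *
        (M * (√(A1 * C0) * V * y ^ (η / 8 - δ))) :=
      mul_le_mul l1 e3 (Real.sqrt_nonneg _) (by positivity)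
    rw [hyy]
    calc 6 * L₁ * √(P₁ * QB) = 6 * (L₁ * √(P₁ * QB)) := by ring
      _ ≤ 6 * ((L' * y ^ (-δ)) * (M * (√(A1 * C0) * V * y ^ (η / 8 - δ)))) := by linarith
      _ = _ := by ring
  have g4 : 54 * (P₀ + Z) * e₂ ≤ M * (54 * Z0 * V * y ^ (η / 8 - 2 * δ)) := by
    calc 54 * (P₀ + Z) * e₂ = 54 * ((P₀ + Z) * e₂) := by ring
      _ ≤ 54 * (M * (Z0 * V * y ^ (η / 8))) := by linarith
      _ ≤ 54 * (M * (Z0 * V * y ^ (η / 8 - 2 * δ))) := by gcongr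
      _ = _ := by ring
  refine (add_le_add (add_le_add (add_le_add g1 g2) g3) g4).trans (le_of_eq (by ring))

/-- **The cost of centre `C` above `g`**: raw pair sums
`pA x = Λ (τ² E + τ x √(DA E))`, `pB x = Λ (τ² E + τ x √(DB E) / ε)`, `g = τ √(E / D)`-type: at a
level `x` with `τ E ≤ x √(DA E)` and `τ E ≤ x √(DB E) / ε` the root of the product is at most
`2 Λ τ x √(√(DA DB) E) / √ε`. -/
theorem hT_num {Λ τ E DA DB ε x pA pB : ℝ} (hΛ : 0 ≤ Λ) (hτ : 0 ≤ τ) (hE : 0 ≤ E)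
    (hDA : 0 ≤ DA) (hDB : 0 ≤ DB) (hε : 0 < ε) (hx : 0 ≤ x)
    (h1 : τ * E ≤ x * √(DA * E)) (h2 : τ * E ≤ x * (√(DB * E) / ε)) (nA : 0 ≤ pA)
    (hA : pA ≤ Λ * (τ ^ 2 * E + τ * x * √(DA * E)))
    (hB : pB ≤ Λ * (τ ^ 2 * E + τ * x * (√(DB * E) / ε))) :
    √(pB * pA) ≤ 2 * Λ * τ * √(√(DA * DB) * E / ε) * x := by
  have a1 : pA ≤ 2 * Λ * (τ * x * √(DA * E)) := by
    have : τ ^ 2 * E ≤ τ * x * √(DA * E) := by
      calc τ ^ 2 * E = τ * (τ * E) := by ring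
        _ ≤ τ * (x * √(DA * E)) := mul_le_mul_of_nonneg_left h1 hτ
        _ = _ := by ring
    refine hA.trans ?_
    nlinarith [mul_le_mul_of_nonneg_left this hΛ]
  have a2 : pB ≤ 2 * Λ * (τ * x * (√(DB * E) / ε)) := by
    have : τ ^ 2 * E ≤ τ * x * (√(DB * E) / ε) := by
      calc τ ^ 2 * E = τ * (τ * E) := by ring
        _ ≤ τ * (x * (√(DB * E) / ε)) := mul_le_mul_of_nonneg_left h2 hτ
        _ = _ := by ring
    refine hB.trans ?_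
    nlinarith [mul_le_mul_of_nonneg_left this hΛ]
  have h3 : pB * pA ≤ (2 * Λ * τ * x) ^ 2 * (√(DA * DB) * E / ε) := by
    refine (mul_le_mul a2 a1 nA (by positivity)).trans (le_of_eq ?_)
    have e1 : √(DB * E) * √(DA * E) = √(DA * DB) * E := by
      rw [← Real.sqrt_mul (by positivity), show DB * E * (DA * E) = DA * DB * E ^ 2 by ring,
        Real.sqrt_mul (by positivity), Real.sqrt_sq hE]
    calc 2 * Λ * (τ * x * (√(DB * E) / ε)) * (2 * Λ * (τ * x * √(DA * E))) =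
        (2 * Λ * τ * x) ^ 2 * (√(DB * E) * √(DA * E) / ε) := by ring
      _ = _ := by rw [e1]
  refine (Real.sqrt_le_sqrt h3).trans (le_of_eq ?_)
  rw [Real.sqrt_mul (sq_nonneg _), Real.sqrt_sq (by positivity)]
  ring

/-- **The final form of a price**, `y = t / r`, `u = t y^(-c3)`, gain `g = p - c3`. -/
theorem fin_price {t r s ez M c c0 c3 p u T : ℝ} {K : ℕ} (ht : 0 < t) (hr : 1 ≤ r) (hs : 0 < s)
    (hc : 0 ≤ c) (hMK : M ≤ c0 * 8 ^ K) (hu : u = t * (t / r) ^ (-c3))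
    (hT : T ≤ √ez * (M * (c * (u * s ^ (5 / 4 : ℝ)) * (t / r) ^ p))) :
    T ≤ (c0 * c) * (t ^ (1 + (p - c3)) * s ^ (5 / 4 : ℝ) * √ez * 8 ^ K) * r ^ (-(p - c3)) := by
  have hr0 : 0 < r := by linarith
  have hy : 0 < t / r := by positivity
  have h1 : u * s ^ (5 / 4 : ℝ) * (t / r) ^ p =
      t ^ (1 + (p - c3)) * r ^ (-(p - c3)) * s ^ (5 / 4 : ℝ) := by
    rw [hu, show t * (t / r) ^ (-c3) * s ^ (5 / 4 : ℝ) * (t / r) ^ p =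
      t * ((t / r) ^ (-c3) * (t / r) ^ p) * s ^ (5 / 4 : ℝ) by ring, ← Real.rpow_add hy,
      show -c3 + p = p - c3 by ring, Real.div_rpow ht.le hr0.le, Real.rpow_add ht,
      Real.rpow_one, Real.rpow_neg hr0.le]
    field_simp
  refine hT.trans ?_
  have hu0 : 0 ≤ u := by rw [hu]; positivity
  calc √ez * (M * (c * (u * s ^ (5 / 4 : ℝ)) * (t / r) ^ p)) ≤
      √ez * (c0 * 8 ^ K * (c * (u * s ^ (5 / 4 : ℝ)) * (t / r) ^ p)) := by gcongr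
    _ = √ez * (c0 * 8 ^ K) * c * (u * s ^ (5 / 4 : ℝ) * (t / r) ^ p) := by ring
    _ = _ := by rw [h1]; ring

/-- `t ^ (-c) ≤ (t / r) ^ (-c)`. -/
theorem rpow_neg_le_y {t r c : ℝ} (ht : 0 < t) (hr : 1 ≤ r) (hc : 0 ≤ c) :
    t ^ (-c) ≤ (t / r) ^ (-c) := by
  have hr0 : 0 < r := by linarith
  exact Real.rpow_le_rpow_of_nonpos (by positivity) (div_le_self ht.le hr) (by linarith)

end

end Vale.Agent.P141.H186.PriceS
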