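import Vale.Agent.P141.H972.NumQ
import Vale.Agent.P141.H186.FinP
import Vale.Agent.P141.H636.FibF

/-!
# P141, line A, flow part: the price of the node forms from one slot at `ez = 1`

* `Cd`, `FM1_Cd` : the third family divided by `√w`; `HomB D`, `homB_FD`, `homB_Fb`;
* `OneQ D` : the node forms of one slot from the three pair statements (letters of `H972.NumQ`);
* `priceB_of_oneQ` : `OneQ D` and the three pair statements give `PriceB D FM1`.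
-/

namespace Vale.Agent.P141.H186.QuaP

open Finset Matrix
open Vale.Agent.P141.PL (Pt iv cx cb)
open Vale.Agent.P141.PL.H315 (Tri)
open Vale.Agent.P141.H958 (lbs)
open Vale.Agent.P141.H795 (E8)
open Vale.Agent.P141.H677 (rt nf3 kF)
open Vale.Agent.P141.H677.Sk
open Vale.Agent.P141.H747 (shC sft)
open Vale.Agent.P141.H48 (US ES BSl)
open Vale.Agent.P141.H305 (ClsM kapM)
open Vale.Agent.P141.H401 (Bun)
open Vale.Agent.P141.H163 (dv BSl_dv ES_dv)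
open Vale.Agent.P141.H972 (StP PCA PBC PZB NumQ MonoP monoP_PCA monoP_PBC monoP_PZB H_le N_le m_le)
open Vale.Agent.P141.H186.FinM

noncomputable section

open scoped Classical

set_option linter.unusedSectionVars false

set_option linter.unusedVariables false

theorem exists_lab (κ : Type) [Fintype κ] :
    ∃ (L : ℕ) (e : κ → ℤ), Function.Injective e ∧ ∀ i, e i ∈ lbs L := by
  refine ⟨Fintype.card κ, fun i => ((Fintype.equivFin κ i : ℕ) : ℤ), ?_, ?_⟩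
  · intro i j h
    have h1 : ((Fintype.equivFin κ i : ℕ)) = (Fintype.equivFin κ j : ℕ) := by
      beta_reduce at h
      exact_mod_cast h
    exact (Fintype.equivFin κ).injective (Fin.ext h1)
  · intro i
    unfold lbs
    rw [mem_Ico]
    refine ⟨by positivity, ?_⟩
    have h1 : (Fintype.equivFin κ i : ℕ) < 2 ^ Fintype.card κ :=
      (Fintype.equivFin κ i).isLt.trans (Nat.lt_two_pow_self)
    beta_reduce
    exact_mod_cast h1

section hom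

variable {ι : Type} [Fintype ι] [DecidableEq ι]

/-- the third family divided by `√w` -/
def Cd (w : ℝ) (C : FamV ι) : FamV ι := fun x0 k z x => (√w)⁻¹ • C x0 k z x

theorem FF_smul (K : ℕ) (M : Pt) (Q : Slt ι) (A : FamA) (b C : FamV ι) (s : Pt) (j : ℤ) (e : Pt)
    {a : ℝ} (ha : 0 ≤ a) :
    FF K M Q A b (fun x0 k z x => a • C x0 k z x) s j e = a * FF K M Q A b C s j e := by
  unfold FF
  rw [mul_sum]
  refine sum_congr rfl fun t _ => ?_
  rw [mul_sum]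
  refine sum_congr rfl fun x0 _ => ?_
  rw [mul_sum]
  refine sum_congr rfl fun k _ => ?_
  rw [mul_sum]
  refine sum_congr rfl fun m _ => ?_
  rw [← abs_of_nonneg ha, ← abs_mul, abs_of_nonneg ha]
  congr 1
  unfold nf3
  rw [← mul_assoc, mul_comm a, mul_assoc]
  congr 1
  rw [mul_sum]
  refine sum_congr rfl fun z _ => ?_
  rw [mul_sum]
  refine sum_congr rfl fun x _ => ?_
  rw [mul_sum]
  refine sum_congr rfl fun y _ => ?_
  unfold shC sft
  split_ifs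
  · beta_reduce
    rw [mulVec_smul, dotProduct_smul, smul_eq_mul]
    ring
  · simp

theorem FM1_Cd (K : ℕ) (M : Pt) (R : Slt ι) (A : FamA) (b C : FamV ι) (s : Pt) (j : ℤ) (e : Pt)
    {w : ℝ} (hw : 0 < w) :
    FM1 K M R A b C s j e = √w * FM1 K M R A b (Cd w C) s j e := by
  have h0 : √w ≠ 0 := (Real.sqrt_pos.2 hw).ne'
  unfold FM1
  rw [← FF_smul _ _ _ _ _ _ _ _ _ (Real.sqrt_nonneg w)]
  congr 1
  funext x0 k z x
  unfold Cd
  rw [smul_smul, mul_inv_cancel₀ h0, one_smul]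

end hom

/-- the bundle is homogeneous in the second input -/
def HomB (D : Bun) : Prop :=
  ∀ (ι : Type) [Fintype ι] [DecidableEq ι] (q : H401.Num) (n : ℕ) (ez : ℝ)
    (F1 F2 F3 : ℕ → Pt → ℝ) (o : ℤ) (K : ℕ) (x : Pt) (s r : ℝ) (U : Tri) (g : ℤ → ℤ → ℝ)
    (u v : ℤ → ℤ → ι → ℝ) (A : FamA) (b C : FamV ι) (w : ℝ), 0 < w → ez ≤ w →
    D ι q n ez F1 F2 F3 o K x s r U g u v A b C →
    D ι q n 1 F1 (dv w F2) F3 o K x s r U g u v A b (Cd w C)

theorem homB_FD : HomB FD := by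
  intro ι _ _ q n ez F1 F2 F3 o K x s r U g u v A b C w hw he hD
  obtain ⟨Q1, Q2, Q3, v', h⟩ := hD
  refine ⟨Q1, Q2, Q3, v', { h with B2 := BSl_dv h.B2 hw he, C_eq := ?_ }⟩
  intro x0 k z x'
  unfold Cd
  rw [h.C_eq, smul_smul]
  congr 1
  unfold kF dv
  split_ifs
  · simp
  · rfl

theorem homB_Fb {D : Bun} (H : HomB D) : HomB (H636.Fb D) := by
  intro ι _ _ q n ez F1 F2 F3 o K x s r U g u v A b C w hw he hD
  exact ⟨hD.1, hD.2.1, H ι q n ez F1 F2 F3 o K x s r U g u v A b C w hw he hD.2.2⟩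

theorem homB_FDU : HomB H636.FDU := homB_Fb homB_FD

/-- the three pair statements -/
def P3 : StP := fun ι _ _ K M R A b C L e h j q t τ m C0 H N =>
  (PCA ι K M R A b C L e h j q t τ m C0 H N ∧ PBC ι K M R A b C L e h j q t τ m C0 H N) ∧
    PZB ι K M R A b C L e h j q t τ m C0 H N

theorem monoP_and {Φ Ψ : StP} (m1 : MonoP Φ) (m2 : MonoP Ψ) :
    MonoP fun ι _ _ K M R A b C L e h j q t τ m C0 H N =>
      Φ ι K M R A b C L e h j q t τ m C0 H N ∧ Ψ ι K M R A b C L e h j q t τ m C0 H N := by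
  intro ι _ _ K M R A b C L e h j q t τ m C0 H N C0' H' N' hm hm1 hC hCC hH hHH hN hNN hh
  exact ⟨m1 ι K M R A b C L e h j q t τ m C0 H N C0' H' N' hm hm1 hC hCC hH hHH hN hNN hh.1,
    m2 ι K M R A b C L e h j q t τ m C0 H N C0' H' N' hm hm1 hC hCC hH hHH hN hNN hh.2⟩

theorem monoP_P3 : MonoP P3 := monoP_and (monoP_and monoP_PCA monoP_PBC) monoP_PZB

theorem numQ_P3 {D : Bun} (H1 : NumQ D PCA) (H2 : NumQ D PBC) (H3 : NumQ D PZB) : NumQ D P3 :=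
  (H1.and H2 monoP_PCA monoP_PBC).and H3 (monoP_and monoP_PCA monoP_PBC) monoP_PZB

/-- **The node forms of one slot from the three pair statements**, `ez = 1`; the numbers `C0`, `H`,
`N` at least as large as those of the slot. -/
def OneQ (D : Bun) : Prop :=
  ∃ (p0 : ℕ) (b0 : ℝ), 0 ≤ b0 ∧
  ∀ a e0 k8 k3 c d Kt e cP L CD : ℝ, 0 < a → a ≤ 1 → 0 < e0 → e0 ≤ 1 / 100 → 0 < k8 →
    k8 ≤ 1 / 100 → 0 < k3 → k3 ≤ 1 / 100 → 0 ≤ c → c ≤ 1 / 100 → 0 < d → d ≤ 1 / 100 → 0 < Kt →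
    1 ≤ e → 0 ≤ cP → 1 ≤ L → 1 ≤ CD → ∃ X1 : ℝ, 1 ≤ X1 ∧
  ∀ t : ℝ, 0 < t → t ≤ 1 → ∀ (n : ℕ) (F1 F2 F3 : ℕ → Pt → ℝ),
    US n (Kt * t ^ (1 - c)) e cP F1 → US n (Kt * t ^ (1 - c)) e cP F3 → ES n 1 cP F2 →
  ∀ o : ℤ, o = 1 ∨ o = -1 → ∀ K ≤ n, ∀ (x : Pt) (ι : Type) [Fintype ι] [DecidableEq ι]
    (s r : ℝ) (U : Tri) (g : ℤ → ℤ → ℝ) (u v : ℤ → ℤ → ι → ℝ), 0 < s → 1 ≤ r →
    ClsM K x s r (L * t ^ (2 - c) * √s) (kapM L t a s r) U g u v →
    ∀ (A : FamA) (b' C' : FamV ι),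
      D ι ⟨a, e0, k8, k3, c, d, Kt, e, cP, L, CD, t⟩ n 1 F1 F2 F3 o K x s r U g u v A b' C' →
    ∀ (R : Slt ι) (κ E : ℝ), 1 ≤ κ → 0 < E → E ≤ L + 3780000 →
      SlotN ((⟨a, e0, k8, k3, c, d, Kt, e, cP, L, CD, t⟩ : H401.Num).al U K) o K (cx K x)
        ((⟨a, e0, k8, k3, c, d, Kt, e, cP, L, CD, t⟩ : H401.Num).lam s r) u R κ E →
    ∀ h ∈ cb K 0, ∀ j ∈ Icc (0 : ℤ) 2, ∀ q ∈ E8,
    ∀ (Lb : ℕ) (eb : ι ⊕ ι → ℤ), Function.Injective eb → (∀ i, eb i ∈ lbs Lb) →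
    ∀ m C0 H N : ℝ, 0 < m → m ≤ 1 → 1 ≤ C0 → X1 * κ * (r / t) ≤ H →
      X1 * ((1 + Real.log κ + Real.log (r / t)) ^ p0 *
        (t ^ (-(b0 * (c + d))) * s * 8 ^ K)) ≤ N →
      (∀ t' ∈ rt (cx K x), P3 ι K (cx K x) R A b' C' Lb eb h j q t'
        (2 * (⟨a, e0, k8, k3, c, d, Kt, e, cP, L, CD, t⟩ : H401.Num).th s r) m C0 H N) →
      FM1 K (cx K x) R A b' C' h j q ≤
        X1 * ((1 + C0 * (1 + Real.log (H / m)) ^ 3) * (1 + Real.log (X1 * H / m ^ 2)) *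
          (N * (2 * (⟨a, e0, k8, k3, c, d, Kt, e, cP, L, CD, t⟩ : H401.Num).th s r) *
            m ^ (1 / 8 : ℝ)))

/-- `X ≤ √w G` for all `w ≥ ez` gives `X ≤ √ez G` -/
theorem le_sqrt_ez {X G ez : ℝ} (hez : 0 ≤ ez) (hG : 0 ≤ G)
    (h : ∀ w, 0 < w → ez ≤ w → X ≤ √w * G) : X ≤ √ez * G := by
  rcases hez.eq_or_lt with h0 | h0
  · rw [← h0, Real.sqrt_zero, zero_mul]
    refine le_of_forall_pos_le_add fun δ hδ => ?_
    have hw : 0 < (δ / (G + 1)) ^ 2 := by positivity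
    have h1 := h _ hw (by rw [← h0]; exact hw.le)
    rw [Real.sqrt_sq (by positivity)] at h1
    have h2 : δ / (G + 1) * G ≤ δ := by
      rw [div_mul_eq_mul_div, div_le_iff₀ (by positivity)]
      nlinarith
    linarith
  · exact h ez h0 le_rfl

theorem hn_le {X1 Y κ ρ m : ℝ} {a' : ℕ} (hX1 : 1 ≤ X1) (hY : 1 ≤ Y) (hκ : 1 ≤ κ) (hρ : 1 ≤ ρ)
    (hm : 0 < m) : X1 * (Y * κ * ρ) ^ a' / m ≤ (X1 * Y * κ * ρ) ^ (a' + 1) / m := by
  have hbase : 1 ≤ Y * κ * ρ := by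
    have : 1 ≤ Y * κ := one_le_mul_of_one_le_of_one_le hY hκ
    exact one_le_mul_of_one_le_of_one_le this hρ
  have e0 : X1 * Y * κ * ρ = X1 * (Y * κ * ρ) := by ring
  refine div_le_div_of_nonneg_right ?_ hm.le
  rw [pow_succ, mul_comm, e0]
  have hb : Y * κ * ρ ≤ X1 * (Y * κ * ρ) := by nlinarith
  have e1 : (Y * κ * ρ) ^ a' ≤ (X1 * (Y * κ * ρ)) ^ a' := pow_le_pow_left₀ (by linarith) hb _
  have e2 : X1 ≤ X1 * (Y * κ * ρ) := by nlinarith
  have h0 : 0 ≤ (X1 * (Y * κ * ρ)) ^ a' := by positivity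
  exact mul_le_mul e1 e2 (by linarith) h0

theorem hx_m {X1 H m : ℝ} (hX1 : 1 ≤ X1) (hH : 1 ≤ H) (hm : 0 < m) (hm1 : m ≤ 1) :
    1 ≤ H / m ∧ H / m ≤ X1 * H / m / m ∧ 1 ≤ X1 * H / m := by
  have h1 : 1 ≤ H / m := by
    rw [le_div_iff₀ hm]
    linarith
  have e1 : H ≤ X1 * H := by nlinarith
  have e2 : H / m ≤ X1 * H / m := div_le_div_of_nonneg_right e1 hm.le
  have e3 : 1 ≤ X1 * H / m := h1.trans e2
  have e4 : X1 * H / m ≤ X1 * H / m / m := by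
    rw [le_div_iff₀ hm]
    nlinarith
  exact ⟨h1, e2.trans e4, e3⟩

/-- the numbers of one slot -/
theorem fin_one (p' a' : ℕ) {X1 Y EM th : ℝ} (hX1 : 1 ≤ X1) (hY : 1 ≤ Y) (hEM : 1 ≤ EM)
    (hth : 0 ≤ th) :
    ∃ C : ℝ, 0 ≤ C ∧ ∀ (t r s k3 e0 b c d κ E m w T : ℝ) (K : ℕ), 0 < t → 1 ≤ r → t ≤ 1 →
      0 < s → 1 ≤ κ → 0 < E → m = (t / r) ^ (e0 / 2) * (E / EM) ^ th → 0 < m → m ≤ 1 →
      T ≤ X1 * ((1 + Y * (1 + Real.log ((Y * κ * (r / t)) ^ a' / m)) ^ 3) *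
        (1 + Real.log (X1 * (Y * κ * (r / t)) ^ a' / m ^ 2)) *
          ((Y * ((1 + Real.log κ + Real.log (r / t)) ^ p' *
            (t ^ (-(b * (c + d))) * s * 8 ^ K))) *
            (2 * (t ^ (1 - k3) * s ^ (1 / 4 : ℝ) * r ^ k3)) * m ^ (1 / 8 : ℝ))) →
      √w * T ≤ √w * (C * ((1 + Real.log κ + Real.log (r / t)) ^ (4 + p') * E ^ (th / 16) *
        (t * (r / t) ^ (k3 - e0 / 32) * t ^ (-(b * (c + d))) * s ^ (5 / 4 : ℝ) * 8 ^ K))) := by
  obtain ⟨C2, hC2, H3⟩ := fin_pow2 p' (c0 := X1 * Y) (Λ0 := Y) (N0 := X1 * Y) (τ0 := 2)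
    (EM := EM) (th := th) (a := a' + 1) (by nlinarith) (by linarith)
    (by positivity) (by norm_num) hEM hth
  refine ⟨C2, hC2, ?_⟩
  intro t r s k3 e0 b c d κ E m w T K ht hr ht1 hs hκ hE hmd hm hm1 hT
  have hr0 : 0 < r := by linarith
  have hρ : 1 ≤ r / t := by
    rw [le_div_iff₀ ht]
    linarith
  have l1 : 0 ≤ 1 + Real.log κ + Real.log (r / t) := by
    have e1 := Real.log_nonneg hκ
    have e2 := Real.log_nonneg hρ
    linarith
  have hbase : 1 ≤ Y * κ * (r / t) := by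
    have : 1 ≤ Y * κ := one_le_mul_of_one_le_of_one_le hY hκ
    exact one_le_mul_of_one_le_of_one_le this hρ
  have hXa := hn_le (a' := a') hX1 hY hκ hρ hm
  have hθ0 : 0 ≤ t ^ (1 - k3) * s ^ (1 / 4 : ℝ) * r ^ k3 := by positivity
  have hN0 : 0 ≤ Y * ((1 + Real.log κ + Real.log (r / t)) ^ p' *
      (t ^ (-(b * (c + d))) * s * 8 ^ K)) := by positivity
  have hHn1 : 1 ≤ (Y * κ * (r / t)) ^ a' := one_le_pow₀ hbase
  generalize hθ : t ^ (1 - k3) * s ^ (1 / 4 : ℝ) * r ^ k3 = θ at hT hθ0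
  generalize hNn : Y * ((1 + Real.log κ + Real.log (r / t)) ^ p' *
      (t ^ (-(b * (c + d))) * s * 8 ^ K)) = Nn at hT hN0
  generalize hHn : (Y * κ * (r / t)) ^ a' = Hn at hT hHn1 hXa
  obtain ⟨g1, g2, g3⟩ := hx_m hX1 hHn1 hm hm1
  have hlH : 0 ≤ Real.log (Hn / m) := Real.log_nonneg g1
  have hlX : Real.log (Hn / m) ≤ Real.log (X1 * Hn / m / m) :=
    Real.log_le_log (by linarith) g2
  have k0 : 0 ≤ 1 + Real.log (Hn / m) := by linarith
  have hΛ0 : 0 ≤ Y * (1 + Real.log (Hn / m)) ^ 3 := by positivity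
  have e3 : X1 * Hn / m ^ 2 = X1 * Hn / m / m := by rw [div_div, sq]
  rw [e3] at hT
  have h7 := H3 t r s k3 e0 b c d κ E m (X1 * Hn / m)
    (Y * (1 + Real.log (Hn / m)) ^ 3) (X1 * Nn) (2 * θ) w
    (√w * T) K ht hr ht1 hs hκ hE hmd hm1 g3 hXa
    (by positivity) (by positivity) hΛ0 ?_ ?_ ?_ ?_
  · refine h7.trans (le_of_eq ?_)
    ring
  · rw [← hNn]
    exact le_of_eq (by ring)
  · rw [← hθ]
  · have h8 := pow_le_pow_left₀ k0 (by linarith :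
      1 + Real.log (Hn / m) ≤ 1 + Real.log (X1 * Hn / m / m)) 3
    exact mul_le_mul_of_nonneg_left h8 (by linarith)
  · refine mul_le_mul_of_nonneg_left (hT.trans ?_) (Real.sqrt_nonneg w)
    have e4 : 0 ≤ 1 + Real.log (X1 * Hn / m / m) := by linarith
    have e5 : 0 ≤ Nn * (2 * θ) * m ^ (1 / 8 : ℝ) := by positivity
    have e6 : 0 ≤ (1 + Y * (1 + Real.log (Hn / m)) ^ 3) *
        (1 + Real.log (X1 * Hn / m / m)) * (X1 * (Nn * (2 * θ) * m ^ (1 / 8 : ℝ))) := by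
      positivity
    calc X1 * ((1 + Y * (1 + Real.log (Hn / m)) ^ 3) * (1 + Real.log (X1 * Hn / m / m)) *
        (Nn * (2 * θ) * m ^ (1 / 8 : ℝ))) =
        (1 + Y * (1 + Real.log (Hn / m)) ^ 3) *
        (1 + Real.log (X1 * Hn / m / m)) * (X1 * (Nn * (2 * θ) * m ^ (1 / 8 : ℝ))) := by
          ring
      _ ≤ 162 * ((1 + Y * (1 + Real.log (Hn / m)) ^ 3) *
        (1 + Real.log (X1 * Hn / m / m)) *
          (X1 * (Nn * (2 * θ) * m ^ (1 / 8 : ℝ)))) := by linarith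
      _ = _ := by ring

/-- **The price of the node forms.** -/
theorem priceB_of_oneQ {D : Bun} (hD : HomB D) (H1 : OneQ D) (H2 : NumQ D P3) :
    H939.PriceB D fun _ι _ _ K M R A b C h j e => FM1 K M R A b C h j e := by
  obtain ⟨p0, b0, hb0, H1⟩ := H1
  intro a ha ha1
  obtain ⟨es, hes, hes1, H⟩ := H2 a ha ha1
  refine ⟨min es (1 / 100), lt_min hes (by norm_num), (min_le_left _ _).trans hes1,
    fun e0 he0 he0' => ?_⟩
  obtain ⟨k8s, hk8s, H⟩ := H e0 he0 (he0'.trans (min_le_left _ _))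
  refine ⟨min k8s (1 / 100), lt_min hk8s (by norm_num), fun k8 hk8 hk8' => ?_⟩
  obtain ⟨k3s, hk3s, H⟩ := H k8 hk8 (hk8'.trans (min_le_left _ _))
  refine ⟨min k3s (min (1 / 100) (e0 / 32)), lt_min hk3s (lt_min (by norm_num) (by positivity)),
    fun k3 hk3 hk3' => ?_⟩
  obtain ⟨th, hth, H⟩ := H k3 hk3 (hk3'.trans (min_le_left _ _))
  obtain ⟨p, b, c1, d1, hb, hc1, hd1, H⟩ := H th hth le_rfl
  have hk31 : k3 ≤ 1 / 100 := hk3'.trans ((min_le_right _ _).trans (min_le_left _ _))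
  have hk32 : k3 ≤ e0 / 32 := hk3'.trans ((min_le_right _ _).trans (min_le_right _ _))
  refine ⟨4 + max p p0, th / 16, k3 - e0 / 32, max b b0, min c1 (1 / 100), min d1 (1 / 100),
    by positivity, ?_, hb.trans (le_max_left _ _), lt_min hc1 (by norm_num),
    lt_min hd1 (by norm_num), fun c hc hcc d hd hdd Kt e cP L hK he hcP hL CD hCD => ?_⟩
  · have : 0 < e0 * (th / 16) := by positivity
    linarith
  obtain ⟨a', C0, hC0, H⟩ := H c hc (hcc.trans (min_le_left _ _)) d hd (hdd.trans (min_le_left _ _))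
    Kt e cP L hK he hcP hL CD hCD
  obtain ⟨X1, hX1, H1⟩ := H1 a e0 k8 k3 c d Kt e cP L CD ha ha1 he0 (he0'.trans (min_le_right _ _))
    hk8 (hk8'.trans (min_le_right _ _)) hk3 hk31 hc (hcc.trans (min_le_right _ _)) hd
    (hdd.trans (min_le_right _ _)) hK he hcP hL hCD
  have hCX : C0 ≤ max C0 X1 := le_max_left _ _
  have hXX : X1 ≤ max C0 X1 := le_max_right _ _
  generalize hY : max C0 X1 = Y at hCX hXX
  have hY1 : 1 ≤ Y := hC0.trans hCX
  have hEM : 1 ≤ L + 3780000 := by linarith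
  obtain ⟨C2, hC2, H3⟩ := fin_one (max p p0) (max a' 1) hX1 hY1 hEM hth.le
  refine ⟨C2, hC2, ?_⟩
  intro t ht ht1 n ez F1 F2 F3 h1 h3 h2 o ho K hKn x ι _ _ s r U g u v hs hr hcls A b' C' hDD
    R κ E hκ hE hEL hsl h hh j hj q hq
  have hr0 : 0 < r := by linarith
  have hρ : 1 ≤ r / t := by
    rw [le_div_iff₀ ht]
    linarith
  have hcd : 0 ≤ c + d := by linarith
  have hm := m_le ht ht1 hr he0 hE hEL hth
  obtain ⟨Lb, eb, heb, hlb⟩ := exists_lab (ι ⊕ ι)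
  have l0 : 0 ≤ 1 + Real.log κ + Real.log (r / t) := by
    have e1 := Real.log_nonneg hκ
    have e2 := Real.log_nonneg hρ
    linarith
  have hHb := H_le (κ := κ) (ρ := r / t) (a := a') (a' := max a' 1) hC0 hCX hκ hρ (le_max_left _ _)
  have hNb := N_le (κ := κ) (ρ := r / t) (t := t) (b := b) (b' := max b b0) (c := c + d) (s := s)
    (p := p) (p' := max p p0) (K := K) hC0 hCX hκ hρ ht ht1 hs hcd (le_max_left _ _)
    (le_max_left _ _)
  have hNb0 := N_le (C0 := X1) (κ := κ) (ρ := r / t) (t := t) (b := b0) (b' := max b b0)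
    (c := c + d) (s := s)
    (p := p0) (p' := max p p0) (K := K) hX1 hXX hκ hρ ht ht1 hs hcd (le_max_right _ _)
    (le_max_right _ _)
  have hbase : 1 ≤ Y * κ * (r / t) := by
    have : 1 ≤ Y * κ := one_le_mul_of_one_le_of_one_le hY1 hκ
    exact one_le_mul_of_one_le_of_one_le this hρ
  have hXH : X1 * κ * (r / t) ≤ (Y * κ * (r / t)) ^ max a' 1 := by
    have e1 : X1 * κ * (r / t) ≤ Y * κ * (r / t) := by gcongr
    exact e1.trans (le_self_pow₀ hbase (by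
      have := le_max_right a' 1
      omega))
  have ez0 : 0 ≤ ez := h2.1
  have hG : 0 ≤ C2 * ((1 + Real.log κ + Real.log (r / t)) ^ (4 + max p p0) * E ^ (th / 16) *
      (t * (r / t) ^ (k3 - e0 / 32) * t ^ (-(max b b0 * (c + d))) * s ^ (5 / 4 : ℝ) *
        8 ^ K)) := by positivity
  refine (le_sqrt_ez ez0 hG fun w hw hzw => ?_).trans (le_of_eq (by ring))
  have hDw := hD ι _ n ez F1 F2 F3 o K x s r U g u v A b' C' w hw hzw hDD
  beta_reduce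
  rw [FM1_Cd K (cx K x) R A b' C' h j q hw]
  refine H3 t r s k3 e0 (max b b0) c d κ E _ w _ K ht hr ht1 hs hκ hE rfl hm.1 hm.2 ?_
  refine H1 t ht ht1 n F1 (dv w F2) F3 h1 h3 (ES_dv h2 hw hzw) o ho K hKn x ι s r U g u v hs
    hr hcls A b' (Cd w C') hDw R κ E hκ hE hEL hsl h hh j hj q hq Lb eb heb hlb _ Y _ _ hm.1
    hm.2 hY1 hXH hNb0.2 ?_
  intro t' ht'
  exact monoP_P3 ι K (cx K x) R A b' (Cd w C') Lb eb h j q t' _ _ C0
    ((C0 * κ * (r / t)) ^ a') _ Y _ _ hm.1 hm.2 hC0 hCX hHb.1 hHb.2 hNb.1 hNb.2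
    (H t ht ht1 n F1 (dv w F2) F3 h1 h3 (ES_dv h2 hw hzw) o ho K hKn x ι s r U g u v hs
      hr hcls A b' (Cd w C') hDw R κ E hκ hE hEL hsl h hh j hj q hq t' ht' Lb eb heb hlb)

/-- **The price of the node forms from the three pair statements.** -/
theorem priceB_of_num {D : Bun} (hD : HomB D) (H1 : OneQ D) (H2 : NumQ D PCA) (H3 : NumQ D PBC)
    (H4 : NumQ D PZB) :
    H939.PriceB D fun _ι _ _ K M R A b C h j e => FM1 K M R A b C h j e :=
  priceB_of_oneQ hD H1 (numQ_P3 H2 H3 H4)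

end

end Vale.Agent.P141.H186.QuaP
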