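import Vale.Agent.P141.H186.FD2
import Vale.Agent.P141.PL.H103.Shift

/-!
# The plane shift of the fixed-grid functional, weights `(2/3)^r`
-/

namespace Vale.Agent.P141.H186

open Finset Matrix Vale.Agent.P075 Vale.Agent.P141.PL Vale.Agent.P141.PL.H588
open Vale.Agent.P141.PL.H103

/-- the energy which pays for a shift -/
noncomputable def SE2 (N : ℕ) (R S : ℤ) (k : ℕ) (F : ℤ → ℤ → ℝ) : ℝ :=
  ∑ r ∈ range (N - k), (2 / 3) ^ r * (en N R S (k + r) k F - en N R S (k + r + 1) k F)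
    + (2 / 3) ^ (N - k) * en N R S N k F

theorem MM2_sum_le (N k : ℕ) (R S : ℤ) (F : ℤ → ℤ → ℝ) (hk : k ≤ N) :
    4 ^ k * ∑ m ∈ iv (N - k) S, MM2 (N - k) (fR N k R F m) ≤ 4 * SE2 N R S k F := by
  have h1 : ∀ m, MM2 (N - k) (fR N k R F m) ≤
      ∑ r ∈ range (N - k), (2 / 3) ^ r *
        (4 * (2 ^ r * ∑ n ∈ iv (N - (k + r)) R, GX (Xg (k + r) k F n m)
        - 2 ^ (r + 1) * ∑ n ∈ iv (N - (k + r + 1)) R, GX (Xg (k + r + 1) k F n m)))
      + (2 / 3) ^ (N - k) * (4 * (2 ^ (N - k) * ∑ n ∈ iv 0 R, GX (Xg N k F n m))) := by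
    intro m
    unfold MM2
    refine add_le_add (Finset.sum_le_sum fun r hr => ?_) ?_
    · exact mul_le_mul_of_nonneg_left (level_le N k R F m (by
        have := Finset.mem_range.1 hr; omega)) (by positivity)
    · exact mul_le_mul_of_nonneg_left (last_le N k R F m hk) (by positivity)
  have hp : (0 : ℝ) ≤ 4 ^ k := by positivity
  have e4 : (4 : ℝ) ^ k = 2 ^ k * 2 ^ k := by rw [← mul_pow]; norm_num
  have eA : ∀ r : ℕ, 4 ^ k * ∑ m ∈ iv (N - k) S,
      (2 ^ r * ∑ n ∈ iv (N - (k + r)) R, GX (Xg (k + r) k F n m)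
        - 2 ^ (r + 1) * ∑ n ∈ iv (N - (k + r + 1)) R, GX (Xg (k + r + 1) k F n m))
      = en N R S (k + r) k F - en N R S (k + r + 1) k F := by
    intro r
    rw [en_eq, en_eq, ← Finset.sum_sub_distrib, Finset.mul_sum]
    refine Finset.sum_congr rfl fun m _ => ?_
    rw [e4, pow_succ, pow_succ, pow_add]
    ring
  have eB : 4 ^ k * ∑ m ∈ iv (N - k) S, (2 ^ (N - k) * ∑ n ∈ iv 0 R, GX (Xg N k F n m))
      = en N R S N k F := by
    rw [en_eq, Finset.mul_sum, Nat.sub_self]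
    refine Finset.sum_congr rfl fun m _ => ?_
    have : (2 : ℝ) ^ N = 2 ^ k * 2 ^ (N - k) := by rw [← pow_add]; congr 1; omega
    rw [e4, this]
    ring
  refine (mul_le_mul_of_nonneg_left
    (Finset.sum_le_sum fun m (_ : m ∈ iv (N - k) S) => h1 m) hp).trans (le_of_eq ?_)
  have c1 : 4 ^ k * ∑ m ∈ iv (N - k) S, ∑ r ∈ range (N - k), (2 / 3 : ℝ) ^ r *
        (4 * (2 ^ r * ∑ n ∈ iv (N - (k + r)) R, GX (Xg (k + r) k F n m)
        - 2 ^ (r + 1) * ∑ n ∈ iv (N - (k + r + 1)) R, GX (Xg (k + r + 1) k F n m)))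
      = 4 * ∑ r ∈ range (N - k), (2 / 3) ^ r *
        (en N R S (k + r) k F - en N R S (k + r + 1) k F) := by
    rw [Finset.sum_comm, Finset.mul_sum, Finset.mul_sum]
    refine Finset.sum_congr rfl fun r _ => ?_
    rw [← eA r, ← Finset.mul_sum, ← Finset.mul_sum]
    ring
  have c2 : 4 ^ k * ∑ m ∈ iv (N - k) S, (2 / 3 : ℝ) ^ (N - k) *
        (4 * (2 ^ (N - k) * ∑ n ∈ iv 0 R, GX (Xg N k F n m)))
      = 4 * ((2 / 3) ^ (N - k) * en N R S N k F) := by
    rw [← eB, ← Finset.mul_sum, ← Finset.mul_sum]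
    ring
  rw [Finset.sum_add_distrib, mul_add, SE2, mul_add, c1, c2]

/-- **Shift by one plane.** -/
theorem shift2 (N : ℕ) (R S T : ℤ) (k : ℕ) (hk : k ≤ N) (F H : ℤ → ℤ → ℝ) (t : ℤ → ℤ) :
    4 ^ k * ∑ m ∈ iv (N - k) S, |al N R T k F H m (t m + 1) - al N R T k F H m (t m)|
      ≤ 16 * (SE2 N R S k F + SE2 N T S k H) := by
  have h1 : ∀ m, |al N R T k F H m (t m + 1) - al N R T k F H m (t m)|
      ≤ 4 * (MM2 (N - k) (fR N k R F m) + MM2 (N - k) (fR N k T H m)) := by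
    intro m
    rw [← cv_eq_al, ← cv_eq_al]
    exact first_diff_mat2 (N - k) (fun r hr n => fR_blk N k R F m hr n)
      (fun r hr n => fR_blk N k T H m hr n) (fun r _ n => fR_symm ..) (fun r _ n => fR_symm ..)
      (fun r _ => fR_fs ..) (fun r _ => fR_fs ..) (t m)
  have hp : (0 : ℝ) ≤ 4 ^ k := by positivity
  have h2 := mul_le_mul_of_nonneg_left
    (Finset.sum_le_sum fun m (_ : m ∈ iv (N - k) S) => h1 m) hp
  refine h2.trans ?_
  rw [← Finset.mul_sum, Finset.sum_add_distrib]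
  have k1 := MM2_sum_le N k R S F hk
  have k2 := MM2_sum_le N k T S H hk
  nlinarith

theorem SE2_nonneg (N : ℕ) (R S : ℤ) (k : ℕ) (hk : k ≤ N) (F : ℤ → ℤ → ℝ) : 0 ≤ SE2 N R S k F := by
  have h := MM2_sum_le N k R S F hk
  have h2 : 0 ≤ 4 ^ k * ∑ m ∈ iv (N - k) S, MM2 (N - k) (fR N k R F m) := by
    refine mul_nonneg (by positivity) (Finset.sum_nonneg fun m _ => ?_)
    unfold MM2
    refine add_nonneg (Finset.sum_nonneg fun r _ => mul_nonneg (by positivity)
      (tsum_nonneg fun n => trace_sq_nonneg ?_)) (mul_nonneg (by positivity)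
      (tsum_nonneg fun n => trace_sq_nonneg ?_))
    · rw [transpose_sub, fR_symm, fR_symm]
    · exact fR_symm ..
  linarith

/-- **Shift by a bounded number of planes.** -/
theorem shift2_nat (N : ℕ) (R S T : ℤ) (k : ℕ) (hk : k ≤ N) (F H : ℤ → ℤ → ℝ) (t : ℤ → ℤ)
    (d : ℕ) :
    4 ^ k * ∑ m ∈ iv (N - k) S, |al N R T k F H m (t m + d) - al N R T k F H m (t m)|
      ≤ 16 * d * (SE2 N R S k F + SE2 N T S k H) := by
  induction d with
  | zero => simp
  | succ d ih =>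
    have h := shift2 N R S T k hk F H (fun m => t m + d)
    have h2 : ∀ m, |al N R T k F H m (t m + ((d + 1 : ℕ) : ℤ)) - al N R T k F H m (t m)|
        ≤ |al N R T k F H m (t m + d + 1) - al N R T k F H m (t m + d)|
          + |al N R T k F H m (t m + d) - al N R T k F H m (t m)| := by
      intro m
      have e : t m + ((d + 1 : ℕ) : ℤ) = t m + d + 1 := by push_cast; ring
      rw [e]
      exact abs_sub_le _ _ _
    have hp : (0 : ℝ) ≤ 4 ^ k := by positivity
    have h3 := mul_le_mul_of_nonneg_left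
      (Finset.sum_le_sum fun m (_ : m ∈ iv (N - k) S) => h2 m) hp
    rw [Finset.sum_add_distrib, mul_add] at h3
    push_cast
    push_cast at h3
    linarith

/-- **Shift**, general form: `|t' m - t m| ≤ D`. -/
theorem shift2_abs (N : ℕ) (R S T : ℤ) (k : ℕ) (hk : k ≤ N) (F H : ℤ → ℤ → ℝ) (t t' : ℤ → ℤ)
    (D : ℕ) (hD : ∀ m, |t' m - t m| ≤ D) :
    4 ^ k * ∑ m ∈ iv (N - k) S, |al N R T k F H m (t' m) - al N R T k F H m (t m)|
      ≤ 32 * D * (SE2 N R S k F + SE2 N T S k H) := by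
  have h1 : ∀ m, |al N R T k F H m (t' m) - al N R T k F H m (t m)|
      ≤ ∑ l ∈ range (2 * D), |al N R T k F H m ((t m - D + l) + 1)
        - al N R T k F H m (t m - D + l)| := by
    intro m
    have hm := abs_le.1 (hD m)
    obtain ⟨i, hi⟩ : ∃ i : ℕ, t' m = t m - D + i := ⟨(t' m - t m + D).toNat, by omega⟩
    have h := abs_sub_le_range (fun l : ℕ => al N R T k F H m (t m - D + l)) (2 * D) i D
      (by omega) (by omega)
    have e1 : t m - D + (D : ℕ) = t m := by omega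
    have e2 : ∀ l : ℕ, t m - D + ((l + 1 : ℕ) : ℤ) = t m - D + l + 1 := fun l => by
      push_cast; ring
    simp only [e1, e2] at h
    rw [hi]
    exact h
  have hp : (0 : ℝ) ≤ 4 ^ k := by positivity
  refine (mul_le_mul_of_nonneg_left
    (Finset.sum_le_sum fun m (_ : m ∈ iv (N - k) S) => h1 m) hp).trans ?_
  rw [Finset.sum_comm, Finset.mul_sum]
  refine (Finset.sum_le_sum fun (l : ℕ) _ => shift2 N R S T k hk F H
    (fun m => t m - D + l)).trans (le_of_eq ?_)
  rw [Finset.sum_const, Finset.card_range, nsmul_eq_mul]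
  push_cast
  ring

end Vale.Agent.P141.H186
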