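import Mathlib

/-!
# P141, line (A), M0: the gap inequality for `⟪q, (λ + G)^{-1/2} q⟫` with square roots as data

`K Kp Km` positive definite, `K * K` the mean of `Kp * Kp` and `Km * Km`.  Then `(Kp + Km) / 2 ≤ K`
and `(1/2) Σ± ⟪q ± dq, K±⁻¹ (q ± dq)⟫ ≥ ⟪q, K⁻¹ q⟫ + ⟪z, K⁻¹ z⟫`, `z = dq - dK K⁻¹ q`.
-/

namespace Vale.Agent.P141.H186

open Matrix

set_option linter.unusedSectionVars false

variable {ι : Type*} [Fintype ι] [DecidableEq ι]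

theorem tr_eq {K : Matrix ι ι ℝ} (hK : K.IsHermitian) : Kᵀ = K := by
  have h := hK.eq
  rwa [conjTranspose_eq_transpose_of_trivial] at h

theorem form_comm {K : Matrix ι ι ℝ} (hK : K.IsHermitian) (x y : ι → ℝ) :
    x ⬝ᵥ K *ᵥ y = y ⬝ᵥ K *ᵥ x := by
  have h : (K *ᵥ x) ⬝ᵥ y = x ⬝ᵥ (K *ᵥ y) := by
    rw [dotProduct_mulVec, ← mulVec_transpose, tr_eq hK]
  rw [← h, dotProduct_comm]

theorem form_nonneg {K : Matrix ι ι ℝ} (hK : K.PosSemidef) (x : ι → ℝ) : 0 ≤ x ⬝ᵥ K *ᵥ x := by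
  simpa using hK.dotProduct_mulVec_nonneg x

theorem inv_mulVec {K : Matrix ι ι ℝ} (hK : K.PosDef) (x : ι → ℝ) : K *ᵥ (K⁻¹ *ᵥ x) = x := by
  have hu : IsUnit K.det := (isUnit_iff_isUnit_det K).1 hK.isUnit
  rw [mulVec_mulVec, mul_nonsing_inv K hu, one_mulVec]

theorem inv_mulVec' {K : Matrix ι ι ℝ} (hK : K.PosDef) (x : ι → ℝ) : K⁻¹ *ᵥ (K *ᵥ x) = x := by
  have hu : IsUnit K.det := (isUnit_iff_isUnit_det K).1 hK.isUnit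
  rw [mulVec_mulVec, nonsing_inv_mul K hu, one_mulVec]

/-- sup formula for the inverse -/
theorem le_inv_form {K : Matrix ι ι ℝ} (hK : K.PosDef) (a z : ι → ℝ) :
    2 * (a ⬝ᵥ z) - z ⬝ᵥ K *ᵥ z ≤ a ⬝ᵥ K⁻¹ *ᵥ a := by
  have h := form_nonneg hK.posSemidef (z - K⁻¹ *ᵥ a)
  have e1 : (z - K⁻¹ *ᵥ a) ⬝ᵥ K *ᵥ (z - K⁻¹ *ᵥ a) =
      z ⬝ᵥ K *ᵥ z - 2 * (a ⬝ᵥ z) + a ⬝ᵥ K⁻¹ *ᵥ a := by
    rw [mulVec_sub, inv_mulVec hK, dotProduct_sub, sub_dotProduct, sub_dotProduct,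
      form_comm hK.isHermitian (K⁻¹ *ᵥ a) z, inv_mulVec hK, dotProduct_comm (K⁻¹ *ᵥ a) a,
      dotProduct_comm z a]
    ring
  rw [e1] at h
  linarith

theorem inv_form_eq {K : Matrix ι ι ℝ} (hK : K.PosDef) (a : ι → ℝ) :
    2 * (a ⬝ᵥ (K⁻¹ *ᵥ a)) - (K⁻¹ *ᵥ a) ⬝ᵥ K *ᵥ (K⁻¹ *ᵥ a) = a ⬝ᵥ K⁻¹ *ᵥ a := by
  rw [inv_mulVec hK, dotProduct_comm (K⁻¹ *ᵥ a) a]
  ring

theorem form_half_add (P Q : Matrix ι ι ℝ) (x y : ι → ℝ) :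
    x ⬝ᵥ ((1 / 2 : ℝ) • (P + Q)) *ᵥ y = (1 / 2) * (x ⬝ᵥ P *ᵥ y + x ⬝ᵥ Q *ᵥ y) := by
  rw [smul_mulVec, add_mulVec, dotProduct_smul, dotProduct_add, smul_eq_mul]

theorem form_half_sub (P Q : Matrix ι ι ℝ) (x y : ι → ℝ) :
    x ⬝ᵥ ((1 / 2 : ℝ) • (P - Q)) *ᵥ y = (1 / 2) * (x ⬝ᵥ P *ᵥ y - x ⬝ᵥ Q *ᵥ y) := by
  rw [smul_mulVec, sub_mulVec, dotProduct_smul, dotProduct_sub, smul_eq_mul]

/-- **(N)**: the gap inequality. -/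
theorem gap {K Kp Km : Matrix ι ι ℝ} (hK : K.PosDef) (hp : Kp.PosDef) (hm : Km.PosDef)
    (hb : ∀ x : ι → ℝ, x ⬝ᵥ ((1 / 2 : ℝ) • (Kp + Km)) *ᵥ x ≤ x ⬝ᵥ K *ᵥ x) (q dq : ι → ℝ) :
    q ⬝ᵥ K⁻¹ *ᵥ q +
        (dq - ((1 / 2 : ℝ) • (Kp - Km)) *ᵥ (K⁻¹ *ᵥ q)) ⬝ᵥ
          K⁻¹ *ᵥ (dq - ((1 / 2 : ℝ) • (Kp - Km)) *ᵥ (K⁻¹ *ᵥ q)) ≤
      (1 / 2) * ((q + dq) ⬝ᵥ Kp⁻¹ *ᵥ (q + dq) + (q - dq) ⬝ᵥ Km⁻¹ *ᵥ (q - dq)) := by
  set y := K⁻¹ *ᵥ q with hy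
  set z := dq - ((1 / 2 : ℝ) • (Kp - Km)) *ᵥ y with hz
  set w := K⁻¹ *ᵥ z with hw
  have h1 := le_inv_form hp (q + dq) (y + w)
  have h2 := le_inv_form hm (q - dq) (y - w)
  have e1 := inv_form_eq hK q
  have e2 := inv_form_eq hK z
  rw [← hy] at e1
  rw [← hw] at e2
  have b1 := hb y
  have b2 := hb w
  rw [form_half_add] at b1 b2
  have hzw : z ⬝ᵥ w = dq ⬝ᵥ w - (1 / 2) * (w ⬝ᵥ Kp *ᵥ y - w ⬝ᵥ Km *ᵥ y) := by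
    rw [hz, sub_dotProduct, dotProduct_comm (((1 / 2 : ℝ) • (Kp - Km)) *ᵥ y) w, form_half_sub]
  have cp := form_comm hp.isHermitian y w
  have cm := form_comm hm.isHermitian y w
  simp only [add_dotProduct, sub_dotProduct, dotProduct_add, dotProduct_sub, mulVec_add,
    mulVec_sub] at h1 h2 ⊢
  linarith

/-- `Z² ≤ M²`, `M ≥ 0` imply `Z ≤ M`. -/
theorem le_of_sq_le {Z M : Matrix ι ι ℝ} (hZ : Z.IsHermitian) (hM : M.PosSemidef)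
    (h : ∀ x : ι → ℝ, (Z *ᵥ x) ⬝ᵥ (Z *ᵥ x) ≤ (M *ᵥ x) ⬝ᵥ (M *ᵥ x)) (x : ι → ℝ) :
    x ⬝ᵥ Z *ᵥ x ≤ x ⬝ᵥ M *ᵥ x := by
  have hH : (M - Z).IsHermitian := hM.isHermitian.sub hZ
  have hP : (M - Z).PosSemidef := by
    rw [hH.posSemidef_iff_eigenvalues_nonneg]
    intro j
    by_contra hneg
    have hμ : hH.eigenvalues j < 0 := lt_of_not_ge hneg
    set μ := hH.eigenvalues j with hμd
    set e : ι → ℝ := (hH.eigenvectorBasis j).ofLp with he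
    have hev : (M - Z) *ᵥ e = μ • e := hH.mulVec_eigenvectorBasis j
    have hZe : Z *ᵥ e = M *ᵥ e - μ • e := by
      rw [← hev, sub_mulVec]; abel
    have hn : 0 < e ⬝ᵥ e := by
      have h1 : e ≠ 0 := by
        intro h0
        have : hH.eigenvectorBasis j = 0 := by
          ext i
          have := congrFun h0 i
          simpa [he] using this
        exact hH.eigenvectorBasis.orthonormal.ne_zero j this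
      have h2 : 0 ≤ e ⬝ᵥ e := by
        simpa [dotProduct] using Finset.sum_nonneg fun i _ => mul_self_nonneg (e i)
      refine lt_of_le_of_ne h2 fun h3 => h1 ?_
      exact dotProduct_self_eq_zero.1 h3.symm
    have h1 := h e
    have h2 := form_nonneg hM e
    rw [hZe, sub_dotProduct, dotProduct_sub, dotProduct_sub, smul_dotProduct, dotProduct_smul,
      smul_dotProduct, dotProduct_smul, dotProduct_comm (M *ᵥ e) e] at h1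
    simp only [smul_eq_mul] at h1
    nlinarith [mul_pos (neg_pos.2 hμ) (neg_pos.2 hμ), mul_nonneg (neg_pos.2 hμ).le h2,
      mul_pos (mul_pos (neg_pos.2 hμ) (neg_pos.2 hμ)) hn]
  have := form_nonneg hP x
  rw [sub_mulVec, dotProduct_sub] at this
  linarith

theorem sq_form {K : Matrix ι ι ℝ} (hK : K.IsHermitian) (x : ι → ℝ) :
    (K *ᵥ x) ⬝ᵥ (K *ᵥ x) = x ⬝ᵥ (K * K) *ᵥ x := by
  rw [← mulVec_mulVec, form_comm hK x (K *ᵥ x)]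
  

/-- the mean of the square roots is at most the square root of the mean -/
theorem half_le {K Kp Km : Matrix ι ι ℝ} (hK : K.PosSemidef) (hp : Kp.IsHermitian)
    (hm : Km.IsHermitian) (h : K * K = (1 / 2 : ℝ) • (Kp * Kp + Km * Km)) (x : ι → ℝ) :
    x ⬝ᵥ ((1 / 2 : ℝ) • (Kp + Km)) *ᵥ x ≤ x ⬝ᵥ K *ᵥ x := by
  refine le_of_sq_le ?_ hK (fun x => ?_) x
  · exact (hp.add hm).smul (by simp [IsSelfAdjoint])
  · have e2 : (K *ᵥ x) ⬝ᵥ (K *ᵥ x) =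
        (1 / 2) * ((Kp *ᵥ x) ⬝ᵥ (Kp *ᵥ x) + (Km *ᵥ x) ⬝ᵥ (Km *ᵥ x)) := by
      rw [sq_form hK.isHermitian, h, form_half_add, ← sq_form hp, ← sq_form hm]
    have h0 : 0 ≤ (Kp *ᵥ x - Km *ᵥ x) ⬝ᵥ (Kp *ᵥ x - Km *ᵥ x) := by
      simpa [dotProduct] using Finset.sum_nonneg fun i _ => mul_self_nonneg ((Kp *ᵥ x - Km *ᵥ x) i)
    have e1 : ((1 / 2 : ℝ) • (Kp + Km)) *ᵥ x ⬝ᵥ ((1 / 2 : ℝ) • (Kp + Km)) *ᵥ x =
        (1 / 4) * ((Kp *ᵥ x) ⬝ᵥ (Kp *ᵥ x) + 2 * ((Kp *ᵥ x) ⬝ᵥ (Km *ᵥ x)) +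
          (Km *ᵥ x) ⬝ᵥ (Km *ᵥ x)) := by
      rw [smul_mulVec, add_mulVec]
      simp only [smul_dotProduct, dotProduct_smul, add_dotProduct, dotProduct_add, smul_eq_mul]
      rw [dotProduct_comm (Km *ᵥ x) (Kp *ᵥ x)]
      ring
    rw [e1, e2]
    simp only [sub_dotProduct, dotProduct_sub] at h0
    rw [dotProduct_comm (Km *ᵥ x) (Kp *ᵥ x)] at h0
    linarith

theorem dot_self_nonneg (x : ι → ℝ) : 0 ≤ x ⬝ᵥ x := by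
  simpa [dotProduct] using Finset.sum_nonneg fun i _ => mul_self_nonneg (x i)

/-- Cauchy-Schwarz -/
theorem dot_sq_le (x y : ι → ℝ) : (x ⬝ᵥ y) ^ 2 ≤ (x ⬝ᵥ x) * (y ⬝ᵥ y) := by
  have := Finset.sum_mul_sq_le_sq_mul_sq Finset.univ x y
  simpa [dotProduct, pow_two] using this

/-- square roots exist (as data) -/
theorem exists_sqrt {A : Matrix ι ι ℝ} (hA : A.PosDef) :
    ∃ K : Matrix ι ι ℝ, K.PosDef ∧ K * K = A := by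
  classical
  have hH := hA.isHermitian
  set U : Matrix ι ι ℝ := (hH.eigenvectorUnitary : Matrix ι ι ℝ) with hU
  have hUU : star U * U = 1 := (Matrix.mem_unitaryGroup_iff').1 hH.eigenvectorUnitary.2
  have hsp : A = U * diagonal hH.eigenvalues * star U := by
    have h := hH.spectral_theorem
    rw [Unitary.conjStarAlgAut_apply] at h
    simpa [Function.comp_def] using h
  set d : ι → ℝ := fun i => √(hH.eigenvalues i) with hd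
  have hpos : ∀ i, 0 < hH.eigenvalues i := fun i => hA.eigenvalues_pos i
  refine ⟨U * diagonal d * star U, ?_, ?_⟩
  · have h1 : (diagonal d).PosDef := by
      rw [Matrix.posDef_diagonal_iff]
      exact fun i => Real.sqrt_pos.2 (hpos i)
    have hu : IsUnit U := by
      refine ⟨⟨U, star U, ?_, hUU⟩, rfl⟩
      exact (Matrix.mem_unitaryGroup_iff).1 hH.eigenvectorUnitary.2
    have h2 : (U * diagonal d * star U).PosSemidef := by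
      have := h1.posSemidef.mul_mul_conjTranspose_same U
      simpa [star_eq_conjTranspose] using this
    rw [h2.posDef_iff_isUnit]
    exact (hu.mul h1.isUnit).mul hu.star
  · have h3 : diagonal d * diagonal d = diagonal hH.eigenvalues := by
      rw [diagonal_mul_diagonal]
      congr 1
      funext i
      exact Real.mul_self_sqrt (hpos i).le
    calc U * diagonal d * star U * (U * diagonal d * star U)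
        = U * (diagonal d * (star U * U) * diagonal d) * star U := by simp only [mul_assoc]
      _ = A := by rw [hUU, mul_one, h3, ← hsp]

/-! ### bounds for `K * K = l • 1 + G` -/

section

variable {K G : Matrix ι ι ℝ} {l : ℝ}

theorem sq_norm (hK : K.IsHermitian) (h : K * K = l • (1 : Matrix ι ι ℝ) + G) (x : ι → ℝ) :
    (K *ᵥ x) ⬝ᵥ (K *ᵥ x) = l * (x ⬝ᵥ x) + x ⬝ᵥ G *ᵥ x := by
  rw [sq_form hK, h, add_mulVec, smul_mulVec, one_mulVec, dotProduct_add, dotProduct_smul,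
    smul_eq_mul]

/-- `√l ≤ K` -/
theorem sqrt_le_form (hK : K.PosSemidef) (hG : G.PosSemidef) (hl : 0 ≤ l)
    (h : K * K = l • (1 : Matrix ι ι ℝ) + G) (x : ι → ℝ) : √l * (x ⬝ᵥ x) ≤ x ⬝ᵥ K *ᵥ x := by
  have h1 := le_of_sq_le (Z := √l • (1 : Matrix ι ι ℝ))
    (isHermitian_one.smul (by simp [IsSelfAdjoint])) hK (fun x => ?_) x
  · rwa [smul_mulVec, one_mulVec, dotProduct_smul, smul_eq_mul] at h1
  · rw [sq_norm hK.isHermitian h, smul_mulVec, one_mulVec, smul_dotProduct, dotProduct_smul,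
      smul_eq_mul, smul_eq_mul, ← mul_assoc, Real.mul_self_sqrt hl]
    have := form_nonneg hG x
    linarith

/-- `K ≤ √l + G / (2 √l)` -/
theorem form_le (hK : K.PosSemidef) (hl : 0 < l) (h : K * K = l • (1 : Matrix ι ι ℝ) + G)
    (x : ι → ℝ) : x ⬝ᵥ K *ᵥ x ≤ √l * (x ⬝ᵥ x) + (x ⬝ᵥ G *ᵥ x) / (2 * √l) := by
  have hs : 0 < √l := Real.sqrt_pos.2 hl
  have h0 := dot_self_nonneg (K *ᵥ x - √l • x)
  simp only [sub_dotProduct, dotProduct_sub, smul_dotProduct, dotProduct_smul, smul_eq_mul] at h0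
  rw [sq_norm hK.isHermitian h, dotProduct_comm (K *ᵥ x) x] at h0
  have h2 : √l * √l = l := Real.mul_self_sqrt hl.le
  have h3 : 2 * √l * (x ⬝ᵥ K *ᵥ x) ≤ 2 * l * (x ⬝ᵥ x) + x ⬝ᵥ G *ᵥ x := by
    nlinarith [h0, h2, dot_self_nonneg x]
  have h4 : √l * (x ⬝ᵥ x) + (x ⬝ᵥ G *ᵥ x) / (2 * √l) =
      (2 * l * (x ⬝ᵥ x) + x ⬝ᵥ G *ᵥ x) / (2 * √l) := by
    clear h3 h0 h
    generalize √l = r at *
    subst h2
    field_simp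
  rw [h4, le_div_iff₀ (by positivity)]
  linarith

/-- `K⁻¹ ≤ 1 / √l` -/
theorem inv_form_le (hK : K.PosDef) (hG : G.PosSemidef) (hl : 0 < l)
    (h : K * K = l • (1 : Matrix ι ι ℝ) + G) (x : ι → ℝ) :
    x ⬝ᵥ K⁻¹ *ᵥ x ≤ (x ⬝ᵥ x) / √l := by
  have hs : 0 < √l := Real.sqrt_pos.2 hl
  set y := K⁻¹ *ᵥ x with hy
  have h1 : x ⬝ᵥ y = y ⬝ᵥ K *ᵥ y := by rw [hy, inv_mulVec hK, dotProduct_comm]
  have h2 := sqrt_le_form hK.posSemidef hG hl.le h y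
  have h3 := dot_sq_le x y
  have h4 := dot_self_nonneg x
  have h5 := dot_self_nonneg y
  rw [← h1] at h2
  rw [le_div_iff₀ hs]
  by_contra hc
  push Not at hc
  have h6 : 0 < x ⬝ᵥ y := by
    by_contra h7
    push Not at h7
    nlinarith
  nlinarith [mul_pos h6 hs]

/-- `1 - √l K⁻¹ ≤ G / (2 l)` -/
theorem one_sub_le (hK : K.PosDef) (hl : 0 < l) (h : K * K = l • (1 : Matrix ι ι ℝ) + G)
    (x : ι → ℝ) : x ⬝ᵥ x - √l * (x ⬝ᵥ K⁻¹ *ᵥ x) ≤ (x ⬝ᵥ G *ᵥ x) / (2 * l) := by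
  have hs : 0 < √l := Real.sqrt_pos.2 hl
  have h2 : √l * √l = l := Real.mul_self_sqrt hl.le
  have h1 := le_inv_form hK x ((√l)⁻¹ • x)
  have h3 := form_le hK.posSemidef hl h x
  rw [mulVec_smul, dotProduct_smul, smul_dotProduct, dotProduct_smul] at h1
  simp only [smul_eq_mul] at h1
  have h4 : √l * (2 * ((√l)⁻¹ * (x ⬝ᵥ x)) - (√l)⁻¹ * ((√l)⁻¹ * (x ⬝ᵥ K *ᵥ x))) =
      2 * (x ⬝ᵥ x) - (√l)⁻¹ * (x ⬝ᵥ K *ᵥ x) := by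
    field_simp
  have h5 : (√l)⁻¹ * (x ⬝ᵥ K *ᵥ x) ≤ x ⬝ᵥ x + (x ⬝ᵥ G *ᵥ x) / (2 * l) := by
    have h6 := mul_le_mul_of_nonneg_left h3 (inv_pos.2 hs).le
    have h7 : (√l)⁻¹ * (√l * (x ⬝ᵥ x) + (x ⬝ᵥ G *ᵥ x) / (2 * √l)) =
        x ⬝ᵥ x + (x ⬝ᵥ G *ᵥ x) / (2 * l) := by
      clear h6 h4 h3 h1 h
      generalize √l = r at *
      subst h2
      field_simp
    rwa [h7] at h6
  have h8 := mul_le_mul_of_nonneg_left h1 hs.le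
  rw [h4] at h8
  linarith

/-- compression: if `G ≤ w` on the range of the projection `Q`, then
`|Q x|² ≤ √(l + w) ⟪x, K⁻¹ x⟫`. -/
theorem compress (hK : K.PosDef) (hl : 0 < l) (h : K * K = l • (1 : Matrix ι ι ℝ) + G) {w : ℝ}
    (hw : 0 ≤ w) {x θ : ι → ℝ} (hθ : θ ⬝ᵥ x = θ ⬝ᵥ θ) (hG : θ ⬝ᵥ G *ᵥ θ ≤ w * (θ ⬝ᵥ θ)) :
    θ ⬝ᵥ θ ≤ √(l + w) * (x ⬝ᵥ K⁻¹ *ᵥ x) := by
  have hs : 0 < √(l + w) := Real.sqrt_pos.2 (by linarith)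
  have h2 : √(l + w) * √(l + w) = l + w := Real.mul_self_sqrt (by linarith)
  have h5 := dot_self_nonneg θ
  have h1 := le_inv_form hK x ((√(l + w))⁻¹ • θ)
  rw [mulVec_smul, dotProduct_smul, smul_dotProduct, dotProduct_smul, dotProduct_comm x θ, hθ] at h1
  simp only [smul_eq_mul] at h1
  have h3 : θ ⬝ᵥ K *ᵥ θ ≤ √(l + w) * (θ ⬝ᵥ θ) := by
    have h4 := dot_sq_le θ (K *ᵥ θ)
    rw [sq_norm hK.isHermitian h] at h4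
    have h6 : (θ ⬝ᵥ K *ᵥ θ) ^ 2 ≤ (√(l + w) * (θ ⬝ᵥ θ)) ^ 2 := by
      rw [mul_pow, pow_two (√(l + w)), h2]
      nlinarith
    exact (abs_le_of_sq_le_sq' h6 (by positivity)).2
  have h4 : √(l + w) * (2 * ((√(l + w))⁻¹ * (θ ⬝ᵥ θ)) -
      (√(l + w))⁻¹ * ((√(l + w))⁻¹ * (θ ⬝ᵥ K *ᵥ θ))) =
      2 * (θ ⬝ᵥ θ) - (√(l + w))⁻¹ * (θ ⬝ᵥ K *ᵥ θ) := by
    field_simp
  have h7 : (√(l + w))⁻¹ * (θ ⬝ᵥ K *ᵥ θ) ≤ θ ⬝ᵥ θ := by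
    have := mul_le_mul_of_nonneg_left h3 (inv_pos.2 hs).le
    rwa [← mul_assoc, inv_mul_cancel₀ hs.ne', one_mul] at this
  have h8 := mul_le_mul_of_nonneg_left h1 hs.le
  rw [h4] at h8
  linarith

end

/-! ### the three nodes -/

section

variable {K Kp Km G D : Matrix ι ι ℝ} {l : ℝ}

/-- data of a node: `K² = l + G`, `K±² = l + (G ± D)`. -/
structure Nd (l : ℝ) (G D K Kp Km : Matrix ι ι ℝ) : Prop where
  lpos : 0 < l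
  G0 : G.PosSemidef
  Gp : (G + D).PosSemidef
  Gm : (G - D).PosSemidef
  K0 : K.PosDef
  Kp0 : Kp.PosDef
  Km0 : Km.PosDef
  h0 : K * K = l • (1 : Matrix ι ι ℝ) + G
  hp : Kp * Kp = l • (1 : Matrix ι ι ℝ) + (G + D)
  hm : Km * Km = l • (1 : Matrix ι ι ℝ) + (G - D)

theorem Nd.mean (h : Nd l G D K Kp Km) : K * K = (1 / 2 : ℝ) • (Kp * Kp + Km * Km) := by
  rw [h.h0, h.hp, h.hm, show l • (1 : Matrix ι ι ℝ) + (G + D) + (l • (1 : Matrix ι ι ℝ) + (G - D)) =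
    (2 : ℝ) • (l • (1 : Matrix ι ι ℝ) + G) by rw [two_smul]; abel, smul_smul]
  norm_num

/-- `(K₊ + K₋) / 2 ≤ K` -/
theorem Nd.half_le (h : Nd l G D K Kp Km) (x : ι → ℝ) :
    x ⬝ᵥ ((1 / 2 : ℝ) • (Kp + Km)) *ᵥ x ≤ x ⬝ᵥ K *ᵥ x :=
  H186.half_le h.K0.posSemidef h.Kp0.isHermitian h.Km0.isHermitian h.mean x

/-- the gap inequality at a node -/
theorem Nd.gap (h : Nd l G D K Kp Km) (q dq : ι → ℝ) :
    q ⬝ᵥ K⁻¹ *ᵥ q +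
        (dq - ((1 / 2 : ℝ) • (Kp - Km)) *ᵥ (K⁻¹ *ᵥ q)) ⬝ᵥ
          K⁻¹ *ᵥ (dq - ((1 / 2 : ℝ) • (Kp - Km)) *ᵥ (K⁻¹ *ᵥ q)) ≤
      (1 / 2) * ((q + dq) ⬝ᵥ Kp⁻¹ *ᵥ (q + dq) + (q - dq) ⬝ᵥ Km⁻¹ *ᵥ (q - dq)) :=
  H186.gap h.K0 h.Kp0 h.Km0 h.half_le q dq

/-- the flow vector `ξ = √l K⁻¹ dK K⁻¹ v` -/
noncomputable def xi (l : ℝ) (K Kp Km : Matrix ι ι ℝ) (v : ι → ℝ) : ι → ℝ :=
  √l • (K⁻¹ *ᵥ (((1 / 2 : ℝ) • (Kp - Km)) *ᵥ (K⁻¹ *ᵥ v)))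

/-- **the flow is the gap of `⟪v, K⁻¹ v⟫`** -/
theorem Nd.xi_le (h : Nd l G D K Kp Km) (v : ι → ℝ) :
    xi l K Kp Km v ⬝ᵥ K *ᵥ xi l K Kp Km v ≤
      l * ((1 / 2) * (v ⬝ᵥ Kp⁻¹ *ᵥ v + v ⬝ᵥ Km⁻¹ *ᵥ v) - v ⬝ᵥ K⁻¹ *ᵥ v) := by
  have h1 := h.gap v 0
  rw [add_zero, sub_zero, zero_sub, mulVec_neg, dotProduct_neg, neg_dotProduct, neg_neg] at h1
  set z := ((1 / 2 : ℝ) • (Kp - Km)) *ᵥ (K⁻¹ *ᵥ v) with hz
  have e1 : xi l K Kp Km v ⬝ᵥ K *ᵥ xi l K Kp Km v = l * (z ⬝ᵥ K⁻¹ *ᵥ z) := by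
    unfold xi
    rw [← hz, mulVec_smul, smul_dotProduct, dotProduct_smul, inv_mulVec h.K0, smul_eq_mul,
      smul_eq_mul, ← mul_assoc, Real.mul_self_sqrt h.lpos.le, dotProduct_comm (K⁻¹ *ᵥ z) z]
  rw [e1]
  have := mul_le_mul_of_nonneg_left (le_sub_iff_add_le'.2 h1) h.lpos.le
  linarith

/-- the increment `ρ = √l (K⁻¹ - K'⁻¹) v` of `v - √l K⁻¹ v`, averaged -/
theorem Nd.rho_le (h : Nd l G D K Kp Km) (v : ι → ℝ) :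
    (1 / 2) * ((√l • (K⁻¹ *ᵥ v - Kp⁻¹ *ᵥ v)) ⬝ᵥ Kp *ᵥ (√l • (K⁻¹ *ᵥ v - Kp⁻¹ *ᵥ v)) +
        (√l • (K⁻¹ *ᵥ v - Km⁻¹ *ᵥ v)) ⬝ᵥ Km *ᵥ (√l • (K⁻¹ *ᵥ v - Km⁻¹ *ᵥ v))) ≤
      l * ((1 / 2) * (v ⬝ᵥ Kp⁻¹ *ᵥ v + v ⬝ᵥ Km⁻¹ *ᵥ v) - v ⬝ᵥ K⁻¹ *ᵥ v) := by
  have key : ∀ {P : Matrix ι ι ℝ}, P.PosDef → ∀ y : ι → ℝ,
      (√l • (y - P⁻¹ *ᵥ v)) ⬝ᵥ P *ᵥ (√l • (y - P⁻¹ *ᵥ v)) =
        l * (y ⬝ᵥ P *ᵥ y - 2 * (v ⬝ᵥ y) + v ⬝ᵥ P⁻¹ *ᵥ v) := by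
    intro P hP y
    rw [mulVec_smul, smul_dotProduct, dotProduct_smul, smul_eq_mul, smul_eq_mul, ← mul_assoc,
      Real.mul_self_sqrt h.lpos.le, mulVec_sub, inv_mulVec hP, dotProduct_sub, sub_dotProduct,
      sub_dotProduct, form_comm hP.isHermitian (P⁻¹ *ᵥ v) y, inv_mulVec hP,
      dotProduct_comm (P⁻¹ *ᵥ v) v, dotProduct_comm y v]
    ring
  rw [key h.Kp0, key h.Km0]
  have h1 := h.half_le (K⁻¹ *ᵥ v)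
  rw [form_half_add] at h1
  have h2 : (K⁻¹ *ᵥ v) ⬝ᵥ K *ᵥ (K⁻¹ *ᵥ v) = v ⬝ᵥ K⁻¹ *ᵥ v := by
    rw [inv_mulVec h.K0, dotProduct_comm]
  rw [h2] at h1
  have h3 := mul_le_mul_of_nonneg_left h1 h.lpos.le
  linarith

end

end Vale.Agent.P141.H186
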