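import Vale.Agent.P141.H958.EFin

/-!
# P141, line A: the sum over the outer variable and the exponents of the stage sum

`hT` is the conclusion of `H619.Stage.stage` at one point `i` of the outer variable.
-/

namespace Vale.Agent.P141.H186.XSum

open Finset
open Vale.Agent.P141.H958

noncomputable section

theorem sum_qrt {ι : Type*} (X : Finset ι) {a : ι → ℝ} (ha : ∀ i, 0 ≤ a i) {A : ℝ}
    (h : ∑ i ∈ X, a i ≤ (#X : ℝ) * A) : ∑ i ∈ X, √√(a i) ≤ (#X : ℝ) * √√A := by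
  have h1 := holder442 X (a := a) (b := fun _ => 1) (c := fun _ => 1) ha (fun _ => zero_le_one)
    (fun _ => zero_le_one)
  simp only [mul_one, sum_const, nsmul_eq_mul, mul_one] at h1
  refine h1.trans ?_
  have hc : (0 : ℝ) ≤ (#X : ℝ) := Nat.cast_nonneg _
  have h2 : (∑ i ∈ X, a i) * (#X : ℝ) ≤ (#X : ℝ) ^ 2 * A := by nlinarith
  have h3 : √((∑ i ∈ X, a i) * (#X : ℝ)) ≤ (#X : ℝ) * √A := by
    refine (Real.sqrt_le_sqrt h2).trans (le_of_eq ?_)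
    rw [Real.sqrt_mul (sq_nonneg _), Real.sqrt_sq hc]
  have h4 : √((∑ i ∈ X, a i) * (#X : ℝ)) * (#X : ℝ) ≤ (#X : ℝ) ^ 2 * √A := by
    nlinarith [mul_le_mul_of_nonneg_right h3 hc]
  refine (Real.sqrt_le_sqrt h4).trans (le_of_eq ?_)
  rw [Real.sqrt_mul (sq_nonneg _), Real.sqrt_sq hc]

theorem sum_srt {ι : Type*} (X : Finset ι) {a : ι → ℝ} (ha : ∀ i, 0 ≤ a i) {A : ℝ}
    (h : ∑ i ∈ X, a i ≤ (#X : ℝ) * A) : ∑ i ∈ X, √(a i) ≤ (#X : ℝ) * √A := by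
  have hc : (0 : ℝ) ≤ (#X : ℝ) := Nat.cast_nonneg _
  have h1 := Real.sum_sqrt_mul_sqrt_le X ha (fun _ => zero_le_one (α := ℝ))
  simp only [Real.sqrt_one, mul_one, sum_const, nsmul_eq_mul] at h1
  refine h1.trans ?_
  rw [← Real.sqrt_mul (sum_nonneg fun i _ => ha i)]
  have h2 : (∑ i ∈ X, a i) * (#X : ℝ) ≤ (#X : ℝ) ^ 2 * A := by nlinarith
  refine (Real.sqrt_le_sqrt h2).trans (le_of_eq ?_)
  rw [Real.sqrt_mul (sq_nonneg _), Real.sqrt_sq hc]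

theorem t_qrt {ι : Type*} (X : Finset ι) {G : ι → ℝ} (hG : ∀ i, 0 ≤ G i) {W x ρ Q Y : ℝ}
    (hW : 0 < W) (hx : 0 < x) (hρ : 0 < ρ) (hQ : 0 < Q) (hY : 0 ≤ Y)
    (h : ∑ i ∈ X, G i ≤ #X * (2 * (W * x))) :
    ∑ i ∈ X, √√(G i / (W * (ρ * Q) ^ 4)) * (ρ * Q * W * Y) ≤ 2 * (#X * (W * (√√x * Y))) := by
  have q2 : √√(2 : ℝ) ≤ 2 := by
    rw [Real.sqrt_le_left (by norm_num), Real.sqrt_le_left (by norm_num)]; norm_num
  have hrt4 : √√((ρ * Q) ^ 4) = ρ * Q := by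
    rw [show (ρ * Q) ^ 4 = ((ρ * Q) ^ 2) ^ 2 by ring, Real.sqrt_sq (by positivity),
      Real.sqrt_sq (by positivity)]
  have hΘ0 : 0 < W * (ρ * Q) ^ 4 := by positivity
  rw [← sum_mul]
  have h3 := sum_qrt X (a := fun i => G i / (W * (ρ * Q) ^ 4))
    (fun i => div_nonneg (hG i) hΘ0.le) (A := 2 * (W * x) / (W * (ρ * Q) ^ 4)) (by
      rw [← sum_div, ← mul_div_assoc]
      exact div_le_div_of_nonneg_right h hΘ0.le)
  refine (mul_le_mul_of_nonneg_right h3 (by positivity)).trans ?_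
  have h4 : √√(2 * (W * x) / (W * (ρ * Q) ^ 4)) = √√2 * √√x / (ρ * Q) := by
    rw [show 2 * (W * x) / (W * (ρ * Q) ^ 4) = 2 * x / (ρ * Q) ^ 4 by field_simp,
      Real.sqrt_div' _ (by positivity), Real.sqrt_div' _ (by positivity), hrt4,
      Real.sqrt_mul (by norm_num), Real.sqrt_mul (by positivity)]
  rw [h4]
  calc (#X : ℝ) * (√√2 * √√x / (ρ * Q)) * (ρ * Q * W * Y) =
      √√2 * (#X * (W * (√√x * Y))) := by field_simp
    _ ≤ 2 * (#X * (W * (√√x * Y))) := mul_le_mul_of_nonneg_right q2 (by positivity)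

theorem t_srt {ι : Type*} (X : Finset ι) {G : ι → ℝ} (hG : ∀ i, 0 ≤ G i) {W x ρ Q Y : ℝ}
    (hW : 0 < W) (hρQ : 1 ≤ ρ * Q) (hY : 0 ≤ Y)
    (h : ∑ i ∈ X, G i ≤ #X * (2 * (W * x))) :
    ∑ i ∈ X, √(G i / (W * (ρ * Q) ^ 4)) * (ρ * Q * W * Y) ≤ 2 * (#X * (W * (√x * Y))) := by
  have q3 : √(2 : ℝ) ≤ 2 := by
    rw [Real.sqrt_le_left (by norm_num)]; norm_num
  have h0 : 0 < ρ * Q := by linarith
  have hrt2 : √((ρ * Q) ^ 4) = (ρ * Q) ^ 2 := by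
    rw [show (ρ * Q) ^ 4 = ((ρ * Q) ^ 2) ^ 2 by ring, Real.sqrt_sq (by positivity)]
  have hΘ0 : 0 < W * (ρ * Q) ^ 4 := by positivity
  rw [← sum_mul]
  have h3 := sum_srt X (a := fun i => G i / (W * (ρ * Q) ^ 4))
    (fun i => div_nonneg (hG i) hΘ0.le) (A := 2 * (W * x) / (W * (ρ * Q) ^ 4)) (by
      rw [← sum_div, ← mul_div_assoc]
      exact div_le_div_of_nonneg_right h hΘ0.le)
  refine (mul_le_mul_of_nonneg_right h3 (by positivity)).trans ?_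
  have h4 : √(2 * (W * x) / (W * (ρ * Q) ^ 4)) = √2 * √x / (ρ * Q) ^ 2 := by
    rw [show 2 * (W * x) / (W * (ρ * Q) ^ 4) = 2 * x / (ρ * Q) ^ 4 by field_simp,
      Real.sqrt_div' _ (by positivity), hrt2, Real.sqrt_mul (by norm_num)]
  rw [h4]
  calc (#X : ℝ) * (√2 * √x / (ρ * Q) ^ 2) * (ρ * Q * W * Y) =
      √2 * (#X * (W * (√x * Y))) / (ρ * Q) := by field_simp
    _ ≤ √2 * (#X * (W * (√x * Y))) := div_le_self (by positivity) hρQ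
    _ ≤ 2 * (#X * (W * (√x * Y))) := mul_le_mul_of_nonneg_right q3 (by positivity)

/-- the main term -/
theorem main_sum {ι : Type*} (X : Finset ι) {A B C : ι → ℝ} (hA : ∀ i, 0 ≤ A i)
    (hB : ∀ i, 0 ≤ B i) (hC : ∀ i, 0 ≤ C i) {W a b m : ℝ} (hW : 0 < W) (ha : 0 < a) (hb : 0 < b)
    (hm : 0 < m) (sA : ∑ i ∈ X, A i ≤ #X * (2 * (W * a)))
    (sB : ∑ i ∈ X, B i ≤ #X * (2 * (W * b))) (sC : ∑ i ∈ X, C i ≤ #X * (2 * (W * m))) :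
    ∑ i ∈ X, √(√(A i * B i) * C i) ≤ 2 * (#X * (W * √(√(a * b) * m))) := by
  refine (holder442 X hA hB hC).trans ?_
  have h2 : (∑ i ∈ X, A i) * ∑ i ∈ X, B i ≤ (2 * #X * W) ^ 2 * (a * b) :=
    (mul_le_mul sA sB (sum_nonneg fun i _ => hB i) (by positivity)).trans (le_of_eq (by ring))
  have h3 : √((∑ i ∈ X, A i) * ∑ i ∈ X, B i) ≤ 2 * #X * W * √(a * b) := by
    refine (Real.sqrt_le_sqrt h2).trans (le_of_eq ?_)
    rw [Real.sqrt_mul (sq_nonneg _), Real.sqrt_sq (by positivity)]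
  have h4 : √((∑ i ∈ X, A i) * ∑ i ∈ X, B i) * ∑ i ∈ X, C i ≤
      (2 * #X * W) ^ 2 * (√(a * b) * m) :=
    (mul_le_mul h3 sC (sum_nonneg fun i _ => hC i) (by positivity)).trans (le_of_eq (by ring))
  refine (Real.sqrt_le_sqrt h4).trans (le_of_eq ?_)
  rw [Real.sqrt_mul (sq_nonneg _), Real.sqrt_sq (by positivity)]
  ring

/-- the pointwise bounds of the tail -/
theorem pt1 {G ρ Θ DB DC Q W b m : ℝ} (hG : 0 ≤ G) (hΘ : 0 < Θ) (hρ : 1 ≤ ρ) (hQ : 0 < Q)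
    (hW : 0 < W) (hm : 0 < m) (h1 : 0 ≤ DB ∧ DB ≤ Q * W * √b)
    (h2 : 0 ≤ DC ∧ DC ≤ Q * W * m) :
    √√(G / (ρ * Θ)) * √(ρ * DB * (ρ * DC)) ≤ √√(G / Θ) * (ρ * Q * W * √(√b * m)) := by
  have hρ0 : 0 < ρ := by linarith
  refine mul_le_mul ?_ ?_ (Real.sqrt_nonneg _) (Real.sqrt_nonneg _)
  · refine Real.sqrt_le_sqrt (Real.sqrt_le_sqrt ?_)
    exact div_le_div_of_nonneg_left hG hΘ (by nlinarith)
  · have h3 : ρ * DB * (ρ * DC) ≤ (ρ * Q * W) ^ 2 * (√b * m) := by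
      have := mul_le_mul (mul_le_mul_of_nonneg_left h1.2 hρ0.le)
        (mul_le_mul_of_nonneg_left h2.2 hρ0.le) (mul_nonneg hρ0.le h2.1) (by positivity)
      exact this.trans (le_of_eq (by ring))
    refine (Real.sqrt_le_sqrt h3).trans (le_of_eq ?_)
    rw [Real.sqrt_mul (sq_nonneg _), Real.sqrt_sq (by positivity)]

theorem pt2 {G ρ Θ DA DC Q W a m : ℝ} (hG : 0 ≤ G) (hΘ : 0 < Θ) (hρ : 1 ≤ ρ) (hQ : 0 < Q)
    (hW : 0 < W) (hm : 0 < m) (h1 : 0 ≤ DA ∧ DA ≤ Q * W * √a)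
    (h2 : 0 ≤ DC ∧ DC ≤ Q * W * m) :
    √√(ρ * G / Θ) * √(ρ * DC * DA) ≤ √√(G / Θ) * (ρ * Q * W * √(√a * m)) := by
  have hρ0 : 0 < ρ := by linarith
  have r1 : √√(ρ * G / Θ) = √√ρ * √√(G / Θ) := by
    rw [mul_div_assoc, Real.sqrt_mul hρ0.le, Real.sqrt_mul (Real.sqrt_nonneg _)]
  have r2 : √(ρ * DC * DA) ≤ √ρ * (Q * W * √(√a * m)) := by
    have h3 : ρ * DC * DA ≤ ρ * ((Q * W) ^ 2 * (√a * m)) := by
      have := mul_le_mul h2.2 h1.2 h1.1 (by positivity)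
      rw [mul_assoc]
      exact mul_le_mul_of_nonneg_left (this.trans (le_of_eq (by ring))) hρ0.le
    refine (Real.sqrt_le_sqrt h3).trans (le_of_eq ?_)
    rw [Real.sqrt_mul hρ0.le, Real.sqrt_mul (sq_nonneg _), Real.sqrt_sq (by positivity)]
  have r3 : √√ρ * √ρ ≤ ρ := by
    have h5 : √√ρ ≤ √ρ := Real.sqrt_le_sqrt ((Real.sqrt_le_left (by linarith)).2 (by
      nlinarith))
    calc √√ρ * √ρ ≤ √ρ * √ρ := mul_le_mul_of_nonneg_right h5 (Real.sqrt_nonneg _)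
      _ = ρ := Real.mul_self_sqrt hρ0.le
  rw [r1]
  calc √√ρ * √√(G / Θ) * √(ρ * DC * DA) ≤
      √√ρ * √√(G / Θ) * (√ρ * (Q * W * √(√a * m))) := mul_le_mul_of_nonneg_left r2 (by positivity)
    _ = √√ρ * √ρ * (√√(G / Θ) * (Q * W * √(√a * m))) := by ring
    _ ≤ ρ * (√√(G / Θ) * (Q * W * √(√a * m))) := mul_le_mul_of_nonneg_right r3 (by positivity)
    _ = _ := by ring

theorem pt3 {G ρ Θ DA DB Q W a b : ℝ} (hρ : 1 ≤ ρ) (hQ : 0 < Q)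
    (hW : 0 < W) (h1 : 0 ≤ DA ∧ DA ≤ Q * W * √a) (h2 : 0 ≤ DB ∧ DB ≤ Q * W * √b) :
    √(ρ * G / Θ) * √(DA * (ρ * DB)) ≤ √(G / Θ) * (ρ * Q * W * √(√a * √b)) := by
  have hρ0 : 0 < ρ := by linarith
  have r1 : √(ρ * G / Θ) = √ρ * √(G / Θ) := by
    rw [mul_div_assoc, Real.sqrt_mul hρ0.le]
  have r2 : √(DA * (ρ * DB)) ≤ √ρ * (Q * W * √(√a * √b)) := by
    have h3 : DA * (ρ * DB) ≤ ρ * ((Q * W) ^ 2 * (√a * √b)) := by
      have := mul_le_mul h1.2 h2.2 h2.1 (by positivity)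
      rw [show DA * (ρ * DB) = ρ * (DA * DB) by ring]
      exact mul_le_mul_of_nonneg_left (this.trans (le_of_eq (by ring))) hρ0.le
    refine (Real.sqrt_le_sqrt h3).trans (le_of_eq ?_)
    rw [Real.sqrt_mul hρ0.le, Real.sqrt_mul (sq_nonneg _), Real.sqrt_sq (by positivity)]
  rw [r1]
  calc √ρ * √(G / Θ) * √(DA * (ρ * DB)) ≤ √ρ * √(G / Θ) * (√ρ * (Q * W * √(√a * √b))) :=
        mul_le_mul_of_nonneg_left r2 (by positivity)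
    _ = √ρ * √ρ * (√(G / Θ) * (Q * W * √(√a * √b))) := by ring
    _ = ρ * (√(G / Θ) * (Q * W * √(√a * √b))) := by rw [Real.mul_self_sqrt hρ0.le]
    _ = _ := by ring

/-- the conditions on the number of levels -/
theorem lev1 {ρ Q W x cX G : ℝ} {L : ℕ} (hρ : 1 ≤ ρ) (hQ : 1 ≤ Q) (hW : 0 < W) (hx : 0 < x)
    (hG : 0 ≤ G) (hc : cX ^ 4 ≤ Q * x) (hL : (ρ * Q) ^ 5 ≤ 4 ^ (L - 1)) :
    ρ * (W * (ρ * Q) ^ 4) * cX ^ 4 ≤ 16 ^ (L - 1) * (G + W * x) := by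
  have hρ0 : 0 < ρ := by linarith
  have hQ0 : 0 < Q := by linarith
  have h16 : (4 : ℝ) ^ (L - 1) ≤ 16 ^ (L - 1) := pow_le_pow_left₀ (by norm_num) (by norm_num) _
  calc ρ * (W * (ρ * Q) ^ 4) * cX ^ 4 ≤ ρ * (W * (ρ * Q) ^ 4) * (Q * x) :=
        mul_le_mul_of_nonneg_left hc (by positivity)
    _ = (ρ * Q) ^ 5 * (W * x) := by ring
    _ ≤ 4 ^ (L - 1) * (W * x) := mul_le_mul_of_nonneg_right hL (by positivity)
    _ ≤ 16 ^ (L - 1) * (W * x) := mul_le_mul_of_nonneg_right h16 (by positivity)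
    _ ≤ 16 ^ (L - 1) * (G + W * x) := mul_le_mul_of_nonneg_left (by linarith) (by positivity)

theorem lev2 {ρ Q W x q G : ℝ} {L : ℕ} (hρ : 1 ≤ ρ) (hQ : 1 ≤ Q) (hW : 0 < W) (hx : 0 < x)
    (hG : 0 ≤ G) (hc : q ≤ Q * x) (hL : (ρ * Q) ^ 5 ≤ 4 ^ (L - 1)) :
    W * (ρ * Q) ^ 4 * q ≤ 4 ^ (L - 1) * (ρ * (G + W * x)) := by
  have hρ0 : 0 < ρ := by linarith
  have hQ0 : 0 < Q := by linarith
  have h1 : 0 ≤ W * x := by positivity
  calc W * (ρ * Q) ^ 4 * q ≤ W * (ρ * Q) ^ 4 * (Q * x) := mul_le_mul_of_nonneg_left hc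
        (by positivity)
    _ = (ρ * Q) ^ 4 * (1 * Q) * (W * x) := by ring
    _ ≤ (ρ * Q) ^ 4 * (ρ * Q) * (W * x) := by gcongr
    _ = (ρ * Q) ^ 5 * (W * x) := by ring
    _ ≤ 4 ^ (L - 1) * (W * x) := mul_le_mul_of_nonneg_right hL (by positivity)
    _ ≤ 4 ^ (L - 1) * (ρ * (G + W * x)) := by
      refine mul_le_mul_of_nonneg_left ?_ (by positivity)
      nlinarith [mul_nonneg (by linarith : 0 ≤ ρ - 1) (by linarith : 0 ≤ G + W * x)]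

theorem poly_le {κ ρ Y : ℝ} (L : ℕ) (hκ : 0 ≤ κ) (hρ : 1 ≤ ρ) (hY : 0 ≤ Y) :
    6 * (κ * (1 + (L : ℝ)) ^ 2 * √ρ) * (3 * L) * (2 * Y) +
      100 * κ * (20 + (L : ℝ)) ^ 2 * (2 * Y + 2 * Y + 2 * Y) ≤
      66 * κ * (20 + (L : ℝ)) ^ 3 * √ρ * Y := by
  have hL0 : (0 : ℝ) ≤ (L : ℝ) := Nat.cast_nonneg L
  generalize (L : ℝ) = w at hL0 ⊢
  have hsρ : 1 ≤ √ρ := by rw [Real.one_le_sqrt]; exact hρ
  generalize √ρ = q at hsρ ⊢
  have g1 : (1 + w) ^ 2 * w ≤ (20 + w) ^ 3 := by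
    have : (20 + w) ^ 3 - (1 + w) ^ 2 * w = 8000 + 1199 * w + 58 * w ^ 2 := by ring
    nlinarith [sq_nonneg w]
  have g2 : 20 * (20 + w) ^ 2 ≤ (20 + w) ^ 3 := by
    have : (20 + w) ^ 3 - 20 * (20 + w) ^ 2 = w * (20 + w) ^ 2 := by ring
    nlinarith [mul_nonneg hL0 (sq_nonneg (20 + w))]
  have g3 : (20 + w) ^ 3 ≤ (20 + w) ^ 3 * q := le_mul_of_one_le_right (by positivity) hsρ
  have hκY : 0 ≤ κ * Y := mul_nonneg hκ hY
  have hκYq : 0 ≤ κ * Y * q := mul_nonneg hκY (by linarith)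
  have f3 := mul_le_mul_of_nonneg_right g1 hκYq
  have f4 := mul_le_mul_of_nonneg_right (g2.trans g3) hκY
  linarith

/-- **The sum over the outer variable.**  `W = 4 ^ N`; `a`, `b`, `m` are the averages of the
energies of the three slots, `Q` a crude bound of caps and masses in these units. -/
theorem x0_sum {ι : Type*} (X : Finset ι) {T GA GB EC DA DB DC : ι → ℝ}
    {κ ρ cA cB cC a b m W Q : ℝ} {L : ℕ} (hκ : 0 ≤ κ) (hρ : 1 ≤ ρ) (ha : 0 < a) (hb : 0 < b)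
    (hm : 0 < m) (hW : 0 < W) (hQ : 1 ≤ Q) (pA : ∀ i, 0 ≤ GA i) (pB : ∀ i, 0 ≤ GB i)
    (pC : ∀ i, 0 ≤ EC i) (sA : ∑ i ∈ X, GA i ≤ #X * (W * a)) (sB : ∑ i ∈ X, GB i ≤ #X * (W * b))
    (sC : ∑ i ∈ X, EC i ≤ #X * (W * m)) (cA4 : cA ^ 4 ≤ Q * a) (cB4 : cB ^ 4 ≤ Q * b)
    (cC2 : cC ^ 2 ≤ Q * m) (hL : (ρ * Q) ^ 5 ≤ 4 ^ (L - 1))
    (hDA : ∀ i ∈ X, 0 ≤ DA i ∧ DA i ≤ Q * W * √a) (hDB : ∀ i ∈ X, 0 ≤ DB i ∧ DB i ≤ Q * W * √b)
    (hDC : ∀ i ∈ X, 0 ≤ DC i ∧ DC i ≤ Q * W * m)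
    (hT : ∀ i ∈ X, ∀ Θ GA' GB' EC' : ℝ, 0 < Θ → GA i ≤ GA' → GB i ≤ GB' → EC i ≤ EC' →
      ρ * Θ * cA ^ 4 ≤ 16 ^ (L - 1) * GA' → Θ * cB ^ 4 ≤ 16 ^ (L - 1) * (ρ * GB') →
      Θ * cC ^ 2 ≤ 4 ^ (L - 1) * (ρ * EC') →
      T i ≤ 6 * (κ * (1 + (L : ℝ)) ^ 2 * (√ρ * √(√(GA' * GB') * EC'))) * (L + L + L : ℕ) +
        100 * κ * (20 + (L : ℝ)) ^ 2 *
          st3 √√(GA' / (ρ * Θ)) √√(ρ * GB' / Θ) √(ρ * EC' / Θ) (DA i) (ρ * DB i) (ρ * DC i)) :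
    ∑ i ∈ X, T i ≤ 66 * κ * (20 + (L : ℝ)) ^ 3 * √ρ * (#X * (W * √(√(a * b) * m))) := by
  have hρ0 : 0 < ρ := by linarith
  have hQ0 : 0 < Q := by linarith
  have hρQ : 1 ≤ ρ * Q := by nlinarith
  have hL0 : (0 : ℝ) ≤ (L : ℝ) := Nat.cast_nonneg L
  have h16 : (4 : ℝ) ^ (L - 1) ≤ 16 ^ (L - 1) :=
    pow_le_pow_left₀ (by norm_num) (by norm_num) _
  have wa : 0 < W * a := by positivity
  have wb : 0 < W * b := by positivity
  have wm : 0 < W * m := by positivity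
  have hΘ0 : 0 < W * (ρ * Q) ^ 4 := by positivity
  have nA : ∀ i, 0 ≤ GA i + W * a := fun i => by linarith [pA i]
  have nB : ∀ i, 0 ≤ GB i + W * b := fun i => by linarith [pB i]
  have nC : ∀ i, 0 ≤ EC i + W * m := fun i => by linarith [pC i]
  have eA : ∑ i ∈ X, (GA i + W * a) ≤ #X * (2 * (W * a)) := by
    rw [sum_add_distrib, sum_const, nsmul_eq_mul]; linarith
  have eB : ∑ i ∈ X, (GB i + W * b) ≤ #X * (2 * (W * b)) := by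
    rw [sum_add_distrib, sum_const, nsmul_eq_mul]; linarith
  have eC : ∑ i ∈ X, (EC i + W * m) ≤ #X * (2 * (W * m)) := by
    rw [sum_add_distrib, sum_const, nsmul_eq_mul]; linarith
  have main := main_sum X nA nB nC hW ha hb hm eA eB eC
  have eP1 : √√a * √(√b * m) = √(√(a * b) * m) := by
    rw [← Real.sqrt_mul (Real.sqrt_nonneg _), ← mul_assoc, ← Real.sqrt_mul ha.le]
  have eP2 : √√b * √(√a * m) = √(√(a * b) * m) := by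
    rw [← Real.sqrt_mul (Real.sqrt_nonneg _), ← mul_assoc, ← Real.sqrt_mul hb.le,
      mul_comm b a]
  have eP3 : √m * √(√a * √b) = √(√(a * b) * m) := by
    rw [← Real.sqrt_mul hm.le, ← Real.sqrt_mul ha.le, mul_comm m]
  have tail1 := (sum_le_sum fun i (hi : i ∈ X) => pt1 (nA i) hΘ0 hρ hQ0 hW hm (hDB i hi)
    (hDC i hi)).trans (t_qrt X nA hW ha hρ0 hQ0 (Real.sqrt_nonneg (√b * m)) eA)
  have tail2 := (sum_le_sum fun i (hi : i ∈ X) => pt2 (nB i) hΘ0 hρ hQ0 hW hm (hDA i hi)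
    (hDC i hi)).trans (t_qrt X nB hW hb hρ0 hQ0 (Real.sqrt_nonneg (√a * m)) eB)
  have tail3 := (sum_le_sum fun i (hi : i ∈ X) => pt3 (G := EC i + W * m)
    (Θ := W * (ρ * Q) ^ 4) hρ hQ0 hW (hDA i hi)
    (hDB i hi)).trans (t_srt X nC hW hρQ (Real.sqrt_nonneg (√a * √b)) eC)
  rw [eP1] at tail1
  rw [eP2] at tail2
  rw [eP3] at tail3
  generalize √(√(a * b) * m) = P at main tail1 tail2 tail3 ⊢
  have hP0 : 0 ≤ (#X : ℝ) * (W * P) := by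
    have h0 : 0 ≤ ∑ i ∈ X, √(√((GA i + W * a) * (GB i + W * b)) * (EC i + W * m)) :=
      sum_nonneg fun i _ => Real.sqrt_nonneg _
    linarith
  have hsum : ∑ i ∈ X, T i ≤ ∑ i ∈ X,
      (6 * (κ * (1 + (L : ℝ)) ^ 2 * √ρ) * (3 * L) *
        √(√((GA i + W * a) * (GB i + W * b)) * (EC i + W * m)) +
      100 * κ * (20 + (L : ℝ)) ^ 2 *
        (√√((GA i + W * a) / (ρ * (W * (ρ * Q) ^ 4))) * √(ρ * DB i * (ρ * DC i)) +
          √√(ρ * (GB i + W * b) / (W * (ρ * Q) ^ 4)) * √(ρ * DC i * DA i) +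
          √(ρ * (EC i + W * m) / (W * (ρ * Q) ^ 4)) * √(DA i * (ρ * DB i)))) := by
    refine sum_le_sum fun i hi => ?_
    refine (hT i hi (W * (ρ * Q) ^ 4) (GA i + W * a) (GB i + W * b) (EC i + W * m) hΘ0
      (by linarith) (by linarith) (by linarith) (lev1 hρ hQ hW ha (pA i) cA4 hL)
      ((lev2 hρ hQ hW hb (pB i) cB4 hL).trans (mul_le_mul_of_nonneg_right h16
        (mul_nonneg hρ0.le (nB i))))
      (lev2 hρ hQ hW hm (pC i) cC2 hL)).trans (le_of_eq ?_)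
    unfold st3
    push_cast
    ring
  refine hsum.trans ?_
  rw [sum_add_distrib, ← mul_sum, ← mul_sum, sum_add_distrib, sum_add_distrib]
  have f1 := mul_le_mul_of_nonneg_left main
    (mul_nonneg (mul_nonneg (by norm_num) (mul_nonneg (mul_nonneg hκ (sq_nonneg _))
      (Real.sqrt_nonneg _))) (mul_nonneg (by norm_num) hL0) :
      0 ≤ 6 * (κ * (1 + (L : ℝ)) ^ 2 * √ρ) * (3 * L))
  have f2 := mul_le_mul_of_nonneg_left (add_le_add (add_le_add tail1 tail2) tail3)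
    (mul_nonneg (mul_nonneg (by norm_num) hκ) (sq_nonneg _) :
      0 ≤ 100 * κ * (20 + (L : ℝ)) ^ 2)
  exact (add_le_add f1 f2).trans (poly_le L hκ hρ hP0)

end

end Vale.Agent.P141.H186.XSum
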